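import Vale.Agent.P308.Spec
import Vale.Agent.P328.Machine

/-!
The algorithm on lists and its running time.
-/

namespace Vale.Agent.P308.AL

open Vale.Agent.Lib.H24.T Vale.Agent.P338.PTX
open Vale.Agent.P328 (val)
open Vale.Agent.P328.AL (pt_val pt_npow)

/-- Inputs. -/
abbrev In : Type := List (List Bool) × List ℕ × List Bool
/-- Maps on vertices. -/
abbrev Mt : Type := List ℕ
/-- The history of the annealing. -/
abbrev Hs : Type := List (ℕ × ℕ × Bool × ℕ)
/-- States. -/
abbrev LS : Type := (Hs × Bool) × List Mt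

/-- Evaluation. -/
def ap (π : Mt) (v : ℕ) : ℕ := π.getD v 0
/-- A transposition. -/
def sw (u v x : ℕ) : ℕ := if x = u then v else if x = v then u else x
/-- The exponents. -/
def ke (H : Hs) (x y : ℕ) : ℤ :=
  (H.map fun e => if (x = e.1 ∧ y = e.2.1) ∨ (x = e.2.1 ∧ y = e.1) then
    cond e.2.2.1 (-1 : ℤ) 1 else 0).sum
/-- One step of the walk. -/
def w1 (a b : Mt) (v s : ℕ) : ℕ := if s % 2 = 0 then ap a v else ap b v

variable (g : In)

/-- The number of vertices. -/
def N : ℕ := g.1.length
/-- The vertices. -/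
def vs : List ℕ := List.range g.1.length
/-- Adjacency. -/
def ad (u v : ℕ) : Bool := (g.1.getD u []).getD v false
/-- The size parameter. -/
def t : ℕ := g.1.length + (g.2.1.getD 1 0 + g.2.1.getD 0 0 - 1) / g.2.1.getD 0 0 +
  ((g.2.1.getD 3 0 + g.2.1.getD 2 0 - 1) / g.2.1.getD 2 0).size + 1024
/-- The precision in unary. -/
def bU : List Bool := (t g).bits ++ (t g).bits ++ (t g).bits ++ (t g).bits
/-- The precision. -/
def b : ℕ := (bU g).length
/-- The base. -/
def q : ℕ := 2 ^ (bU g).length
/-- Bounded power. -/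
def pw (x e : ℕ) : ℕ := x ^ (g.2.2.take e).length
/-- Bounded range. -/
def rg (e : ℕ) : List ℕ := List.range (g.2.2.take e).length
/-- List version. -/
def K4 : ℕ := 171 * b g * q g ^ 176
/-- List version. -/
def B1 : ℕ := 1 + 686 * b g + K4 g
/-- The map given by a function. -/
def mk (f : ℕ → ℕ) : Mt := (vs g).map fun v => min (f v) (N g)
/-- The walk. -/
def wk (a c : Mt) (p i : ℕ) : ℕ := (rg g i).foldl (w1 a c) p
/-- The vertices of the walk. -/
def ws (a c : Mt) (p l : ℕ) : List ℕ := (rg g l).map (wk g a c p)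
/-- The walk is simple. -/
def ok (a c : Mt) (p l : ℕ) : Bool :=
  (rg g l).all fun i => (rg g l).all fun j => decide (¬ wk g a c p i = wk g a c p j ∨ i = j)
/-- List version. -/
def sp (D : List ℕ) (a c : Mt) (p e : ℕ) : Mt := mk g fun v =>
  if v = p then ap a e else if v = ap a e then p else
    cond (D.any fun x => decide (x = v)) (ap c v) (ap a v)
/-- List version. -/
def fl (p j : ℕ) (s : Mt × Mt) : Mt × Mt :=
  cond (ok g s.1 s.2 p (2 * j + 1))
    (sp g (ws g s.1 s.2 p (2 * j + 1)) s.2 s.1 (wk g s.1 s.2 p (2 * j)) p,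
      sp g (ws g s.1 s.2 p (2 * j + 1)) s.1 s.2 p (wk g s.1 s.2 p (2 * j))) s
/-- List version. -/
def cj (u v : ℕ) (π : Mt) : Mt := mk g fun x => sw u v (ap π (sw u v x))
/-- List version. -/
def mv (p j u v u' v' : ℕ) (s : Mt × Mt) : Mt × Mt :=
  ((fl g p j (s.1, cj g u v s.2)).1, cj g u' v' (fl g p j (s.1, cj g u v s.2)).2)
/-- List version. -/
def W (H : Hs) (π : Mt) : ℤ := ((vs g).map fun v => ke H v (ap π v)).sum
/-- List version. -/
def inc (H : Hs) (s s' : Mt × Mt) : ℕ :=
  min (W g H s'.1 + W g H s'.2 - W g H s.1 - W g H s.2).toNat (q g ^ 176)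
/-- Change of one member of the population. -/
def st (X : List Mt) (i : ℕ) (π : Mt) : List Mt := X.take i ++ mk g (ap π) :: X.drop (i + 1)
/-- List version. -/
def fmove (H : Hs) (X : List Mt) (i l : ℕ) (s' : Mt × Mt) (U : ℕ) : List Mt :=
  if ¬ i = l ∧ U * pw g (q g ^ 171) (inc g H (X.getD i [], X.getD l []) s') <
      pw g (q g ^ 171 - 1) (inc g H (X.getD i [], X.getD l []) s') * pw g 2 (K4 g) then
    st g (st g X i s'.1) l s'.2 else X
/-- The proposal is legal. -/
def lg (l : List Bool) : Bool :=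
  decide (l.headD false = true ∧
    (rd l 1 (340 * b g) < q g ^ 340 ∧ rd l (1 + 340 * b g) (340 * b g) < q g ^ 340) ∧
      rd l (1 + 680 * b g) (b g) < N g ∧ rd l (1 + 681 * b g) (b g) < N g ∧
      rd l (1 + 682 * b g) (b g) < N g ∧ rd l (1 + 683 * b g) (b g) < N g ∧
      rd l (1 + 684 * b g) (b g) < N g ∧ rd l (1 + 685 * b g) (b g) < N g)
/-- List version. -/
def fstep (H : Hs) (l : List Bool) (X : List Mt) : List Mt :=
  cond (lg g l) (fmove g H X (rd l 1 (340 * b g)) (rd l (1 + 340 * b g) (340 * b g))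
    (mv g (rd l (1 + 680 * b g) (b g)) (rd l (1 + 681 * b g) (b g)) (rd l (1 + 682 * b g) (b g))
      (rd l (1 + 683 * b g) (b g)) (rd l (1 + 684 * b g) (b g)) (rd l (1 + 685 * b g) (b g))
      (X.getD (rd l 1 (340 * b g)) [], X.getD (rd l (1 + 340 * b g) (340 * b g)) []))
    (rd l (1 + 686 * b g) (K4 g))) X
/-- List version. -/
def cnt (X : List Mt) (u v : ℕ) : ℕ :=
  ((X.take (q g ^ 13)).filter fun π => decide (ap π u = v)).length
/-- List version. -/
def prs : List (ℕ × ℕ) := (vs g).flatMap fun u => (vs g).map fun v => (u, v)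
/-- The candidates for a decision. -/
def dec (H : Hs) (X : List Mt) : List (ℕ × ℕ × Bool) :=
  (((prs g).filter fun e => decide (¬ e.1 = e.2 ∧ cnt g X e.1 e.2 < 2 * q g ^ 11)).map
      fun e => (e.1, e.2, true)) ++
    (((prs g).filter fun e => decide (¬ e.1 = e.2 ∧ 4 * q g ^ 11 < cnt g X e.1 e.2 ∧
      (ad g e.1 e.2 = false ∨ ke H e.1 e.2 < 0))).map fun e => (e.1, e.2, false))
/-- List version. -/
def aup (X : List Mt) (s : Hs × Bool) : Hs × Bool :=
  cond s.2 s (lcase (dec g s.1 X) (s.1, true) fun d _ =>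
    ((min d.1 (N g), min d.2.1 (N g), d.2.2, cnt g X d.1 d.2.1) :: s.1, false))
/-- The steps of one stage. -/
def rn (H : Hs) (l : List Bool) (X : List Mt) : List Mt :=
  (rg g (q g ^ 490)).foldl (fun Y s => fstep g H ((l.drop (s * B1 g)).take (B1 g)) Y) X
/-- List version. -/
def stg (l : List Bool) (y : LS) : LS := (aup g y.2 y.1, rn g (aup g y.2 y.1).1 l y.2)
/-- One choice at the start. -/
def g1 (y : List Bool × List ℕ × Mt) : List Bool × List ℕ × Mt :=
  lcase y.2.1 y fun a R => (y.1.drop (342 * b g),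
    R.filter (fun x => decide (¬ x = R.getD (val (y.1.take (342 * b g)) % R.length) a)),
    mk g fun v => if v = a then R.getD (val (y.1.take (342 * b g)) % R.length) a else
      if v = R.getD (val (y.1.take (342 * b g)) % R.length) a then a else ap y.2.2 v)
/-- List version. -/
def gen (l : List Bool) : Mt := ((vs g).foldl (fun y _ => g1 g y) (l, vs g, vs g)).2.2
/-- List version. -/
def ini : List Mt := (rg g (q g ^ 340)).map fun i =>
  gen g ((g.2.2.drop (i * (N g * (342 * b g)))).take (N g * (342 * b g)))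
/-- List version. -/
def fin : Hs × Bool :=
  ((rg g (q g ^ 174)).foldl (fun y s => stg g
    (((g.2.2.drop (q g ^ 340 * (N g * (342 * b g)))).drop (s * (q g ^ 490 * B1 g))).take
      (q g ^ 490 * B1 g)) y) (([], false), ini g)).1
/-- The numerator. -/
def nu (H : Hs) : ℕ := (H.map fun e => cond e.2.2.1
  (q g ^ 13 * (q g ^ 171 - 1) ^ 2 + (2 * q g ^ 171 - 1) * e.2.2.2)
  (q g ^ 13 * (q g ^ 171) ^ 2 - (2 * q g ^ 171 - 1) * e.2.2.2)).prod
/-- The denominator. -/
def de (H : Hs) : ℕ := (H.map fun e => cond e.2.2.1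
  (q g ^ 13 * (q g ^ 171 - 1) ^ 2) (q g ^ 13 * (q g ^ 171) ^ 2)).prod
/-- The product of the odd numbers below the number of vertices. -/
def df : ℕ := ((vs g).map fun i => if i % 2 = 1 then i else 1).prod
/-- List version. -/
def out : ℕ × ℕ := (cond (fin g).2 (nu g (fin g).1 * df g) 0, de g (fin g).1)
/-- The algorithm. -/
def alg : ℕ × ℕ := if N g = 0 then (1, 1) else if N g % 2 = 1 then (0, 1) else out g

/-- Bound on the size of a map. -/
def mb : ℕ := g.1.length * (4 * sz (N g) + 2) + 1

theorem sz_mk (f : ℕ → ℕ) : sz (mk g f) ≤ mb g := by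
  have := sz_list_le (l := mk g f) (B := 4 * sz (N g) + 1) fun a ha => by
    obtain ⟨v, _, rfl⟩ := List.mem_map.1 ha
    exact sz_nat_mono (min_le_right _ _)
  simpa [mk, vs, mb] using this

theorem sz_st (X : List Mt) (i : ℕ) (π : Mt) : sz (st g X i π) ≤ sz X + (mb g + 1) := by
  have h1 := sz_append (X.take i) (mk g (ap π) :: X.drop (i + 1))
  have h2 := sz_append (X.take i) (X.drop i)
  have h3 := sz_drop (X.drop i) 1
  have h4 := sz_mk g (ap π)
  rw [List.take_append_drop] at h2
  rw [List.drop_drop] at h3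
  rw [sz_cons] at h1
  unfold st
  omega

theorem sz_fstep (H : Hs) (l : List Bool) (X : List Mt) :
    sz (fstep g H l X) ≤ sz X + 2 * (mb g + 1) := by
  unfold fstep
  cases lg g l
  · simp
  · rw [cond_true, fmove]
    split_ifs
    · exact (sz_st g _ _ _).trans ((add_le_add (sz_st g X _ _) le_rfl).trans (by omega))
    · omega

theorem sz_foldl {α β : Type} [Enc α] (F : α → β → α) (c : ℕ) (h : ∀ y x, sz (F y x) ≤ sz y + c)
    (l : List β) : ∀ y, sz (l.foldl F y) ≤ sz y + l.length * c := by
  induction l with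
  | nil => simp
  | cons x l ih =>
    intro y
    have := ih (F y x)
    have := h y x
    simp only [List.foldl_cons, List.length_cons, add_mul]
    omega

theorem sz_filter {α : Type} [Enc α] (l : List α) (f : α → Bool) : sz (l.filter f) ≤ sz l := by
  induction l with
  | nil => simp
  | cons x l ih => cases h : f x <;> simp [h] <;> omega

theorem sz_aup (X : List Mt) (s : Hs × Bool) :
    sz (aup g X s) ≤ sz s + (8 * sz (N g) + 4 * sz (q g ^ 13) + 20) := by
  obtain ⟨H, d⟩ := s
  have := sz_bool true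
  have := sz_bool false
  unfold aup
  cases d
  · dsimp only
    rw [cond_false]
    rcases dec g H X with _ | ⟨d, R⟩
    · simp only [lcase, sz_pair]; omega
    · have := sz_bool d.2.2
      have := sz_nat_mono (min_le_right d.1 (N g))
      have := sz_nat_mono (min_le_right d.2.1 (N g))
      have := sz_nat_mono (show cnt g X d.1 d.2.1 ≤ q g ^ 13 from
        (List.length_filter_le _ _).trans (List.length_take_le _ _))
      simp only [lcase, sz_pair, sz_cons]; omega
  · simp

theorem sz_stg (l : List Bool) (y : LS) : sz (stg g l y) ≤ sz y +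
    (8 * sz (N g) + 4 * sz (q g ^ 13) + 20 + (rg g (q g ^ 490)).length * (2 * (mb g + 1))) := by
  have h1 := sz_aup g y.2 y.1
  have h2 := sz_foldl (fun Y s => fstep g (aup g y.2 y.1).1 ((l.drop (s * B1 g)).take (B1 g)) Y) _
    (fun Y s => sz_fstep g _ _ Y) (rg g (q g ^ 490)) y.2
  rw [sz_pair' y, stg, sz_pair, rn]
  omega

theorem sz_g1 (y : List Bool × List ℕ × Mt) : sz (g1 g y) ≤ sz y + mb g := by
  obtain ⟨l, R, π⟩ := y
  unfold g1
  rcases R with _ | ⟨a, R⟩
  · simp [lcase]
  · have h1 := sz_drop l (342 * b g)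
    have h2 := sz_filter R
    have h3 := sz_mk g
    simp only [lcase, sz_pair, sz_cons]
    exact add_le_add (add_le_add h1 (add_le_add (add_le_add (h2 _) (h3 _)) le_rfl)) le_rfl
      |>.trans (by omega)

attribute [local irreducible] ap sw ke w1 N vs ad t bU b q pw rg K4 B1 mk wk ws ok sp fl cj mv W inc
  st fmove lg fstep cnt prs dec aup rn stg g1 gen ini fin nu de df out val rd

section
variable {α : Type} [Enc α] {g : α → In} {i j u v u' v' : α → ℕ} {a c : α → Mt} {H : α → Hs}
  {l : α → List Bool} {X : α → List Mt} {s s' : α → Mt × Mt}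

@[fun_prop] theorem pt_rd (hl : PT l) (hi : PT i) (hj : PT j) :
    PT fun z => rd (l z) (i z) (j z) := by unfold rd; fun_prop
@[fun_prop] theorem pt_ap (ha : PT a) (hi : PT i) : PT fun z => ap (a z) (i z) := by
  unfold ap; fun_prop
@[fun_prop] theorem pt_sw (hu : PT u) (hv : PT v) (hi : PT i) :
    PT fun z => sw (u z) (v z) (i z) := by unfold sw; fun_prop
@[fun_prop] theorem pt_ke (hH : PT H) (hi : PT i) (hj : PT j) :
    PT fun z => ke (H z) (i z) (j z) := by unfold ke; fun_prop
@[fun_prop] theorem pt_w1 (ha : PT a) (hc : PT c) (hi : PT i) (hj : PT j) :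
    PT fun z => w1 (a z) (c z) (i z) (j z) := by unfold w1; fun_prop

variable (hg : PT g)
include hg

@[fun_prop] theorem pt_N : PT fun z => N (g z) := by unfold N; fun_prop
@[fun_prop] theorem pt_vs : PT fun z => vs (g z) := by unfold vs; fun_prop
@[fun_prop] theorem pt_ad (hi : PT i) (hj : PT j) : PT fun z => ad (g z) (i z) (j z) := by
  unfold ad; fun_prop
@[fun_prop] theorem pt_t : PT fun z => t (g z) := by unfold t; fun_prop
@[fun_prop] theorem pt_bU : PT fun z => bU (g z) := by unfold bU; fun_prop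
@[fun_prop] theorem pt_b : PT fun z => b (g z) := by unfold b; fun_prop
@[fun_prop] theorem pt_q : PT fun z => q (g z) := by
  unfold q; exact pow (PT.const 2) (pt_bU hg)
@[fun_prop] theorem pt_pw (hi : PT i) (hj : PT j) : PT fun z => pw (g z) (i z) (j z) := by
  unfold pw; exact pow hi (by fun_prop)
@[fun_prop] theorem pt_rg (hi : PT i) : PT fun z => rg (g z) (i z) := by unfold rg; fun_prop
@[fun_prop] theorem pt_K4 : PT fun z => K4 (g z) := by unfold K4; fun_prop
@[fun_prop] theorem pt_B1 : PT fun z => B1 (g z) := by unfold B1; fun_prop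
@[fun_prop] theorem pb_mb : Pb fun z => mb (g z) := by unfold mb; fun_prop
@[fun_prop] theorem pt_mk {f : α → ℕ → ℕ} (hf : PT fun z : α × ℕ => f z.1 z.2) :
    PT fun z => mk (g z) (f z) := by unfold mk; fun_prop
@[fun_prop] theorem pt_wk (ha : PT a) (hc : PT c) (hi : PT i) (hj : PT j) :
    PT fun z => wk (g z) (a z) (c z) (i z) (j z) := by
  unfold wk
  refine PT.foldl_add (h := fun z y x => w1 (a z) (c z) y x) (by fun_prop) (by fun_prop) hi
    (fun z => sz (a z.1) + sz (c z.1)) (by fun_prop) fun z y x => ?_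
  have key : ∀ π : Mt, sz (ap π y) ≤ sz π := fun π => by
    unfold ap
    rw [List.getD_eq_getElem?_getD]
    rcases h : π[y]? with _ | w
    · exact sz_pos π
    · exact sz_mem (List.mem_of_getElem? h)
  have := key (a z)
  have := key (c z)
  unfold w1
  dsimp only
  split_ifs <;> omega
@[fun_prop] theorem pt_ws (ha : PT a) (hc : PT c) (hi : PT i) (hj : PT j) :
    PT fun z => ws (g z) (a z) (c z) (i z) (j z) := by unfold ws; fun_prop
@[fun_prop] theorem pt_ok (ha : PT a) (hc : PT c) (hi : PT i) (hj : PT j) :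
    PT fun z => ok (g z) (a z) (c z) (i z) (j z) := by unfold ok; fun_prop
@[fun_prop] theorem pt_sp {D : α → List ℕ} (hD : PT D) (ha : PT a) (hc : PT c) (hi : PT i)
    (hj : PT j) : PT fun z => sp (g z) (D z) (a z) (c z) (i z) (j z) := by unfold sp; fun_prop
@[fun_prop] theorem pt_fl (hi : PT i) (hj : PT j) (hs : PT s) :
    PT fun z => fl (g z) (i z) (j z) (s z) := by unfold fl; fun_prop
@[fun_prop] theorem pt_cj (hi : PT i) (hj : PT j) (ha : PT a) :
    PT fun z => cj (g z) (i z) (j z) (a z) := by unfold cj; fun_prop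
@[fun_prop] theorem pt_mv (hi : PT i) (hj : PT j) (hu : PT u) (hv : PT v) (hu' : PT u')
    (hv' : PT v') (hs : PT s) :
    PT fun z => mv (g z) (i z) (j z) (u z) (v z) (u' z) (v' z) (s z) := by unfold mv; fun_prop
@[fun_prop] theorem pt_W (hH : PT H) (ha : PT a) : PT fun z => W (g z) (H z) (a z) := by
  unfold W; fun_prop
@[fun_prop] theorem pt_inc (hH : PT H) (hs : PT s) (hs' : PT s') :
    PT fun z => inc (g z) (H z) (s z) (s' z) := by unfold inc; fun_prop
@[fun_prop] theorem pt_st (hX : PT X) (hi : PT i) (ha : PT a) :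
    PT fun z => st (g z) (X z) (i z) (a z) := by unfold st; fun_prop
@[fun_prop] theorem pt_fmove (hH : PT H) (hX : PT X) (hi : PT i) (hj : PT j) (hs : PT s)
    (hu : PT u) : PT fun z => fmove (g z) (H z) (X z) (i z) (j z) (s z) (u z) := by
  unfold fmove; fun_prop
@[fun_prop] theorem pt_lg (hl : PT l) : PT fun z => lg (g z) (l z) := by unfold lg; fun_prop
@[fun_prop] theorem pt_fstep (hH : PT H) (hl : PT l) (hX : PT X) :
    PT fun z => fstep (g z) (H z) (l z) (X z) := by unfold fstep; fun_prop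
@[fun_prop] theorem pt_cnt (hX : PT X) (hi : PT i) (hj : PT j) :
    PT fun z => cnt (g z) (X z) (i z) (j z) := by unfold cnt; fun_prop
@[fun_prop] theorem pt_prs : PT fun z => prs (g z) := by unfold prs; fun_prop
@[fun_prop] theorem pt_dec (hH : PT H) (hX : PT X) : PT fun z => dec (g z) (H z) (X z) := by
  unfold dec; fun_prop
@[fun_prop] theorem pt_aup {y : α → Hs × Bool} (hX : PT X) (hy : PT y) :
    PT fun z => aup (g z) (X z) (y z) := by unfold aup; fun_prop
@[fun_prop] theorem pt_rn (hH : PT H) (hl : PT l) (hX : PT X) :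
    PT fun z => rn (g z) (H z) (l z) (X z) := by
  unfold rn
  exact PT.foldl_add (h := fun z Y s => fstep (g z) (H z)
    (((l z).drop (s * B1 (g z))).take (B1 (g z))) Y) (by fun_prop) (by fun_prop) hX
    (fun z => 2 * (mb (g z.1) + 1)) (by fun_prop) fun z y x => sz_fstep _ _ _ _
@[fun_prop] theorem pt_stg {y : α → LS} (hl : PT l) (hy : PT y) :
    PT fun z => stg (g z) (l z) (y z) := by unfold stg; fun_prop
@[fun_prop] theorem pt_g1 {y : α → List Bool × List ℕ × Mt} (hy : PT y) :
    PT fun z => g1 (g z) (y z) := by unfold g1; fun_prop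
@[fun_prop] theorem pt_gen (hl : PT l) : PT fun z => gen (g z) (l z) := by
  unfold gen
  exact (PT.foldl_add (h := fun z y (_ : ℕ) => g1 (g z) y) (by fun_prop) (by fun_prop)
    (by fun_prop) (fun z => mb (g z.1)) (by fun_prop) fun z y x => sz_g1 _ _).snd.snd
@[fun_prop] theorem pt_ini : PT fun z => ini (g z) := by unfold ini; fun_prop
@[fun_prop] theorem pt_fin : PT fun z => fin (g z) := by
  unfold fin
  exact (PT.foldl_add (h := fun z y s => stg (g z)
    ((((g z).2.2.drop (q (g z) ^ 340 * (N (g z) * (342 * b (g z))))).drop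
      (s * (q (g z) ^ 490 * B1 (g z)))).take (q (g z) ^ 490 * B1 (g z))) y)
    (by fun_prop) (by fun_prop) (by fun_prop)
    (fun z => 8 * sz (N (g z.1)) + 4 * sz (q (g z.1) ^ 13) + 20 +
      (rg (g z.1) (q (g z.1) ^ 490)).length * (2 * (mb (g z.1) + 1))) (by fun_prop)
    fun z y x => sz_stg _ _ _).fst
@[fun_prop] theorem pt_nu (hH : PT H) : PT fun z => nu (g z) (H z) := by unfold nu; fun_prop
@[fun_prop] theorem pt_de (hH : PT H) : PT fun z => de (g z) (H z) := by unfold de; fun_prop
@[fun_prop] theorem pt_df : PT fun z => df (g z) := by unfold df; fun_prop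
@[fun_prop] theorem pt_out : PT fun z => out (g z) := by unfold out; fun_prop

end

theorem pt_alg : PT alg := by unfold alg; fun_prop

end Vale.Agent.P308.AL
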