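import Vale.Agent.P308.Ann1

/-! Module A: the invariant of the annealing. -/

namespace Vale.Agent.P308

namespace An

open Finset

variable {n : ℕ} {b : ℕ} {adj : Fin n → Fin n → Bool} {k : Fin n → Fin n → ℤ} {u v : Fin n}

/-- the step -/
noncomputable def dd (b : ℕ) : ℝ := 1 / qq b

/-- the invariant -/
structure Iv (b : ℕ) (adj : Fin n → Fin n → Bool) (t : ℕ) (s : As n) : Prop where
  dn : s.dn = false
  sy : ∀ u v, s.k u v = s.k v u
  bd : ∀ u v, |s.k u v| ≤ t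
  le0 : ∀ u v, adj u v = true → s.k u v ≤ 0
  D : ∑ p ∈ univ.offDiag, 1 / xm b s.k p.1 p.2 ≤ n ^ 2 * (q b : ℝ) ^ 2
  de : 0 < s.de
  lo : (1 - 6 * dd b / q b ^ 5) ^ t * (PP b s.k * s.de) ≤ s.nu * Fintype.card (PM (Fin n))
  hi : (s.nu * Fintype.card (PM (Fin n)) : ℝ) ≤ (1 + 6 * dd b / q b ^ 5) ^ t * (PP b s.k * s.de)
  pot : Real.log (PP b s.k) + 3 * (dd b / q b ^ 2) * sg s.k ≤ n ^ 2 - t * (dd b / q b ^ 2)

lemma gam_eq : gam b = 1 - dd b := rfl

section
variable (hq : 2 ^ 20 * (n + 1) ^ 2 ≤ q b)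
include hq

lemma hQ : (2 ^ 20 : ℝ) ≤ q b ∧ 2 ^ 20 * (n : ℝ) ^ 2 ≤ q b := by
  have : (2 ^ 20 * (n + 1) ^ 2 : ℝ) ≤ q b := by exact_mod_cast hq
  constructor <;> nlinarith [Nat.cast_nonneg (α := ℝ) n]

lemma hd : 0 < dd b ∧ dd b ≤ 1 / 100 ∧ SS b * dd b = q b ^ 3 := by
  have := (hQ hq).1
  have a : (0 : ℝ) < q b := by linarith
  simp only [dd, qq, SS, Nat.cast_pow]
  refine ⟨by positivity, one_div_le_one_div_of_le (by norm_num)
    (le_trans (by linarith) (le_self_pow₀ (by linarith) (by norm_num))), by field_simp⟩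

lemma g0 : 0 < gam b := by have := hd hq; rw [gam_eq]; linarith

lemma g1 : gam b ≤ 1 := by have := hd hq; rw [gam_eq]; linarith

lemma up : 1 ≤ gam b ^ (2 * -1 : ℤ) ∧ gam b ^ (2 * -1 : ℤ) - 1 ≤ 11 / 5 * dd b := by
  obtain ⟨d0, d1, -⟩ := hd hq
  have := g0 hq
  rw [show (2 * -1 : ℤ) = -(2 : ℕ) from rfl, zpow_neg, zpow_natCast, sub_le_iff_le_add,
    inv_le_iff_one_le_mul₀ (by positivity), one_le_inv₀ (by positivity), gam_eq]
  constructor <;> nlinarith [mul_pos d0 d0, mul_pos (mul_pos d0 d0) d0]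

lemma dw : -(2 * dd b) ≤ gam b ^ (2 * 1 : ℤ) - 1 ∧ gam b ^ (2 * 1 : ℤ) - 1 ≤ -(19 / 10 * dd b) := by
  obtain ⟨d0, d1, -⟩ := hd hq
  rw [show (2 * 1 : ℤ) = (2 : ℕ) from rfl, zpow_natCast, gam_eq]
  constructor <;> nlinarith

variable (hne : Nonempty (PM (Fin n)))
include hne

lemma step {t : ℕ} {s : As n} (h : Iv b adj t s) (huv : u ≠ v) {δ : ℤ} (δ1 : |δ| ≤ 1) {A B c : ℕ}
    (hb : |gam b ^ (2 * δ) - 1| ≤ 11 / 5 * dd b) (B0 : 0 < B)
    (hA : (A : ℝ) = B * (1 + (gam b ^ (2 * δ) - 1) * (c / kk b)))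
    (hc : |(c : ℝ) - kk b * xm b s.k u v| ≤ 1 / (q b : ℝ) ^ 5 * kk b)
    (l0 : ∀ x y, adj x y = true → bump s.k u v δ x y ≤ 0)
    (hD : ∑ p ∈ univ.offDiag, 1 / xm b (bump s.k u v δ) p.1 p.2 ≤ n ^ 2 * (q b : ℝ) ^ 2)
    (hP : (gam b ^ (2 * δ) - 1) * xm b s.k u v + 6 * δ * (dd b / q b ^ 2) ≤ -(dd b / q b ^ 2)) :
    Iv b adj (t + 1) ⟨bump s.k u v δ, s.nu * A, s.de * B, false⟩ ∧
      ∀ π, |mu b s.k π / mu b (bump s.k u v δ) π - 1| ≤ 3 / qq b := by
  obtain ⟨d0, d1, -⟩ := hd hq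
  have Q1 : (1 : ℝ) ≤ q b := by exact_mod_cast q1 b
  have x0 := xm_nn (k := s.k) (u := u) (v := v) (g0 hq) hne
  have x1 := xm_le (k := s.k) (u := u) (v := v) (g0 hq) hne
  have P0 := PP_pos (k := s.k) (g0 hq) hne
  have e1 := PP_bump (k := s.k) (g0 hq) hne huv δ
  have e2 := mu_bump (k := s.k) (g0 hq) hne huv δ
  obtain ⟨a, ha⟩ : ∃ a, gam b ^ (2 * δ) = a + 1 := ⟨_, (sub_add_cancel _ 1).symm⟩
  obtain ⟨x, hx⟩ : ∃ x, xm b s.k u v = x := ⟨_, rfl⟩
  simp only [ha, hx, add_sub_cancel_right] at hb hA hc hP x0 x1 e1 e2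
  have f1 : |a * x| ≤ 11 / 5 * dd b := by
    rw [abs_mul, abs_of_nonneg x0]; exact (mul_le_of_le_one_right (abs_nonneg _) x1).trans hb
  have f2 := abs_le.1 f1
  have f3 := abs_le.1 hb
  have F0 : 0 < 1 + a * x := by linarith
  have k0 : (0 : ℝ) < kk b := by simp only [kk, Nat.cast_pow]; positivity
  have r0 : 0 < dd b / q b ^ 5 := by positivity
  have r1 : dd b / q b ^ 5 ≤ 1 / 100 := (div_le_self d0.le (one_le_pow₀ Q1)).trans d1
  have f4 : |a * (c / kk b) - a * x| ≤ 3 * (dd b / q b ^ 5) := by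
    rw [← mul_sub, abs_mul, div_sub' k0.ne', abs_div, abs_of_pos k0]
    refine (mul_le_mul hb ((div_le_iff₀ k0).2 hc) (by positivity) (by positivity)).trans ?_
    rw [mul_assoc, mul_one_div]; linarith
  have f5 := abs_le.1 f4
  have B1 : (0 : ℝ) < B := by exact_mod_cast B0
  have de0 : (0 : ℝ) < s.de := by exact_mod_cast h.de
  refine ⟨⟨rfl, fun x y => ?_, fun x y => ?_, l0, hD, Nat.mul_pos h.de B0, ?_, ?_, ?_⟩, fun π => ?_⟩
  · simp only [bump, h.sy x y, and_comm, or_comm]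
  · have := h.bd x y
    simp only [bump]
    split_ifs
    · exact (abs_add_le _ _).trans (by push_cast; linarith)
    · push_cast; linarith
  · have := mul_le_mul h.lo (show B * ((1 - 6 * dd b / q b ^ 5) * (1 + a * x)) ≤ A by
      rw [hA, mul_div_assoc]; gcongr; nlinarith) (by
        rw [mul_div_assoc]; exact mul_nonneg B1.le (mul_nonneg (by linarith) F0.le)) (by positivity)
    simp only [e1, Nat.cast_mul, pow_succ _ t]
    linarith
  · have A0 : (0 : ℝ) ≤ A := Nat.cast_nonneg _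
    have := mul_le_mul h.hi (show A ≤ B * ((1 + 6 * dd b / q b ^ 5) * (1 + a * x)) by
      rw [hA, mul_div_assoc]; gcongr; nlinarith) A0 (by positivity)
    simp only [e1, Nat.cast_mul, pow_succ _ t]
    linarith
  · have := h.pot
    have := Real.log_le_sub_one_of_pos F0
    simp only [e1, sg_bump huv, Real.log_mul P0.ne' F0.ne']
    push_cast
    linarith
  · have m0 := mu_pos (k := s.k) (g0 hq) hne π
    rw [e2, mul_div_assoc, div_mul_cancel_left₀ m0.ne', inv_div,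
      show (3 / qq b : ℝ) = 3 * dd b from div_eq_mul_one_div _ _]
    split_ifs
    · have a0 : 0 < a + 1 := by linarith
      rw [div_sub_one a0.ne', abs_div, abs_of_pos a0, div_le_iff₀ a0,
        show 1 + a * x - (a + 1) = -a * (1 - x) by ring, abs_mul, abs_neg,
        abs_of_nonneg (sub_nonneg.2 x1)]
      nlinarith [abs_nonneg a]
    · rw [div_one, add_sub_cancel_left]; linarith

omit hq in
lemma xm_bump (g0 : 0 < gam b) (huv : u ≠ v) (δ : ℤ) {m : ℝ} (x y : Fin n)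
    (hm : ∀ π : PM (Fin n), π.1 x = y → m ≤ if π.1 u = v then gam b ^ (2 * δ) else 1)
    (F0 : 0 < 1 + (gam b ^ (2 * δ) - 1) * xm b k u v) :
    xm b k x y * m / (1 + (gam b ^ (2 * δ) - 1) * xm b k u v) ≤ xm b (bump k u v δ) x y := by
  rw [xm, sum_mul, sum_div]
  refine sum_le_sum fun π hπ => ?_
  rw [mu_bump g0 hne huv]
  exact div_le_div_of_nonneg_right (mul_le_mul_of_nonneg_left (hm π (mem_filter.1 hπ).2)
    (mu_pos g0 hne π).le) F0.le

lemma acc {c : ℕ} {x : ℝ} (hc : |(c : ℝ) - kk b * x| ≤ 1 / (q b : ℝ) ^ 5 * kk b) (m : ℕ) :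
    (c ≤ m * q b ^ 11 → x ≤ (m + 1 / 10) / q b ^ 2) ∧
      (m * q b ^ 11 ≤ c → (m - 1 / 10) / q b ^ 2 ≤ x) := by
  have := (hQ hq).1
  have Q0 : (0 : ℝ) < q b := by linarith
  have e : 1 / (q b : ℝ) ^ 5 * kk b ≤ 1 / 10 * q b ^ 11 := by
    have : (10 : ℝ) ≤ q b ^ 3 := le_trans (by linarith) (le_self_pow₀ (by linarith) (by norm_num))
    simp only [kk, Nat.cast_pow]
    field_simp
    exact this
  have e2 := abs_le.1 (hc.trans e)
  have e3 : (kk b : ℝ) * x = x * q b ^ 2 * q b ^ 11 := by simp only [kk, Nat.cast_pow]; ring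
  refine ⟨fun h => ?_, fun h => ?_⟩
  · have : (c : ℝ) ≤ m * q b ^ 11 := by exact_mod_cast h
    rw [le_div_iff₀ (by positivity)]
    exact le_of_mul_le_mul_right (by linarith) (pow_pos Q0 11)
  · have : (m * q b ^ 11 : ℝ) ≤ c := by exact_mod_cast h
    rw [div_le_iff₀ (by positivity)]
    exact le_of_mul_le_mul_right (by linarith) (pow_pos Q0 11)

lemma boostD (huv : u ≠ v) (hx : xm b k u v ≤ 3 / q b ^ 2)
    (hD : ∑ p ∈ univ.offDiag, 1 / xm b k p.1 p.2 ≤ n ^ 2 * (q b : ℝ) ^ 2) :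
    ∑ p ∈ univ.offDiag, 1 / xm b (bump k u v (-1)) p.1 p.2 ≤ n ^ 2 * (q b : ℝ) ^ 2 := by
  obtain ⟨u1, u2⟩ := up hq
  obtain ⟨d0, d1, -⟩ := hd hq
  obtain ⟨Q1, Q2⟩ := hQ hq
  have x0 := xm_pos (k := k) (g0 hq) hne huv
  have F1 : 1 ≤ 1 + (gam b ^ (2 * -1 : ℤ) - 1) * xm b k u v := by nlinarith
  have a1 := fun x y => xm_bump (k := k) hne (g0 hq) huv (-1) (m := 1) x y
    (fun π _ => by split_ifs; exacts [u1, le_rfl]) (by linarith)
  have a2 := xm_bump (k := k) hne (g0 hq) huv (-1) u v (fun π h => (if_pos h).ge) (by linarith)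
  obtain ⟨β, hβ⟩ : ∃ β, β = gam b ^ (2 * -1 : ℤ) := ⟨_, rfl⟩
  simp only [← hβ] at u1 u2 F1 a1 a2
  obtain ⟨F, hF⟩ : ∃ F, F = 1 + (β - 1) * xm b k u v := ⟨_, rfl⟩
  simp only [← hF] at F1 a1 a2
  have m : (u, v) ∈ (univ : Finset (Fin n)).offDiag := by simpa using huv
  rw [← add_sum_erase _ _ m] at hD ⊢
  have a3 : ∑ p ∈ univ.offDiag.erase (u, v), 1 / xm b (bump k u v (-1)) p.1 p.2 ≤
      F * ∑ p ∈ univ.offDiag.erase (u, v), 1 / xm b k p.1 p.2 := by
    rw [mul_sum]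
    refine sum_le_sum fun p hp => ?_
    have := xm_pos (k := k) (g0 hq) hne (mem_offDiag.1 (mem_of_mem_erase hp)).2.2
    refine (one_div_le_one_div_of_le (by positivity) (a1 _ _)).trans_eq (by field_simp)
  have a4 := one_div_le_one_div_of_le (by positivity) a2
  obtain ⟨x, hx'⟩ : ∃ x, x = xm b k u v := ⟨_, rfl⟩
  simp only [← hx'] at hx hD hF a4 x0
  have a5 : x * (n ^ 2 * (q b : ℝ) ^ 2) ≤ 1 / (x * β) := by
    have Q0 : (0 : ℝ) < q b := by linarith
    rw [le_div_iff₀ (by positivity)] at hx ⊢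
    have : x * (n ^ 2 * (q b : ℝ) ^ 2) * (x * β) * q b ^ 2 = (x * q b ^ 2) ^ 2 * β * n ^ 2 := by ring
    refine le_of_mul_le_mul_right (this.trans_le ?_) (pow_pos Q0 2)
    calc _ ≤ (3 : ℝ) ^ 2 * 2 * n ^ 2 := by gcongr; linarith
      _ ≤ _ := by nlinarith
  have a6 : 1 / (x * β / F) = F * (1 / x) - F * ((β - 1) * (1 / (x * β))) := by field_simp; ring
  have a7 : (β - 1) * (1 / (x * β)) ≤ F * ((β - 1) * (1 / (x * β))) :=
    le_mul_of_one_le_left (mul_nonneg (by linarith) (by positivity)) F1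
  have a8 := mul_le_mul_of_nonneg_left a5 (sub_nonneg.2 u1)
  have a9 := mul_le_mul_of_nonneg_left hD (zero_le_one.trans F1)
  have a10 : F * (n ^ 2 * (q b : ℝ) ^ 2) = _ := congrArg (· * (n ^ 2 * (q b : ℝ) ^ 2)) hF
  linarith

omit hq hne in
lemma D_le {f : Fin n × Fin n → ℝ} {C : ℝ} (C0 : 0 ≤ C)
    (h : ∀ p : Fin n × Fin n, p.1 ≠ p.2 → f p ≤ C) :
    ∑ p ∈ univ.offDiag, f p ≤ n ^ 2 * C := by
  refine (sum_le_card_nsmul _ _ C fun p hp => h p (mem_offDiag.1 hp).2.2).trans ?_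
  have : ((univ : Finset (Fin n)).offDiag.card : ℝ) ≤ n ^ 2 := by
    exact_mod_cast (card_le_univ _).trans_eq (by simp [sq])
  rw [nsmul_eq_mul]; gcongr

lemma reduceD (huv : u ≠ v) (hx : ∀ x y, x ≠ y → (2 - 1 / 10) / (q b : ℝ) ^ 2 ≤ xm b k x y) :
    ∑ p ∈ univ.offDiag, 1 / xm b (bump k u v 1) p.1 p.2 ≤ n ^ 2 * (q b : ℝ) ^ 2 := by
  obtain ⟨u1, u2⟩ := dw hq
  obtain ⟨d0, d1, -⟩ := hd hq
  have Q0 : (0 : ℝ) < q b := by linarith [(hQ hq).1]
  have x0 := xm_nn (k := k) (u := u) (v := v) (g0 hq) hne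
  have x1 := xm_le (k := k) (u := u) (v := v) (g0 hq) hne
  refine D_le (by positivity) fun p hp => ?_
  have a := xm_bump (k := k) hne (g0 hq) huv 1 (m := 9 / 10) p.1 p.2
  generalize gam b ^ (2 * 1 : ℤ) = β at u1 u2 a
  have F0 : 0 < 1 + (β - 1) * xm b k u v := by nlinarith
  replace a := a (fun π _ => by split_ifs <;> linarith) F0
  have c := hx _ _ hp
  have p0 := xm_pos (k := k) (g0 hq) hne hp
  rw [one_div_le (xm_pos (g0 hq) hne hp) (by positivity)]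
  refine le_trans ?_ ((le_div_self (by positivity) F0 (by nlinarith)).trans a)
  rw [div_le_iff₀ (by positivity)] at c ⊢
  nlinarith

lemma init (hn : 0 < n) : Iv b adj 0 ⟨fun _ _ => 0, 1, 1, false⟩ := by
  obtain ⟨Q1, Q2⟩ := hQ hq
  have n1 : (1 : ℝ) ≤ n := by exact_mod_cast hn
  have e : PP b (fun _ _ : Fin n => 0) = Fintype.card (PM (Fin n)) := by simp [PP, wt, rr]
  refine ⟨rfl, fun _ _ => rfl, by simp, by simp, D_le (by positivity) fun p hp => ?_, one_pos,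
    by simp [e], by simp [e], ?_⟩
  · rw [div_le_iff₀ (xm_pos (g0 hq) hne hp), ← xm_zero (g0 hq) hne hp]
    exact mul_le_mul_of_nonneg_right (by nlinarith) (xm_nn (g0 hq) hne)
  · have a : (Fintype.card (PM (Fin n)) : ℝ) ≤ n ^ n := by
      exact_mod_cast (Fintype.card_subtype_le _).trans_eq (by simp)
    have := Real.log_le_log (by exact_mod_cast Fintype.card_pos) a
    have := Real.log_le_sub_one_of_pos (zero_lt_one.trans_le n1)
    simp only [e, sg, Real.log_pow] at *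
    simp only [sum_const_zero, Int.cast_zero, Nat.cast_zero, mul_zero, zero_mul, add_zero, sub_zero]
    nlinarith

lemma good {t : ℕ} {s : As n} (h : Iv b adj t s) (ht : t < SS b)
    (hx : ∀ u v, u ≠ v → adj u v = false ∨ s.k u v < 0 → xm b s.k u v ≤ 5 / q b ^ 2) :
    Good b adj (s.nu * Fintype.card (PM (Fin n)), s.de) := by
  obtain ⟨Q1, Q2⟩ := hQ hq
  obtain ⟨d0, d1, d2⟩ := hd hq
  have Q0 : (0 : ℝ) < q b := by linarith
  have a1 := ZZ_le (g0 hq) (g1 hq) h.le0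
  have a2 := le_ZZ (g0 hq) hne (g1 hq) (by positivity) hx
  have P0 := PP_pos (k := s.k) (g0 hq) hne
  have de0 : (0 : ℝ) < s.de := by exact_mod_cast h.de
  obtain ⟨i, hi⟩ : ∃ i : ℝ, i = 1 / q b := ⟨_, rfl⟩
  have i0 : 0 < i := by rw [hi]; positivity
  have i1 : i ≤ 1 / 2 ^ 20 := hi ▸ one_div_le_one_div_of_le (by norm_num) Q1
  have a3 : (n : ℝ) ^ 2 * (5 / q b ^ 2) ≤ i / 10 := by rw [hi]; field_simp; linarith
  have l := h.lo
  have r := h.hi
  obtain ⟨e, he⟩ : ∃ e, e = 6 * dd b / q b ^ 5 := ⟨_, rfl⟩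
  rw [← he] at l r
  have e0 : 0 < e := by rw [he]; positivity
  have e1 : e ≤ 1 := by
    rw [he]; exact (div_le_self (by positivity) (one_le_pow₀ (by linarith))).trans (by linarith)
  have e2 : t * e ≤ i / 10 := by
    calc _ ≤ SS b * e := by gcongr
      _ = 6 * (SS b * dd b) / q b ^ 5 := by rw [he]; ring
      _ ≤ _ := by rw [d2, hi]; field_simp; linarith
  have b1 : 1 - i / 10 ≤ (1 - e) ^ t := by
    have := one_add_mul_le_pow (a := -e) (by linarith) t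
    rw [← sub_eq_add_neg] at this; linarith
  have b2 : (1 + e) ^ t ≤ 1 + i / 5 := by
    have : (1 + e) ^ t * (1 - e) ^ t ≤ 1 := by
      rw [← mul_pow]; exact pow_le_one₀ (by nlinarith) (by nlinarith)
    have p : 0 ≤ (1 + e) ^ t := by positivity
    have := mul_le_mul_of_nonneg_left b1 p
    by_contra hc
    nlinarith
  have Z0 : (0 : ℝ) ≤ ZZ adj := Nat.cast_nonneg _
  have b3 := mul_le_mul_of_nonneg_right a3 P0.le
  simp only [Good, Nat.cast_mul, ← hi]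
  rw [le_div_iff₀ de0, div_le_iff₀ de0]
  refine ⟨le_trans ?_ l, r.trans ?_⟩ <;> rw [← mul_assoc] <;>
    refine mul_le_mul_of_nonneg_right ?_ de0.le
  · exact mul_le_mul (by linarith) a1 Z0 (by linarith)
  · refine (mul_le_mul_of_nonneg_right b2 P0.le).trans ?_
    nlinarith [mul_le_mul_of_nonneg_left (show (1 - i / 10) * PP b s.k ≤ ZZ adj by linarith)
      (show 0 ≤ 1 + i by linarith), mul_pos i0 P0, mul_le_mul_of_nonneg_right i1 (mul_pos i0 P0).le]

lemma last {s : As n} (h : Iv b adj (SS b) s) (hn : 0 < n) : ZZ adj = 0 := by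
  obtain ⟨Q1, Q2⟩ := hQ hq
  obtain ⟨d0, d1, d2⟩ := hd hq
  have Q0 : (0 : ℝ) < q b := by linarith
  have n1 : (1 : ℝ) ≤ n := by exact_mod_cast hn
  by_contra hc
  have a1 : (1 : ℝ) ≤ PP b s.k := le_trans (by exact_mod_cast Nat.pos_of_ne_zero hc)
    (ZZ_le (g0 hq) (g1 hq) h.le0)
  have a2 := h.pot
  rw [← mul_div_assoc (SS b : ℝ), d2, show (q b : ℝ) ^ 3 / q b ^ 2 = q b by field_simp] at a2
  have a3 := Real.log_nonneg a1
  obtain ⟨r, hr⟩ : ∃ r, r = dd b / q b ^ 2 := ⟨_, rfl⟩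
  have r0 : 0 < r := by rw [hr]; positivity
  have r1 : 3 * r * n ≤ dd b := by
    rw [hr, ← mul_div_assoc, div_mul_eq_mul_div, div_le_iff₀ (by positivity)]
    nlinarith [mul_le_mul_of_nonneg_left (show 3 * (n : ℝ) ≤ q b ^ 2 by nlinarith) d0.le]
  rw [← hr] at a2
  suffices 0 ≤ Real.log (PP b s.k) + 3 * r * sg s.k by nlinarith
  obtain ⟨π, hπ⟩ := exists_W (k := s.k) (g0 hq) hne
  have a4 := Real.log_le_log (wt_pos (k := s.k) (g0 hq) π.1) (single_le_sum
    (f := fun π : PM (Fin n) => wt (rr b s.k) π.1) (fun _ _ => (wt_pos (g0 hq) _).le) (mem_univ π))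
  have a5 := Real.log_le_sub_one_of_pos (g0 hq)
  rw [wt_eq (g0 hq), Real.log_zpow, ← PP] at a4
  rw [gam_eq] at a4 a5
  have a6 := mul_le_mul_of_nonneg_left hπ (show 0 ≤ 3 * r by linarith)
  rcases le_total 0 (W s.k π.1 : ℝ) with w | w
  · nlinarith [mul_nonneg (mul_nonneg r0.le (sub_nonneg.2 n1)) w]
  · nlinarith [mul_le_mul_of_nonpos_left a5 w, mul_le_mul_of_nonpos_right r1 w,
      mul_nonpos_of_nonneg_of_nonpos r0.le w]

end

end An

open An Finset in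
theorem ann {n : ℕ} (b : ℕ) (adj : Fin n → Fin n → Bool) (hq : 2 ^ 20 * (n + 1) ^ 2 ≤ q b)
    (hn : 0 < n) (hs : ∀ u v, adj u v = adj v u) (hne : Nonempty (PM (Fin n))) :
    AnnStmt b adj := by
  obtain ⟨Q1, Q2⟩ := hQ hq
  obtain ⟨d0, d1, -⟩ := hd hq
  have Q0 : (0 : ℝ) < q b := by linarith
  have r0 : 0 < dd b / q b ^ 2 := by positivity
  refine ⟨Iv b adj, init hq hne hn, fun t s h => ⟨h.dn, h.sy, h.bd, fun u v huv => ?_⟩,
    fun t s c ht h hc => ?_, fun s h => last hq hne h hn⟩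
  · have := (single_le_sum (f := fun p : Fin n × Fin n => 1 / xm b s.k p.1 p.2)
      (fun p _ => one_div_nonneg.2 (xm_nn (g0 hq) hne)) (show (u, v) ∈ _ by simpa using huv)).trans h.D
    rw [one_div_le (by positivity) (xm_pos (g0 hq) hne huv)]
    exact this.trans (by nlinarith [mul_le_mul_of_nonneg_right Q2 (sq_nonneg (q b : ℝ))])
  have k0 : 0 < kk b := Nat.pow_pos (q1 b)
  have k1 : (kk b : ℝ) ≠ 0 := by exact_mod_cast k0.ne'
  have g := g0 hq
  have w0 : 0 < qq b := Nat.pow_pos (q1 b)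
  have w1 : (0 : ℝ) < qq b := by exact_mod_cast w0
  have w2 : (1 : ℝ) < qq b := by rwa [gam, sub_pos, div_lt_one w1] at g
  have w3 : ((2 * qq b - 1 : ℕ) : ℝ) = 2 * qq b - 1 := by
    rw [Nat.cast_sub (by omega)]; simp
  rw [aup, h.dn, if_neg Bool.false_ne_true]
  rcases e : dec b adj s.k c with _ | ⟨u, v, i⟩
  · refine .inl ⟨rfl, good hq hne h ht fun u v huv h' => ?_⟩
    refine ((acc hq hne (hc u v huv).2 4).1 (dec_none e huv h')).trans ?_
    gcongr; norm_num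
  refine .inr ?_
  obtain ⟨huv, ⟨rfl, e1⟩ | ⟨rfl, e1, e2, e3⟩⟩ := dec_some e
  · obtain ⟨u1, u2⟩ := up hq
    have x1 := (acc hq hne (hc u v huv).2 2).1 e1.le
    have w4 : 1 < qq b := by exact_mod_cast w2
    refine step hq hne h huv (by simp) (by rwa [abs_of_nonneg (by linarith)])
      (Nat.mul_pos k0 (Nat.pow_pos (by omega))) ?_ (hc u v huv).2 (fun x y a => ?_)
      (boostD hq hne huv (x1.trans (by gcongr; norm_num)) h.D) ?_
    · have : (qq b : ℝ) - 1 ≠ 0 := by linarith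
      rw [show (2 * -1 : ℤ) = -(2 : ℕ) from rfl, zpow_neg, zpow_natCast, gam]
      push_cast [w3, Nat.cast_pred w0]
      field_simp
      ring
    · have := h.le0 x y a
      simp only [bump]; split_ifs <;> omega
    · have := mul_le_mul u2 x1 (xm_nn g hne) (by positivity)
      rw [show 11 / 5 * dd b * (((2 : ℕ) + 1 / 10) / (q b : ℝ) ^ 2) =
        231 / 50 * (dd b / q b ^ 2) by push_cast; ring] at this
      push_cast; linarith
  · obtain ⟨u1, u2⟩ := dw hq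
    have x1 := (acc hq hne (hc u v huv).2 4).2 e1.le
    refine step hq hne h huv (by simp)
      (abs_le.2 ⟨le_trans (by linarith) u1, u2.trans (by linarith)⟩)
      (Nat.mul_pos k0 (Nat.pow_pos w0)) ?_ (hc u v huv).2 (fun x y a => ?_)
      (reduceD hq hne huv fun x y a => by
        simpa using (acc hq hne (hc x y a).2 2).2 (e3 x y a)) ?_
    · rw [show (2 * 1 : ℤ) = (2 : ℕ) from rfl, zpow_natCast, gam, Nat.cast_sub (by
        rw [mul_comm]
        refine Nat.mul_le_mul (hc u v huv).1 ?_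
        zify [show 1 ≤ 2 * qq b by omega]; nlinarith [sq_nonneg ((qq b : ℤ) - 1)])]
      push_cast [w3]
      field_simp
      ring
    · have := h.le0 x y a
      have := h.sy u v
      simp only [bump]
      split_ifs with i
      · rcases i with ⟨rfl, rfl⟩ | ⟨rfl, rfl⟩
        · rw [a] at e2; simp at e2; omega
        · rw [hs, a] at e2; simp at e2; omega
      · omega
    · generalize gam b ^ (2 * 1 : ℤ) = β at u1 u2 ⊢
      have := mul_le_mul (show 19 / 10 * dd b ≤ -(β - 1) by linarith) x1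
        (by norm_num; positivity) (by linarith)
      rw [show 19 / 10 * dd b * (((4 : ℕ) - 1 / 10) / (q b : ℝ) ^ 2) =
        741 / 100 * (dd b / q b ^ 2) by push_cast; ring] at this
      push_cast; linarith

end Vale.Agent.P308
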