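import Vale.Agent.P308.Spec

/-! Module A, first part: the effect of one change of the weights. -/

namespace Vale.Agent.P308.An

open Finset

variable {n : ℕ} {b : ℕ} {adj : Fin n → Fin n → Bool} {k : Fin n → Fin n → ℤ} {u v : Fin n}

lemma q1 (b : ℕ) : 1 ≤ q b := Nat.one_le_two_pow

lemma wt_eq (g0 : 0 < gam b) (π : Fin n → Fin n) : wt (rr b k) π = gam b ^ W k π := by
  simp only [wt, rr, W]
  induction (univ : Finset (Fin n)) using Finset.induction_on with
  | empty => simp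
  | insert a s h ih => rw [prod_insert h, sum_insert h, ih, zpow_add₀ g0.ne']

lemma W_bump (h : u ≠ v) (d : ℤ) (π : PM (Fin n)) :
    W (bump k u v d) π.1 = W k π.1 + if π.1 u = v then 2 * d else 0 := by
  have : ∀ x, bump k u v d x (π.1 x) = k x (π.1 x) + ((if x = u then if π.1 u = v then d else 0
      else 0) + if x = v then if π.1 u = v then d else 0 else 0) := fun x => by
    have := π.2.eq_iff (x := u) (y := v)
    unfold bump
    by_cases h1 : x = u <;> by_cases h2 : x = v <;> by_cases h3 : π.1 u = v <;> simp_all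
  simp only [W, this, sum_add_distrib, sum_ite_eq', mem_univ, if_true]
  split_ifs <;> ring

/-- the sum of the exponents -/
def sg (k : Fin n → Fin n → ℤ) : ℤ := ∑ p ∈ univ.offDiag, k p.1 p.2

lemma sg_bump (h : u ≠ v) (d : ℤ) : sg (bump k u v d) = sg k + 2 * d := by
  have : ∀ p : Fin n × Fin n, bump k u v d p.1 p.2 =
      k p.1 p.2 + ((if p = (u, v) then d else 0) + if p = (v, u) then d else 0) := fun ⟨x, y⟩ => by
    unfold bump
    by_cases h1 : x = u <;> by_cases h2 : x = v <;> by_cases h3 : y = u <;> by_cases h4 : y = v <;>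
      simp_all
  simp only [sg, this, sum_add_distrib, sum_ite_eq', mem_offDiag, mem_univ, true_and]
  rw [if_pos h, if_pos h.symm]; ring

section pos
variable (g0 : 0 < gam b) (hne : Nonempty (PM (Fin n)))
include g0

lemma wt_pos (π : Fin n → Fin n) : 0 < wt (rr b k) π := wt_eq g0 π ▸ zpow_pos g0 _

lemma wt_bump (h : u ≠ v) (d : ℤ) (π : PM (Fin n)) : wt (rr b (bump k u v d)) π.1 =
    wt (rr b k) π.1 * if π.1 u = v then gam b ^ (2 * d) else 1 := by
  rw [wt_eq g0, wt_eq g0, W_bump h, zpow_add₀ g0.ne']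
  split_ifs <;> simp

include hne

lemma PP_pos : 0 < PP b k := sum_pos (fun _ _ => wt_pos g0 _) univ_nonempty

lemma mu_pos (π : PM (Fin n)) : 0 < mu b k π := div_pos (wt_pos g0 _) (PP_pos g0 hne)

lemma mu_sum : ∑ π, mu b k π = 1 := by
  simp only [mu, ← sum_div]; exact div_self (PP_pos g0 hne).ne'

lemma xm_nn : 0 ≤ xm b k u v := sum_nonneg fun _ _ => (mu_pos g0 hne _).le

lemma xm_le : xm b k u v ≤ 1 := (sum_le_sum_of_subset_of_nonneg (filter_subset _ _)
  fun _ _ _ => (mu_pos g0 hne _).le).trans_eq (mu_sum g0 hne)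

lemma PP_bump (h : u ≠ v) (d : ℤ) :
    PP b (bump k u v d) = PP b k * (1 + (gam b ^ (2 * d) - 1) * xm b k u v) := by
  have := (PP_pos (k := k) g0 hne).ne'
  simp only [xm, mu, ← sum_div, sum_filter]
  rw [mul_add, mul_one, mul_left_comm, mul_div_cancel₀ _ this, PP, PP, mul_sum, ← sum_add_distrib]
  exact sum_congr rfl fun π _ => by rw [wt_bump g0 h]; split_ifs <;> ring

lemma mu_bump (h : u ≠ v) (d : ℤ) (π : PM (Fin n)) : mu b (bump k u v d) π =
    mu b k π * (if π.1 u = v then gam b ^ (2 * d) else 1) /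
      (1 + (gam b ^ (2 * d) - 1) * xm b k u v) := by
  rw [mu, PP_bump g0 hne h, wt_bump g0 h, mu, div_mul_eq_mul_div, div_div]

lemma mu_zero (π : PM (Fin n)) : mu b (fun _ _ => 0) π = 1 / Fintype.card (PM (Fin n)) := by
  simp [mu, PP, wt, rr]

lemma xm_zero (h : u ≠ v) : (n - 1 : ℝ) * xm b (fun _ _ => 0) u v = 1 := by
  have a : ∀ w ∈ univ.erase u, xm b (fun _ _ => 0) u w = xm b (fun _ _ => 0) u v := fun w hw => by
    have hw := ne_of_mem_erase hw
    simp only [xm, mu_zero g0 hne, sum_const]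
    congr 1
    refine card_bij' (fun π _ => cjP v w π) (fun π _ => cjP v w π) (fun π hπ => ?_)
      (fun π hπ => ?_) (fun π _ => cjP_cjP _ _ _) fun π _ => cjP_cjP _ _ _ <;>
    simp only [mem_filter, mem_univ, true_and, cjP, cj] at hπ ⊢ <;>
    simp [Equiv.swap_apply_of_ne_of_ne h hw.symm, hπ]
  have c : ∑ w, xm b (fun _ _ => 0) u w = 1 := by
    simp only [xm]
    rw [sum_fiberwise_of_maps_to (fun _ _ => mem_univ _), mu_sum g0 hne]
  rw [← add_sum_erase _ _ (mem_univ u), sum_congr rfl a, sum_const, card_erase_of_mem (mem_univ u),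
    xm, filter_false_of_mem fun π _ => (π.2 u).2, card_univ, Fintype.card_fin, nsmul_eq_mul,
    Nat.cast_pred u.pos] at c
  simpa using c

lemma xm_pos (h : u ≠ v) : 0 < xm b k u v := by
  refine sum_pos (fun _ _ => mu_pos g0 hne _) (nonempty_iff_ne_empty.2 fun e => ?_)
  have := xm_zero g0 hne h
  rw [xm, e] at this
  simp at this

lemma exists_W : ∃ π : PM (Fin n), (n - 1 : ℝ) * W k π.1 ≤ sg k := by
  suffices h : ∑ π : PM (Fin n), mu b (fun _ _ => 0) π * ((n - 1 : ℝ) * W k π.1) ≤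
      ∑ π : PM (Fin n), mu b (fun _ _ => 0) π * sg k by
    obtain ⟨π, -, h⟩ := exists_le_of_sum_le univ_nonempty h
    exact ⟨π, le_of_mul_le_mul_left h (mu_pos g0 hne _)⟩
  rw [← sum_mul, mu_sum g0 hne, one_mul, sg, Int.cast_sum, show (univ : Finset (Fin n)).offDiag =
    univ.filter fun p => p.1 ≠ p.2 by ext; simp, sum_filter, Fintype.sum_prod_type]
  simp only [W, Int.cast_sum, mul_sum]
  rw [sum_comm]
  refine le_of_eq (sum_congr rfl fun x _ => ?_)
  rw [← sum_fiberwise_of_maps_to (g := fun π : PM (Fin n) => π.1 x) fun _ _ => mem_univ _]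
  refine sum_congr rfl fun y _ => ?_
  rw [sum_congr rfl (g := fun π => mu b (fun _ _ => 0) π * ((n - 1 : ℝ) * k x y))
    fun π hπ => by rw [(mem_filter.1 hπ).2], ← sum_mul]
  split_ifs with h
  · rw [← mul_assoc, mul_comm _ (n - 1 : ℝ), ← xm, xm_zero g0 hne h, one_mul]
  · rw [not_not.1 h, filter_false_of_mem fun π _ => (π.2 y).2]; simp

end pos

lemma ZZ_eq : (ZZ adj : ℝ) = ∑ π : PM (Fin n), if ∀ v, adj v (π.1 v) = true then 1 else 0 := by
  simp [ZZ]

lemma ZZ_le (g0 : 0 < gam b) (g1 : gam b ≤ 1) (h : ∀ u v, adj u v = true → k u v ≤ 0) :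
    (ZZ adj : ℝ) ≤ PP b k := by
  rw [ZZ_eq]
  refine sum_le_sum fun π _ => ?_
  split_ifs with c
  · rw [wt_eq g0]; exact one_le_zpow_of_nonpos₀ g0 g1 (sum_nonpos fun x _ => h _ _ (c x))
  · exact (wt_pos g0 _).le

lemma le_ZZ (g0 : 0 < gam b) (hne : Nonempty (PM (Fin n))) (g1 : gam b ≤ 1) {η : ℝ} (η0 : 0 ≤ η)
    (h : ∀ u v, u ≠ v → adj u v = false ∨ k u v < 0 → xm b k u v ≤ η) :
    PP b k ≤ ZZ adj + n ^ 2 * η * PP b k := by
  have P0 := PP_pos (k := k) g0 hne
  have a : ∀ π : PM (Fin n), wt (rr b k) π.1 ≤ (if ∀ v, adj v (π.1 v) = true then 1 else 0) +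
      ∑ u, ∑ v, if (u ≠ v ∧ (adj u v = false ∨ k u v < 0)) ∧ π.1 u = v then wt (rr b k) π.1
        else 0 := fun π => by
    have w0 := (wt_pos (k := k) g0 π.1).le
    have p0 : ∀ u v, 0 ≤ if (u ≠ v ∧ (adj u v = false ∨ k u v < 0)) ∧ π.1 u = v then
      wt (rr b k) π.1 else 0 := fun u v => by positivity
    by_cases c : ∃ u, adj u (π.1 u) = false ∨ k u (π.1 u) < 0
    · obtain ⟨u, c⟩ := c
      refine le_add_of_nonneg_of_le (by positivity) (le_trans ?_ (single_le_sum
        (fun u _ => sum_nonneg fun v _ => p0 u v) (mem_univ u)))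
      refine le_trans ?_ (single_le_sum (fun v _ => p0 u v) (mem_univ (π.1 u)))
      rw [if_pos ⟨⟨(π.2 u).2.symm, c⟩, rfl⟩]
    · push Not at c
      refine le_add_of_le_of_nonneg ?_ (sum_nonneg fun u _ => sum_nonneg fun v _ => p0 u v)
      rw [if_pos fun v => by simpa using (c v).1, wt_eq g0]
      exact zpow_le_one₀ g0 g1 (sum_nonneg fun x _ => (c x).2)
  refine (sum_le_sum fun π _ => a π).trans ?_
  rw [sum_add_distrib, ← ZZ_eq, sum_comm]
  refine add_le_add_right ((sum_le_sum (g := fun _ => ∑ _v : Fin n, η * PP b k) fun u _ => ?_).trans_eq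
    (by simp; ring)) _
  rw [sum_comm]
  refine sum_le_sum fun v _ => ?_
  by_cases c : u ≠ v ∧ (adj u v = false ∨ k u v < 0)
  · have := h u v c.1 c.2
    simp only [xm, mu, ← sum_div, div_le_iff₀ P0, sum_filter] at this
    simpa only [c, and_self, true_and, ne_eq, not_false_eq_true] using this
  · simp only [c, false_and, if_false, sum_const_zero]; positivity

variable {c : Fin n → Fin n → ℕ}

lemma dec_none (h : dec b adj k c = none) (huv : u ≠ v) (h' : adj u v = false ∨ k u v < 0) :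
    c u v ≤ 4 * q b ^ 11 := by
  simp only [dec, List.head?_eq_none_iff, List.append_eq_nil_iff, List.map_eq_nil_iff,
    List.filter_eq_nil_iff, decide_eq_true_eq] at h
  exact not_lt.1 fun e => h.2 (u, v) (by simp [prs]) ⟨huv, e, h'⟩

lemma dec_some {t : Bool} (h : dec b adj k c = some (u, v, t)) : u ≠ v ∧
    (t = true ∧ c u v < 2 * q b ^ 11 ∨ t = false ∧ 4 * q b ^ 11 < c u v ∧
      (adj u v = false ∨ k u v < 0) ∧ ∀ x y, x ≠ y → 2 * q b ^ 11 ≤ c x y) := by
  rw [dec, List.head?_append, Option.or_eq_some_iff] at h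
  rcases h with h | ⟨h0, h⟩
  · have := List.mem_of_head? h
    simp only [List.mem_map, List.mem_filter, decide_eq_true_eq, Prod.mk.injEq] at this
    obtain ⟨e, ⟨-, e1, e2⟩, rfl, rfl, rfl⟩ := this
    exact ⟨e1, .inl ⟨rfl, e2⟩⟩
  · have := List.mem_of_head? h
    simp only [List.mem_map, List.mem_filter, decide_eq_true_eq, Prod.mk.injEq] at this
    obtain ⟨e, ⟨-, e1, e2, e3⟩, rfl, rfl, rfl⟩ := this
    simp only [List.head?_eq_none_iff, List.map_eq_nil_iff, List.filter_eq_nil_iff,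
      decide_eq_true_eq] at h0
    exact ⟨e1, .inr ⟨rfl, e2, e3, fun x y h => not_lt.1 fun e => h0 (x, y) (by simp [prs]) ⟨h, e⟩⟩⟩

end Vale.Agent.P308.An
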