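import Vale.Agent.P308.Case0

/-!
Averaging over the classes of a move.
-/

namespace Vale.Agent.P308

open Finset Function

namespace Av

theorem part {Ω : Type} [DecidableEq Ω] (G : Finset Ω) (B : Ω → Finset Ω) (w m e d : Ω → ℝ)
    (hw : ∀ a, 0 < w a) (hm : ∀ a, 0 ≤ m a)
    (h : ∀ a ∈ G, a ∈ B a ∧ e a = (∑ π ∈ B a, w π * d π) / ∑ π ∈ B a, w π ∧
      ∀ π ∈ B a, π ∈ G ∧ B π = B a ∧ m π * w a = m a * w π) :
    ∑ a ∈ G, m a * e a ^ 2 ≤ ∑ a ∈ G, m a * d a ^ 2 := by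
  have W : ∀ a ∈ G, 0 < ∑ π ∈ B a, w π := fun a ha =>
    sum_pos (fun _ _ => hw _) ⟨a, (h a ha).1⟩
  calc _ ≤ ∑ a ∈ G, ∑ π ∈ B a, w a / (∑ x ∈ B π, w x) * (m π * d π ^ 2) := by
        refine sum_le_sum fun a ha => ?_
        obtain ⟨-, h2, h3⟩ := h a ha
        have J := sum_sq_le_sum_mul_sum_of_sq_eq_mul (B a) (r := fun π => w π * d π) (f := w)
          (g := fun π => w π * d π ^ 2) (fun _ _ => (hw _).le)
          (fun _ _ => mul_nonneg (hw _).le (sq_nonneg _)) fun _ _ => by ring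
        have W0 := W a ha
        rw [sum_congr rfl (g := fun π => m a / (∑ x ∈ B a, w x) * (w π * d π ^ 2)) fun π hπ => by
          rw [(h3 π hπ).2.1]
          linear_combination d π ^ 2 / (∑ x ∈ B a, w x) * (h3 π hπ).2.2, ← mul_sum, h2, div_pow,
          div_mul_eq_mul_div, mul_div_assoc]
        refine mul_le_mul_of_nonneg_left ?_ (hm a)
        rw [div_le_div_iff₀ (by positivity) W0]
        nlinarith
    _ = ∑ π ∈ G, ∑ a ∈ B π, w a / (∑ x ∈ B π, w x) * (m π * d π ^ 2) := by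
        refine sum_comm' fun a π => ⟨fun k => ?_, fun k => ?_⟩
        · obtain ⟨k1, k2, -⟩ := (h a k.1).2.2 π k.2
          exact ⟨k2 ▸ (h a k.1).1, k1⟩
        · obtain ⟨k1, k2, -⟩ := (h π k.2).2.2 a k.1
          exact ⟨k1, k2 ▸ (h π k.2).1⟩
    _ = _ := sum_congr rfl fun π hπ => by
        rw [← sum_mul, ← sum_div, div_self (W π hπ).ne', one_mul]

variable {V : Type} [Fintype V] [DecidableEq V] {r : V → V → ℝ} {f : PM V → ℝ}

/-- A class of matchings. -/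
def cls (S : Finset V) (α : V → V) : Finset (PM V) := univ.filter fun π => ∀ v ∈ S, π.1 v = α v

theorem mem_cls {S : Finset V} {α : V → V} {π : PM V} : π ∈ cls S α ↔ ∀ v ∈ S, π.1 v = α v := by
  simp [cls]

theorem cls_congr {S : Finset V} {α β : V → V} (h : ∀ v ∈ S, α v = β v) : cls S α = cls S β :=
  filter_congr fun π _ => forall₂_congr fun v hv => by rw [h v hv]

omit [Fintype V] [DecidableEq V] in
theorem out_of {S : Finset V} {π : V → V} (hπ : IsPM π) (c : ∀ v ∈ S, π v ∈ S) {v : V}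
    (hv : v ∉ S) : π v ∉ S := fun h => hv ((hπ v).1 ▸ c _ h)

omit [Fintype V] in
theorem pw_pm {S : Finset V} {a π : V → V} (ha : IsPM a) (hπ : IsPM π) (c : ∀ v ∈ S, a v ∈ S)
    (c' : ∀ v ∈ S, π v ∈ S) : IsPM (S.piecewise a π) := by
  intro v
  by_cases hv : v ∈ S
  · rw [piecewise_eq_of_mem _ _ _ hv, piecewise_eq_of_mem _ _ _ (c v hv)]; exact ha v
  · rw [piecewise_eq_of_notMem _ _ _ hv, piecewise_eq_of_notMem _ _ _ (out_of hπ c' hv)]
    exact hπ v

theorem wt_pw {S : Finset V} {a a' π : V → V} (h : ∀ v ∈ S, π v = a v) :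
    wt r (S.piecewise a' π) * ∏ v ∈ S, r v (a v) = wt r π * ∏ v ∈ S, r v (a' v) := by
  unfold wt
  rw [← prod_mul_prod_compl S, ← prod_mul_prod_compl S fun v => r v (π v),
    prod_congr rfl (s₁ := S) (g := fun v => r v (a' v)) fun v hv => by
      rw [piecewise_eq_of_mem _ _ _ hv],
    prod_congr rfl (s₁ := Sᶜ) (g := fun v => r v (π v)) fun v hv => by
      rw [piecewise_eq_of_notMem _ _ _ (mem_compl.1 hv)],
    prod_congr rfl (s₁ := S) (f := fun v => r v (π v)) (g := fun v => r v (a v)) fun v hv => by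
      rw [h v hv]]
  ring

theorem rep0 {S : Finset V} {a a' : V → V} (ha : IsPM a) (c : ∀ v ∈ S, a v ∈ S)
    (c' : ∀ v ∈ S, a' v ∈ S) (g : PM V → PM V)
    (hg : ∀ π ∈ cls S a, (g π).1 = S.piecewise a' π.1) (φ : PM V → ℝ) :
    (∑ π ∈ cls S a, wt r π.1 * φ (g π)) * ∏ v ∈ S, r v (a' v) =
      (∑ π ∈ cls S a', wt r π.1 * φ π) * ∏ v ∈ S, r v (a v) := by
  rw [sum_mul, sum_mul]
  refine sum_bij (fun π _ => g π) (fun π hπ => mem_cls.2 fun v hv => ?_) (fun π hπ σ hσ e => ?_)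
    (fun σ hσ => ?_) fun π hπ => ?_
  · rw [hg π hπ, piecewise_eq_of_mem _ _ _ hv]
  · refine Subtype.ext (funext fun v => ?_)
    by_cases hv : v ∈ S
    · rw [mem_cls.1 hπ v hv, mem_cls.1 hσ v hv]
    · have := congrFun ((hg π hπ).symm.trans ((congrArg Subtype.val e).trans (hg σ hσ))) v
      rwa [piecewise_eq_of_notMem _ _ _ hv, piecewise_eq_of_notMem _ _ _ hv] at this
  · have k : (⟨_, pw_pm ha σ.2 c fun v hv => (mem_cls.1 hσ v hv).symm ▸ c' v hv⟩ : PM V) ∈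
        cls S a := mem_cls.2 fun v hv => piecewise_eq_of_mem _ _ _ hv
    refine ⟨_, k, Subtype.ext (funext fun v => ?_)⟩
    rw [hg _ k]
    by_cases hv : v ∈ S
    · rw [piecewise_eq_of_mem _ _ _ hv, mem_cls.1 hσ v hv]
    · rw [piecewise_eq_of_notMem _ _ _ hv]; exact piecewise_eq_of_notMem _ _ _ hv
  · have := wt_pw (r := r) (a' := a') (mem_cls.1 hπ)
    rw [← hg π hπ] at this
    linear_combination (-φ (g π)) * this

theorem rep (hr : Sym r) {S : Finset V} (a : PM V) {a' : V → V} (c : ∀ v ∈ S, a.1 v ∈ S)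
    (c' : ∀ v ∈ S, a' v ∈ S) (g : PM V → PM V)
    (hg : ∀ π ∈ cls S a.1, (g π).1 = S.piecewise a' π.1) :
    (∑ π ∈ cls S a.1, wt r π.1 * f (g π)) / ∑ π ∈ cls S a.1, wt r π.1 = mm r f S a' ∧
      ∀ π ∈ cls S a.1, wt r (g π).1 * wt r a.1 = wt r (g a).1 * wt r π.1 := by
  have p1 : 0 < ∏ v ∈ S, r v (a.1 v) := prod_pos fun _ _ => hr.1 _ _
  have p2 : 0 < ∏ v ∈ S, r v (a' v) := prod_pos fun _ _ => hr.1 _ _
  have ma : a ∈ cls S a.1 := mem_cls.2 fun _ _ => rfl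
  refine ⟨?_, fun π hπ => ?_⟩
  · have h1 := rep0 (r := r) a.2 c c' g hg f
    have h2 := rep0 (r := r) a.2 c c' g hg fun _ => 1
    simp only [mul_one] at h2
    rw [← mul_div_mul_right _ _ p2.ne', h1, h2, mul_div_mul_right _ _ p1.ne']
    rfl
  · have h1 := wt_pw (r := r) (a' := a') (mem_cls.1 hπ)
    have h2 := wt_pw (r := r) (a' := a') (mem_cls.1 ma)
    rw [← hg π hπ] at h1
    rw [← hg a ma] at h2
    refine mul_right_cancel₀ p1.ne' ?_
    linear_combination wt r a.1 * h1 - wt r π.1 * h2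

theorem avg_lin {Ω : Type} (B : Finset Ω) (w x y : Ω → ℝ) (c : ℝ) (h : ∑ π ∈ B, w π ≠ 0) :
    (∑ π ∈ B, w π * (x π - y π + c)) / ∑ π ∈ B, w π =
      (∑ π ∈ B, w π * x π) / ∑ π ∈ B, w π - (∑ π ∈ B, w π * y π) / ∑ π ∈ B, w π + c := by
  simp only [mul_add, mul_sub, sum_add_distrib, sum_sub_distrib, ← sum_mul]
  field_simp

theorem min_eq {x x' y y' s t : ℝ} (hs : 0 < s) (ht : 0 < t) (h1 : x' * s = x * t)
    (h2 : y' * s = y * t) : min x' y' * s = min x y * t := by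
  rw [min_mul_of_nonneg _ _ hs.le, min_mul_of_nonneg _ _ ht.le, h1, h2]

theorem one (hr : Sym r) (p : V) (j : ℕ) (u v : V) :
    ∑ s : PM V × PM V with Ok s.1.1 s.2.1 p (2 * j + 1), min (ww r s) (ww r (mvP p j p p u v s)) *
      (f (mvP p j p p u v s).2 - f s.1 - Pm r f s.1.1 s.2.1 p j) ^ 2 ≤
      Dr r f (mvP p j p p u v) := by
  have m0 := fun s => le_min (ww_pos hr s).le (ww_pos hr (mvP p j p p u v s)).le
  rw [Dr, sum_filter, Fintype.sum_prod_type, Fintype.sum_prod_type]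
  refine sum_le_sum fun a _ => ?_
  rw [← sum_filter]
  refine le_trans ?_ (sum_le_sum_of_subset_of_nonneg
    (filter_subset (fun b : PM V => Ok a.1 b.1 p (2 * j + 1)) univ)
    fun _ _ _ => mul_nonneg (m0 _) (sq_nonneg _))
  refine part _ (fun b => cls (insert (b.1 p) (ws a.1 b.1 p (2 * j + 1))) b.1) (fun b => wt r b.1)
    _ _ _ (fun _ => wt_pos hr.1 _) (fun _ => m0 _) fun b hb => ?_
  have ok : Ok a.1 b.1 p (2 * j + 1) := (mem_filter.1 hb).2
  have A := ok.arc a.2 b.2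
  obtain ⟨e1, e2⟩ := mvP_ok (s := (a, b)) ok u v
  have key : ∀ π ∈ cls (insert (b.1 p) (ws a.1 b.1 p (2 * j + 1))) b.1,
      Ok a.1 π.1 p (2 * j + 1) ∧ ws a.1 π.1 p (2 * j + 1) = ws a.1 b.1 p (2 * j + 1) ∧
      (mvP p j p p u v (a, π)).2 = (mvP p j p p u v (a, b)).2 ∧
      (mvP p j p p u v (a, π)).1.1 =
        (insert (b.1 p) (ws a.1 b.1 p (2 * j + 1))).piecewise (fb a.1 b.1 p j) π.1 := by
    intro π hπ
    have h0 := fun x hx => mem_cls.1 hπ x (mem_insert_of_mem hx)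
    obtain ⟨k1, k2, k3, k4, k5⟩ := Cs.same ok a.2 π.2 (fun _ _ _ => rfl) fun x hx _ => h0 x hx
    obtain ⟨e3, e4⟩ := mvP_ok (s := (a, π)) k1 u v
    refine ⟨k1, k2, Subtype.ext ?_, ?_⟩
    · rw [e2, e4]
      dsimp only
      rw [k4, fa]
      congr 1
      funext x
      unfold sp
      split_ifs with c1 c2 c3
      exacts [rfl, rfl, h0 x c3, rfl]
    · rw [e3]
      dsimp only
      rw [k5, fb]
      funext x
      by_cases hx : x ∈ insert (b.1 p) (ws a.1 b.1 p (2 * j + 1))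
      · rw [piecewise_eq_of_mem _ _ _ hx]
        unfold sp
        rw [h0 p A.hp]
        split_ifs with c1 c2 c3
        exacts [rfl, rfl, rfl, absurd ((mem_insert.1 hx).resolve_left c2) c3]
      · rw [piecewise_eq_of_notMem _ _ _ hx]
        exact k3.symm.sp_out (fun c => hx (mem_insert_of_mem c))
          fun c => hx (by rw [c, h0 p A.hp]; exact mem_insert_self _ _)
  have c' := ((A.flip a.2 b.2).evn (ok.fb_pm a.2 b.2) (ok.fa_pm a.2 b.2)).ha
  rw [sp_head] at c'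
  obtain ⟨r1, r2⟩ := rep (f := f) hr b (A.symm.evn b.2 a.2).ha c'
    (fun π => (mvP p j p p u v (a, π)).1) fun π hπ => (key π hπ).2.2.2
  have mb : b ∈ cls (insert (b.1 p) (ws a.1 b.1 p (2 * j + 1))) b.1 := mem_cls.2 fun _ _ => rfl
  refine ⟨mb, ?_, fun π hπ => ?_⟩
  · rw [sum_congr rfl (g := fun π => wt r π.1 * (f (mvP p j p p u v (a, π)).1 - f π +
      (f (mvP p j p p u v (a, b)).2 - f a))) fun π hπ => by rw [(key π hπ).2.2.1]; ring,
      avg_lin _ _ _ _ _ (sum_pos (fun _ _ => wt_pos hr.1 _) ⟨b, mb⟩).ne', r1, Pm]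
    unfold mm cls fb
    ring
  · obtain ⟨k1, k2, k3, -⟩ := key π hπ
    refine ⟨mem_filter.2 ⟨mem_univ _, k1⟩, ?_, min_eq (wt_pos hr.1 _) (wt_pos hr.1 _) ?_ ?_⟩
    · rw [k2, mem_cls.1 hπ p (mem_insert_of_mem A.hp)]
      exact cls_congr (mem_cls.1 hπ)
    · unfold ww; ring
    · unfold ww
      rw [k3]
      linear_combination wt r (mvP p j p p u v (a, b)).2.1 * r2 π hπ

end Av

open Av

theorem avg (V : Type) [Fintype V] [DecidableEq V] : AvgStmt V := by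
  classical
  intro r f hr p j u v S hS
  have m0 := fun s => le_min (ww_pos hr s).le (ww_pos hr (mvP p j p p u v s)).le
  refine le_trans ?_ (one hr p j u v)
  rw [sum_filter, sum_filter, Fintype.sum_prod_type_right, Fintype.sum_prod_type_right]
  refine sum_le_sum fun b _ => ?_
  rw [← sum_filter, ← sum_filter]
  refine le_trans (part _ (fun a => cls (S a.1 b.1) a.1) (fun a => wt r a.1) _ _
    (fun a => f (mvP p j p p u v (a, b)).2 - f a - Pm r f a.1 b.1 p j)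
    (fun _ => wt_pos hr.1 _) (fun _ => m0 _) fun a ha => ?_)
    (sum_le_sum_of_subset_of_nonneg (fun a ha => mem_filter.2 ⟨mem_univ _, (mem_filter.1 ha).2.1⟩)
      fun _ _ _ => mul_nonneg (m0 _) (sq_nonneg _))
  obtain ⟨ok, sub, hu, hv, cl⟩ := (mem_filter.1 ha).2
  dsimp only at ok sub hu hv cl ⊢
  have A := ok.arc a.2 b.2
  obtain ⟨e1, e2⟩ := mvP_ok (s := (a, b)) ok u v
  have sw : ∀ x ∈ S a.1 b.1, Equiv.swap u v x ∈ S a.1 b.1 := fun x hx => by
    rw [Equiv.swap_apply_def]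
    split_ifs
    exacts [hv, hu, hx]
  have sw' : ∀ x, x ∉ S a.1 b.1 → Equiv.swap u v x = x := fun x hx =>
    Equiv.swap_apply_of_ne_of_ne (fun e => hx (e ▸ hu)) fun e => hx (e ▸ hv)
  have key : ∀ π ∈ cls (S a.1 b.1) a.1,
      Ok π.1 b.1 p (2 * j + 1) ∧ ws π.1 b.1 p (2 * j + 1) = ws a.1 b.1 p (2 * j + 1) ∧
      (mvP p j p p u v (π, b)).1 = (mvP p j p p u v (a, b)).1 ∧
      (mvP p j p p u v (π, b)).2.1 = (S a.1 b.1).piecewise (cj u v (fa a.1 b.1 p j)) π.1 := by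
    intro π hπ
    have h0 := mem_cls.1 hπ
    obtain ⟨k1, k2, k3, k4, k5⟩ := Cs.same ok π.2 b.2 (fun x hx _ => h0 x (sub hx)) fun _ _ _ => rfl
    obtain ⟨e3, e4⟩ := mvP_ok (s := (π, b)) k1 u v
    refine ⟨k1, k2, Subtype.ext ?_, ?_⟩
    · rw [e1, e3]
      dsimp only
      rw [k5, fb]
      funext x
      unfold sp
      split_ifs with c1 c2 c3
      exacts [rfl, rfl, h0 x (sub c3), rfl]
    · rw [e4]
      dsimp only
      rw [k4, fa]
      funext x
      by_cases hx : x ∈ S a.1 b.1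
      · rw [piecewise_eq_of_mem _ _ _ hx]
        unfold cj sp
        rw [h0 _ (sub A.he), h0 _ (sw x hx)]
      · rw [piecewise_eq_of_notMem _ _ _ hx, cj, sw' x hx, k3.sp_out (fun c => hx (sub c))
          fun c => hx (by rw [c, h0 _ (sub A.he)]; exact cl _ (sub A.he))]
        exact sw' _ (out_of π.2 (fun y hy => (h0 y hy).symm ▸ cl y hy) hx)
  have c' : ∀ x ∈ S a.1 b.1, cj u v (fa a.1 b.1 p j) x ∈ S a.1 b.1 := fun x hx => by
    refine sw _ ?_
    have := sw x hx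
    generalize Equiv.swap u v x = y at this
    unfold fa sp
    split_ifs with c1 c2 c3
    exacts [cl _ (sub A.he), sub A.hp, sub (A.hb y c3 c1), cl y this]
  obtain ⟨r1, r2⟩ := rep (f := f) hr a cl c'
    (fun π => (mvP p j p p u v (π, b)).2) fun π hπ => (key π hπ).2.2.2
  have ma : a ∈ cls (S a.1 b.1) a.1 := mem_cls.2 fun _ _ => rfl
  refine ⟨ma, ?_, fun π hπ => ?_⟩
  · rw [sum_congr rfl (g := fun π => wt r π.1 * (f (mvP p j p p u v (π, b)).2 - f π +
      -Pm r f a.1 b.1 p j)) fun π hπ => by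
        rw [Cs.Pm_congr ok π.2 b.2 b.2 (fun x hx _ => mem_cls.1 hπ x (sub hx)) fun _ _ => rfl]
        ring,
      avg_lin _ _ _ _ _ (sum_pos (fun _ _ => wt_pos hr.1 _) ⟨a, ma⟩).ne', r1]
    rfl
  · obtain ⟨k1, k2, k3, -⟩ := key π hπ
    have h0 := mem_cls.1 hπ
    have e := hS a.1 b.1 π.1 h0
    refine ⟨mem_filter.2 ⟨mem_univ _, k1, ?_⟩, ?_, min_eq (wt_pos hr.1 _) (wt_pos hr.1 _) ?_ ?_⟩
    · rw [e, k2]
      exact ⟨sub, hu, hv, fun y hy => (h0 y hy).symm ▸ cl y hy⟩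
    · rw [e]; exact cls_congr h0
    · unfold ww; ring
    · unfold ww
      rw [k3]
      linear_combination wt r (mvP p j p p u v (a, b)).1.1 * r2 π hπ

end Vale.Agent.P308
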