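import Mathlib

/-!
Perfect matchings as involutions, alternating walks, flips.
-/

namespace Vale.Agent.P308

open Finset

variable {V : Type} [DecidableEq V]

/-- Involutions without fixed points. -/
def IsPM (π : V → V) : Prop := ∀ v, π (π v) = v ∧ π v ≠ v

/-- Perfect matchings of the complete graph. -/
abbrev PM (V : Type) : Type := {π : V → V // IsPM π}

instance [Fintype V] : DecidablePred (IsPM (V := V)) := fun _ => by unfold IsPM; infer_instance

/-- The alternating walk. -/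
def wk (a b : V → V) (p : V) : ℕ → V
  | 0 => p
  | i + 1 => if i % 2 = 0 then a (wk a b p i) else b (wk a b p i)

/-- The first vertices of the walk. -/
def ws (a b : V → V) (p : V) (l : ℕ) : Finset V := (range l).image (wk a b p)

/-- The first vertices of the walk are distinct. -/
def Ok (a b : V → V) (p : V) (l : ℕ) : Prop := (ws a b p l).card = l

instance (a b : V → V) (p : V) (l : ℕ) : Decidable (Ok a b p l) := by unfold Ok; infer_instance

/-- Exchange on `D`. -/
def sp (D : Finset V) (a b : V → V) (p e : V) : V → V := fun v =>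
  if v = p then a e else if v = a e then p else if v ∈ D then b v else a v

/-- The first matching after the flip. -/
def fa (a b : V → V) (p : V) (j : ℕ) : V → V :=
  sp (ws a b p (2 * j + 1)) a b p (wk a b p (2 * j))

/-- The second matching after the flip. -/
def fb (a b : V → V) (p : V) (j : ℕ) : V → V :=
  sp (ws a b p (2 * j + 1)) b a (wk a b p (2 * j)) p

/-- The flip, with exchanged output. -/
def fl (p : V) (j : ℕ) (s : (V → V) × (V → V)) : (V → V) × (V → V) :=
  if Ok s.1 s.2 p (2 * j + 1) then (fb s.1 s.2 p j, fa s.1 s.2 p j) else s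

/-- Conjugation by a transposition. -/
def cj (u v : V) (π : V → V) : V → V := fun x => Equiv.swap u v (π (Equiv.swap u v x))

/-- The general move. -/
def mv (p : V) (j : ℕ) (u v u' v' : V) (s : (V → V) × (V → V)) : (V → V) × (V → V) :=
  ((fl p j (s.1, cj u v s.2)).1, cj u' v' (fl p j (s.1, cj u v s.2)).2)

/-- Weight of a matching. -/
def wt [Fintype V] (r : V → V → ℝ) (π : V → V) : ℝ := ∏ v, r v (π v)

/-- An odd arc from `p` to `e`. -/
structure Arc (D : Finset V) (a b : V → V) (p e : V) : Prop where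
  hp : p ∈ D
  he : e ∈ D
  ha : ∀ v ∈ D, v ≠ e → a v ∈ D
  hz : a e ∉ D
  hb : ∀ v ∈ D, v ≠ p → b v ∈ D
  hw : b p ∉ D

/-- An even arc from `p` to `q`. -/
structure Evn (A : Finset V) (a b : V → V) (p q : V) : Prop where
  hp : p ∈ A
  hq : q ∈ A
  ne : p ≠ q
  ha : ∀ v ∈ A, a v ∈ A
  hb : ∀ v ∈ A, v ≠ p → v ≠ q → b v ∈ A ∧ b v ≠ p ∧ b v ≠ q

theorem Arc.symm {D : Finset V} {a b : V → V} {p e : V} (h : Arc D a b p e) : Arc D b a e p :=
  ⟨h.he, h.hp, h.hb, h.hw, h.ha, h.hz⟩

omit [DecidableEq V] in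
theorem IsPM.inj {a : V → V} (h : IsPM a) {x y : V} (e : a x = a y) : x = y := by
  rw [← (h x).1, e, (h y).1]

omit [DecidableEq V] in
theorem IsPM.eq_iff {a : V → V} (h : IsPM a) {x y : V} : a x = y ↔ a y = x :=
  ⟨fun e => by rw [← e, (h x).1], fun e => by rw [← e, (h y).1]⟩

section walk

variable {a b a' b' : V → V} {p : V}

omit [DecidableEq V] in
theorem wk_ev {i : ℕ} (h : i % 2 = 0) : wk a b p (i + 1) = a (wk a b p i) := if_pos h

omit [DecidableEq V] in
theorem wk_od {i : ℕ} (h : i % 2 = 1) : wk a b p (i + 1) = b (wk a b p i) := if_neg (by omega)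

omit [DecidableEq V] in
theorem wk_add_ev {m : ℕ} (h : m % 2 = 0) (i : ℕ) :
    wk a b p (m + i) = wk a b (wk a b p m) i := by
  induction i with
  | zero => rfl
  | succ i ih =>
    rw [← add_assoc, wk, wk, ih, show (m + i) % 2 = i % 2 by omega]

omit [DecidableEq V] in
theorem wk_add_od {m : ℕ} (h : m % 2 = 1) (i : ℕ) :
    wk a b p (m + i) = wk b a (wk a b p m) i := by
  induction i with
  | zero => rfl
  | succ i ih =>
    rw [← add_assoc, wk, wk, ih]
    split_ifs <;> first | rfl | omega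

theorem mem_ws {l : ℕ} {v : V} : v ∈ ws a b p l ↔ ∃ i < l, wk a b p i = v := by
  simp [ws]

theorem wk_mem {l i : ℕ} (h : i < l) : wk a b p i ∈ ws a b p l := mem_ws.2 ⟨i, h, rfl⟩

theorem ws_succ (l : ℕ) : ws a b p (l + 1) = insert (wk a b p l) (ws a b p l) := by
  simp [ws, range_add_one]

theorem ws_mono {l m : ℕ} (h : l ≤ m) : ws a b p l ⊆ ws a b p m :=
  image_subset_image (range_subset_range.2 h)

theorem ok_iff {l : ℕ} :
    Ok a b p l ↔ ∀ i < l, ∀ j < l, wk a b p i = wk a b p j → i = j := by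
  unfold Ok ws
  conv_lhs => rhs; rw [← card_range l]
  rw [card_image_iff]
  exact ⟨fun h i hi j hj e => h (by simpa using hi) (by simpa using hj) e,
    fun h i hi j hj e => h i (by simpa using hi) j (by simpa using hj) e⟩

theorem Ok.mono {l m : ℕ} (h : Ok a b p m) (hl : l ≤ m) : Ok a b p l :=
  ok_iff.2 fun i hi j hj e => ok_iff.1 h i (by omega) j (by omega) e

theorem ok_succ {l : ℕ} : Ok a b p (l + 1) ↔ Ok a b p l ∧ wk a b p l ∉ ws a b p l := by
  constructor
  · intro h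
    refine ⟨h.mono (by omega), fun h' => ?_⟩
    obtain ⟨i, hi, e⟩ := mem_ws.1 h'
    have := ok_iff.1 h i (by omega) l (by omega) e
    omega
  · rintro ⟨h, h'⟩
    unfold Ok at h ⊢
    rw [ws_succ, card_insert_of_notMem h', h]

theorem Ok.le [Fintype V] {l : ℕ} (h : Ok a b p l) : l ≤ Fintype.card V := by
  rw [← h]; exact card_le_univ _

theorem ws_add_ev {m : ℕ} (h : m % 2 = 0) (l : ℕ) :
    ws a b p (m + l) = ws a b p m ∪ ws a b (wk a b p m) l := by
  induction l with
  | zero => simp [ws]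
  | succ l ih => rw [← add_assoc, ws_succ, ws_succ, ih, wk_add_ev h, union_insert]

theorem ws_add_od {m : ℕ} (h : m % 2 = 1) (l : ℕ) :
    ws a b p (m + l) = ws a b p m ∪ ws b a (wk a b p m) l := by
  induction l with
  | zero => simp [ws]
  | succ l ih => rw [← add_assoc, ws_succ, ws_succ, ih, wk_add_od h, union_insert]

theorem Ok.right_ev {m l : ℕ} (h : Ok a b p (m + l)) (hm : m % 2 = 0) :
    Ok a b (wk a b p m) l ∧ Disjoint (ws a b p m) (ws a b (wk a b p m) l) := by
  refine ⟨ok_iff.2 fun i hi j hj e => ?_, disjoint_left.2 fun v h1 h2 => ?_⟩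
  · rw [← wk_add_ev hm, ← wk_add_ev hm] at e
    have := ok_iff.1 h _ (by omega) _ (by omega) e
    omega
  · obtain ⟨i, hi, rfl⟩ := mem_ws.1 h1
    obtain ⟨j, hj, e⟩ := mem_ws.1 h2
    rw [← wk_add_ev hm] at e
    have := ok_iff.1 h _ (by omega) _ (by omega) e
    omega

theorem Ok.right_od {m l : ℕ} (h : Ok a b p (m + l)) (hm : m % 2 = 1) :
    Ok b a (wk a b p m) l ∧ Disjoint (ws a b p m) (ws b a (wk a b p m) l) := by
  refine ⟨ok_iff.2 fun i hi j hj e => ?_, disjoint_left.2 fun v h1 h2 => ?_⟩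
  · rw [← wk_add_od hm, ← wk_add_od hm] at e
    have := ok_iff.1 h _ (by omega) _ (by omega) e
    omega
  · obtain ⟨i, hi, rfl⟩ := mem_ws.1 h1
    obtain ⟨j, hj, e⟩ := mem_ws.1 h2
    rw [← wk_add_od hm] at e
    have := ok_iff.1 h _ (by omega) _ (by omega) e
    omega

omit [DecidableEq V] in
theorem wk_congr0 {l : ℕ} (h1 : ∀ i < l, i % 2 = 0 → a' (wk a b p i) = a (wk a b p i))
    (h2 : ∀ i < l, i % 2 = 1 → b' (wk a b p i) = b (wk a b p i)) :
    ∀ i ≤ l, wk a' b' p i = wk a b p i := by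
  intro i
  induction i with
  | zero => intro _; rfl
  | succ i ih =>
    intro hi
    rw [wk, wk, ih (by omega)]
    split_ifs with e
    exacts [h1 i (by omega) e, h2 i (by omega) (by omega)]

theorem ws_congr0 {l : ℕ} (h : ∀ i < l, wk a' b' p i = wk a b p i) :
    ws a' b' p l = ws a b p l :=
  image_congr fun i hi => h i (by simpa using hi)

/-- Agreement on the whole walk. -/
theorem ws_congr {l : ℕ} (h1 : ∀ v ∈ ws a b p l, a' v = a v) (h2 : ∀ v ∈ ws a b p l, b' v = b v) :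
    ws a' b' p l = ws a b p l ∧ wk a' b' p l = wk a b p l := by
  have := wk_congr0 (a' := a') (b' := b') (l := l) (fun i hi _ => h1 _ (wk_mem hi))
    fun i hi _ => h2 _ (wk_mem hi)
  exact ⟨ws_congr0 fun i hi => this i hi.le, this l le_rfl⟩

/-- Agreement away from the ends of a simple walk. -/
theorem Ok.congr {l : ℕ} (h : Ok a b p (l + 1))
    (h1 : ∀ v ∈ ws a b p (l + 1), v ≠ wk a b p l → a' v = a v)
    (h2 : ∀ v ∈ ws a b p (l + 1), v ≠ p → v ≠ wk a b p l → b' v = b v) :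
    Ok a' b' p (l + 1) ∧ ws a' b' p (l + 1) = ws a b p (l + 1) ∧ wk a' b' p l = wk a b p l := by
  have h3 : ∀ i < l, wk a b p i ≠ wk a b p l := fun i hi e => by
    have := ok_iff.1 h _ (by omega) _ (by omega) e
    omega
  have := wk_congr0 (a' := a') (b' := b') (l := l)
    (fun i hi _ => h1 _ (wk_mem (by omega)) (h3 i hi))
    fun i hi e => h2 _ (wk_mem (by omega)) (fun e' => by
      have := ok_iff.1 h i (by omega) 0 (by omega) e'
      omega) (h3 i hi)
  have h4 := ws_congr0 (a' := a') (b' := b') (l := l + 1) fun i hi => this i (by omega)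
  exact ⟨by unfold Ok at h ⊢; rw [h4, h], h4, this l le_rfl⟩

theorem Ok.arc (ha : IsPM a) (hb : IsPM b) {j : ℕ} (h : Ok a b p (2 * j + 1)) :
    Arc (ws a b p (2 * j + 1)) a b p (wk a b p (2 * j)) := by
  have e1 : ∀ i, i % 2 = 0 → a (wk a b p (i + 1)) = wk a b p i := fun i hi => by
    rw [wk_ev hi, (ha _).1]
  have e2 : ∀ i, i % 2 = 1 → b (wk a b p (i + 1)) = wk a b p i := fun i hi => by
    rw [wk_od hi, (hb _).1]
  have inj := ok_iff.1 h
  refine ⟨wk_mem (i := 0) (by omega), wk_mem (by omega), fun v hv e => ?_, fun hv => ?_,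
    fun v hv e => ?_, fun hv => ?_⟩
  · obtain ⟨i, hi, rfl⟩ := mem_ws.1 hv
    have : i ≠ 2 * j := fun e' => e (by rw [e'])
    rcases Nat.mod_two_eq_zero_or_one i with c | c
    · rw [← wk_ev (a := a) (b := b) c]; exact wk_mem (by omega)
    · obtain ⟨k, rfl⟩ : ∃ k, i = k + 1 := ⟨i - 1, by omega⟩
      rw [e1 k (by omega)]; exact wk_mem (by omega)
  · obtain ⟨i, hi, e⟩ := mem_ws.1 hv
    have e' := ha.eq_iff.1 e.symm
    rcases Nat.mod_two_eq_zero_or_one i with c | c
    · by_cases c' : i = 2 * j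
      · rw [c'] at e'; exact (ha _).2 e'
      · rw [← wk_ev (a := a) (b := b) c] at e'
        have := inj _ (by omega) _ (by omega) e'
        omega
    · obtain ⟨k, rfl⟩ : ∃ k, i = k + 1 := ⟨i - 1, by omega⟩
      rw [e1 k (by omega)] at e'
      have := inj _ (by omega) _ (by omega) e'
      omega
  · obtain ⟨i, hi, rfl⟩ := mem_ws.1 hv
    have : i ≠ 0 := fun e' => e (by rw [e']; rfl)
    rcases Nat.mod_two_eq_zero_or_one i with c | c
    · obtain ⟨k, rfl⟩ : ∃ k, i = k + 1 := ⟨i - 1, by omega⟩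
      rw [e2 k (by omega)]; exact wk_mem (by omega)
    · rw [← wk_od (a := a) (b := b) c]; exact wk_mem (by omega)
  · obtain ⟨i, hi, e⟩ := mem_ws.1 hv
    have e' : b (wk a b p i) = wk a b p 0 := hb.eq_iff.1 e.symm
    rcases Nat.mod_two_eq_zero_or_one i with c | c
    · by_cases c' : i = 0
      · rw [c'] at e'; exact (hb _).2 e'
      · obtain ⟨k, rfl⟩ : ∃ k, i = k + 1 := ⟨i - 1, by omega⟩
        rw [e2 k (by omega)] at e'
        have := inj _ (by omega) _ (by omega) e'
        omega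
    · rw [← wk_od (a := a) (b := b) c] at e'
      have := inj _ (by omega) _ (by omega) e'
      omega

theorem Arc.evn {D : Finset V} {e : V} (h : Arc D a b p e) (ha : IsPM a) (hb : IsPM b) :
    Evn (insert (a e) D) a b p (a e) := by
  refine ⟨mem_insert_of_mem h.hp, mem_insert_self _ _, fun e' => h.hz (e' ▸ h.hp), fun v hv => ?_,
    fun v hv h1 h2 => ?_⟩
  · rcases mem_insert.1 hv with rfl | hv
    · rw [(ha e).1]; exact mem_insert_of_mem h.he
    · by_cases c : v = e
      · rw [c]; exact mem_insert_self _ _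
      · exact mem_insert_of_mem (h.ha v hv c)
  · have hv' := (mem_insert.1 hv).resolve_left h2
    have := h.hb v hv' h1
    exact ⟨mem_insert_of_mem this, fun e' => h.hw (by rw [← e', (hb v).1]; exact hv'),
      fun e' => h.hz (e' ▸ this)⟩

omit [DecidableEq V] in
theorem wk_last (j : ℕ) : wk a b p (2 * j + 1) = a (wk a b p (2 * j)) := wk_ev (by omega)

theorem ws_evn (j : ℕ) :
    ws a b p (2 * j + 2) = insert (a (wk a b p (2 * j))) (ws a b p (2 * j + 1)) := by
  rw [ws_succ, wk_last]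

theorem Ok.step (ha : IsPM a) (hb : IsPM b) {j : ℕ} (h : Ok a b p (2 * j + 1)) :
    Ok a b p (2 * j + 2) :=
  ok_succ.2 ⟨h, by rw [wk_last]; exact (h.arc ha hb).hz⟩

theorem Ok.evn (ha : IsPM a) (hb : IsPM b) {j : ℕ} (h : Ok a b p (2 * j + 1)) :
    Evn (ws a b p (2 * j + 2)) a b p (wk a b p (2 * j + 1)) := by
  rw [ws_evn, wk_last]; exact (h.arc ha hb).evn ha hb

/-- The alternating cycle through `p`. -/
theorem exists_cyc [Fintype V] (ha : IsPM a) (hb : IsPM b) (p : V) :
    ∃ j, Ok a b p (2 * j + 1) ∧ b p = a (wk a b p (2 * j)) := by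
  by_contra hc
  push Not at hc
  have key : ∀ j, Ok a b p (2 * j + 1) := by
    intro j
    induction j with
    | zero => simp [Ok, ws]
    | succ j ih =>
      refine ok_succ.2 ⟨ih.step ha hb, fun hm => ?_⟩
      have E := ih.evn ha hb
      rw [show 2 * (j + 1) = 2 * j + 1 + 1 by ring, wk_od (by omega)] at hm
      by_cases c : b (wk a b p (2 * j + 1)) = p
      · exact hc j ih (by rw [← wk_last (a := a)]; exact hb.eq_iff.1 c)
      · exact (E.hb _ hm c (hb _).2).2.2 (hb _).1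
  have := (key (Fintype.card V)).le
  omega

end walk

section flip

variable {D : Finset V} {a b : V → V} {p e : V}

theorem sp_head : sp D a b p e p = a e := if_pos rfl

theorem Arc.sp_z (h : Arc D a b p e) : sp D a b p e (a e) = p := by
  have : a e ≠ p := fun e' => h.hz (e' ▸ h.hp)
  simp [sp, this]

theorem Arc.sp_in (h : Arc D a b p e) {v : V} (hv : v ∈ D) (hp : v ≠ p) :
    sp D a b p e v = b v := by
  have : v ≠ a e := fun e' => h.hz (e' ▸ hv)
  simp [sp, this, hp, hv]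

theorem Arc.sp_out (h : Arc D a b p e) {v : V} (hv : v ∉ D) (hz : v ≠ a e) :
    sp D a b p e v = a v := by
  have : v ≠ p := fun e' => hv (e' ▸ h.hp)
  simp [sp, this, hz, hv]

theorem Arc.pm (h : Arc D a b p e) (ha : IsPM a) (hb : IsPM b) : IsPM (sp D a b p e) := by
  intro v
  by_cases c1 : v = p
  · rw [c1, sp_head, h.sp_z]; exact ⟨rfl, fun e' => h.hz (e' ▸ h.hp)⟩
  by_cases c2 : v = a e
  · rw [c2, h.sp_z, sp_head]; exact ⟨rfl, fun e' => h.hz (e' ▸ h.hp)⟩
  by_cases c3 : v ∈ D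
  · rw [h.sp_in c3 c1, h.sp_in (h.hb v c3 c1) fun e' => h.hw (by rw [← e', (hb v).1]; exact c3)]
    exact hb v
  · have h1 : a v ∉ D := fun h' => c3 (by
      have := h.ha _ h' fun e' => c2 (by rw [← e', (ha v).1])
      rwa [(ha v).1] at this)
    rw [h.sp_out c3 c2, h.sp_out h1 fun e' => c3 (ha.inj e' ▸ h.he)]
    exact ha v

theorem Arc.flip (h : Arc D a b p e) (ha : IsPM a) (hb : IsPM b) :
    Arc D (sp D b a e p) (sp D a b p e) p e := by
  refine ⟨h.hp, h.he, fun v hv c => ?_, ?_, fun v hv c => ?_, ?_⟩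
  · rw [h.symm.sp_in hv c]; exact h.ha v hv c
  · rw [sp_head]; exact h.hw
  · rw [h.sp_in hv c]; exact h.hb v hv c
  · rw [sp_head]; exact h.hz

theorem Arc.sp_sp (h : Arc D a b p e) (ha : IsPM a) (hb : IsPM b) :
    sp D (sp D b a e p) (sp D a b p e) p e = b := by
  have h' := h.flip ha hb
  funext v
  by_cases c1 : v = p
  · rw [c1, sp_head, sp_head]
  by_cases c2 : v = b p
  · have := h'.sp_z
    rw [sp_head] at this
    rw [c2, this, (hb p).1]
  by_cases c3 : v ∈ D
  · rw [h'.sp_in c3 c1, h.sp_in c3 c1]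
  · rw [h'.sp_out c3 (by rwa [sp_head]), h.symm.sp_out c3 c2]

theorem Ok.fa_pm (ha : IsPM a) (hb : IsPM b) {j : ℕ} (h : Ok a b p (2 * j + 1)) :
    IsPM (fa a b p j) := (h.arc ha hb).pm ha hb

theorem Ok.fb_pm (ha : IsPM a) (hb : IsPM b) {j : ℕ} (h : Ok a b p (2 * j + 1)) :
    IsPM (fb a b p j) := (h.arc ha hb).symm.pm hb ha

theorem Ok.flip (ha : IsPM a) (hb : IsPM b) {j : ℕ} (h : Ok a b p (2 * j + 1)) :
    Ok (fb a b p j) (fa a b p j) p (2 * j + 1) ∧
      ws (fb a b p j) (fa a b p j) p (2 * j + 1) = ws a b p (2 * j + 1) ∧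
      wk (fb a b p j) (fa a b p j) p (2 * j) = wk a b p (2 * j) :=
  h.congr (fun _ hv c => (h.arc ha hb).symm.sp_in hv c) fun _ hv c _ => (h.arc ha hb).sp_in hv c

theorem fl_pm (p : V) (j : ℕ) {s : (V → V) × (V → V)} (h1 : IsPM s.1) (h2 : IsPM s.2) :
    IsPM (fl p j s).1 ∧ IsPM (fl p j s).2 := by
  unfold fl
  split_ifs with h
  exacts [⟨h.fb_pm h1 h2, h.fa_pm h1 h2⟩, ⟨h1, h2⟩]

theorem fl_fl (p : V) (j : ℕ) {s : (V → V) × (V → V)} (h1 : IsPM s.1) (h2 : IsPM s.2) :
    fl p j (fl p j s) = s := by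
  by_cases h : Ok s.1 s.2 p (2 * j + 1)
  · obtain ⟨k1, k2, k3⟩ := h.flip h1 h2
    have A := h.arc h1 h2
    rw [show fl p j s = (fb s.1 s.2 p j, fa s.1 s.2 p j) from if_pos h, fl, if_pos k1]
    refine Prod.ext ?_ ?_
    · show fb _ _ _ _ = _
      rw [fb, k2, k3]; exact A.symm.sp_sp h2 h1
    · show fa _ _ _ _ = _
      rw [fa, k2, k3]; exact A.sp_sp h1 h2
  · rw [show fl p j s = s from if_neg h, fl, if_neg h]

theorem fl_zero (p : V) {s : (V → V) × (V → V)} (h1 : IsPM s.1) (h2 : IsPM s.2) :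
    fl p 0 s = s.swap := by
  have key : ∀ a b : V → V, IsPM a → sp {p} a b p p = a := by
    intro a b ha
    funext v
    unfold sp
    split_ifs with c1 c2 c3
    · rw [c1]
    · rw [c2, (ha p).1]
    · exact absurd (mem_singleton.1 c3) c1
    · rfl
  have e : ws s.1 s.2 p 1 = {p} := by simp [ws, wk]
  rw [fl, if_pos (by simp [Ok, ws])]
  simp only [fa, fb, mul_zero, zero_add, e, wk, key _ _ h1, key _ _ h2]
  rfl

theorem cj_cj (u v : V) (π : V → V) : cj u v (cj u v π) = π := by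
  funext x; simp [cj]

theorem cj_self (u : V) (π : V → V) : cj u u π = π := by
  funext x; simp [cj]

theorem cj_pm (u v : V) {π : V → V} (h : IsPM π) : IsPM (cj u v π) := by
  intro x
  refine ⟨by simp [cj, (h _).1], fun e => (h (Equiv.swap u v x)).2 ?_⟩
  have := congrArg (Equiv.swap u v) e
  simpa [cj] using this

theorem cj_left {u v : V} {π : V → V} (h : IsPM π) (hu : π u ≠ v) : cj u v π u = π v := by
  rw [cj, Equiv.swap_apply_left, Equiv.swap_apply_of_ne_of_ne (fun e => hu (h.eq_iff.1 e)) (h v).2]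

theorem cj_right {u v : V} {π : V → V} (h : IsPM π) (hu : π u ≠ v) : cj u v π v = π u := by
  rw [cj, Equiv.swap_apply_right, Equiv.swap_apply_of_ne_of_ne (h u).2 hu]

theorem cj_left' {u v : V} {π : V → V} (h : IsPM π) (hu : π u ≠ v) : cj u v π (π u) = v :=
  (cj_pm u v h).eq_iff.1 (cj_right h hu)

theorem cj_right' {u v : V} {π : V → V} (h : IsPM π) (hu : π u ≠ v) : cj u v π (π v) = u :=
  (cj_pm u v h).eq_iff.1 (cj_left h hu)

theorem cj_out {u v x : V} {π : V → V} (h1 : x ≠ u) (h2 : x ≠ v) (h3 : π x ≠ u)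
    (h4 : π x ≠ v) : cj u v π x = π x := by
  rw [cj, Equiv.swap_apply_of_ne_of_ne h1 h2, Equiv.swap_apply_of_ne_of_ne h3 h4]

theorem mv_pm (p : V) (j : ℕ) (u v u' v' : V) {s : (V → V) × (V → V)} (h1 : IsPM s.1)
    (h2 : IsPM s.2) : IsPM (mv p j u v u' v' s).1 ∧ IsPM (mv p j u v u' v' s).2 :=
  ⟨(fl_pm p j (s := (s.1, cj u v s.2)) h1 (cj_pm u v h2)).1,
    cj_pm _ _ (fl_pm p j (s := (s.1, cj u v s.2)) h1 (cj_pm u v h2)).2⟩

theorem mv_mv (p : V) (j : ℕ) (u v u' v' : V) {s : (V → V) × (V → V)} (h1 : IsPM s.1)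
    (h2 : IsPM s.2) : mv p j u' v' u v (mv p j u v u' v' s) = s := by
  simp only [mv, cj_cj, Prod.mk.eta, fl_fl p j (s := (s.1, cj u v s.2)) h1 (cj_pm u v h2)]

end flip

/-- The flip on pairs of matchings. -/
def flP (p : V) (j : ℕ) (s : PM V × PM V) : PM V × PM V :=
  (⟨(fl p j (s.1.1, s.2.1)).1, (fl_pm p j s.1.2 s.2.2).1⟩,
    ⟨(fl p j (s.1.1, s.2.1)).2, (fl_pm p j s.1.2 s.2.2).2⟩)

/-- Conjugation on matchings. -/
def cjP (u v : V) (π : PM V) : PM V := ⟨cj u v π.1, cj_pm u v π.2⟩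

/-- The general move on pairs of matchings. -/
def mvP (p : V) (j : ℕ) (u v u' v' : V) (s : PM V × PM V) : PM V × PM V :=
  ((flP p j (s.1, cjP u v s.2)).1, cjP u' v' (flP p j (s.1, cjP u v s.2)).2)

theorem flP_flP (p : V) (j : ℕ) (s : PM V × PM V) : flP p j (flP p j s) = s := by
  have := fl_fl p j (s := (s.1.1, s.2.1)) s.1.2 s.2.2
  exact Prod.ext (Subtype.ext (congrArg Prod.fst this)) (Subtype.ext (congrArg Prod.snd this))

theorem cjP_cjP (u v : V) (π : PM V) : cjP u v (cjP u v π) = π := Subtype.ext (cj_cj u v π.1)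

theorem cjP_self (u : V) (π : PM V) : cjP u u π = π := Subtype.ext (cj_self u π.1)

theorem flP_zero (p : V) (s : PM V × PM V) : flP p 0 s = s.swap := by
  have := fl_zero p (s := (s.1.1, s.2.1)) s.1.2 s.2.2
  exact Prod.ext (Subtype.ext (congrArg Prod.fst this)) (Subtype.ext (congrArg Prod.snd this))

theorem mvP_mvP (p : V) (j : ℕ) (u v u' v' : V) (s : PM V × PM V) :
    mvP p j u' v' u v (mvP p j u v u' v' s) = s := by
  simp only [mvP, cjP_cjP, Prod.mk.eta, flP_flP]

theorem mvP_val (p : V) (j : ℕ) (u v u' v' : V) (s : PM V × PM V) :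
    ((mvP p j u v u' v' s).1.1, (mvP p j u v u' v' s).2.1) = mv p j u v u' v' (s.1.1, s.2.1) := rfl

theorem flP_ok {p : V} {j : ℕ} {s : PM V × PM V} (h : Ok s.1.1 s.2.1 p (2 * j + 1)) :
    (flP p j s).1.1 = fb s.1.1 s.2.1 p j ∧ (flP p j s).2.1 = fa s.1.1 s.2.1 p j := by
  simp only [flP, fl, if_pos h, and_self]

section weight

variable [Fintype V] {r : V → V → ℝ}

theorem wt_pos (h : ∀ x y, 0 < r x y) (π : V → V) : 0 < wt r π := prod_pos fun _ _ => h _ _

theorem wt_cj (hs : ∀ x y, r x y = r y x) {u v : V} {π : V → V} (h : IsPM π) (hu : π u ≠ v) :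
    wt r (cj u v π) * (r u (π u) ^ 2 * r v (π v) ^ 2) =
      wt r π * (r v (π u) ^ 2 * r u (π v) ^ 2) := by
  by_cases c : u = v
  · subst c; rw [cj_self]
  have n1 : π u ≠ π v := fun e => c (h.inj e)
  have n2 : π v ≠ u := fun e => hu (h.eq_iff.1 e)
  have key : ∀ g : V → ℝ, ∏ x, g x = g u * g v * g (π u) * g (π v) *
      ∏ x ∈ univ \ {u, v, π u, π v}, g x := by
    intro g
    rw [← prod_sdiff (subset_univ {u, v, π u, π v}), prod_insert, prod_insert, prod_insert,
      prod_singleton]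
    · ring
    · simpa using n1
    · simp [hu.symm, (h v).2.symm]
    · simp [c, (h u).2.symm, n2.symm]
  unfold wt
  rw [key, key fun x => r x (π x), cj_left h hu, cj_right h hu, cj_left' h hu, cj_right' h hu,
    (h u).1, (h v).1, prod_congr rfl (g := fun x => r x (π x)), hs (π u) v, hs (π v) u, hs (π u) u,
    hs (π v) v]
  · ring
  · intro x hx
    simp only [mem_sdiff, mem_univ, mem_insert, mem_singleton, not_or, true_and] at hx
    rw [cj_out hx.1 hx.2.1 (fun e => hx.2.2.1 (h.eq_iff.1 e).symm)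
      fun e => hx.2.2.2 (h.eq_iff.1 e).symm]

theorem Arc.wt_one (hs : ∀ x y, r x y = r y x) {D : Finset V} {a b : V → V} {p e : V}
    (h : Arc D a b p e) (ha : IsPM a) :
    wt r (sp D a b p e) * (r e (a e) ^ 2 * ∏ v ∈ D.erase e, r v (a v)) =
      wt r a * (r p (a e) ^ 2 * ∏ v ∈ D.erase p, r v (b v)) := by
  have key : ∀ (g : V → ℝ) (x : V), x ∈ D → ∏ v, g v = g x * g (a e) * (∏ v ∈ D.erase x, g v) *
      ∏ v ∈ univ \ insert (a e) D, g v := by
    intro g x hx
    rw [← prod_sdiff (subset_univ (insert (a e) D)), prod_insert h.hz, ← mul_prod_erase D g hx]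
    ring
  unfold wt
  rw [key _ p h.hp, key (fun v => r v (a v)) e h.he, sp_head, h.sp_z, (ha e).1,
    prod_congr rfl (s₁ := D.erase p) (g := fun v => r v (b v)),
    prod_congr rfl (s₁ := univ \ insert (a e) D) (g := fun v => r v (a v)), hs (a e) p, hs (a e) e]
  · ring
  · intro x hx
    simp only [mem_sdiff, mem_univ, mem_insert, not_or, true_and] at hx
    rw [h.sp_out hx.2 hx.1]
  · intro x hx
    rw [h.sp_in (mem_of_mem_erase hx) (ne_of_mem_erase hx)]

theorem Arc.wt (hr : ∀ x y, 0 < r x y) (hs : ∀ x y, r x y = r y x) {D : Finset V} {a b : V → V}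
    {p e : V} (h : Arc D a b p e) (ha : IsPM a) (hb : IsPM b) :
    wt r (sp D a b p e) * wt r (sp D b a e p) * (r e (a e) ^ 2 * r p (b p) ^ 2) =
      wt r a * wt r b * (r p (a e) ^ 2 * r e (b p) ^ 2) := by
  have h1 := h.wt_one hs ha
  have h2 := h.symm.wt_one hs hb
  have p1 : 0 < ∏ v ∈ D.erase e, r v (a v) := prod_pos fun _ _ => hr _ _
  have p2 : 0 < ∏ v ∈ D.erase p, r v (b v) := prod_pos fun _ _ => hr _ _
  refine mul_right_cancel₀ (mul_pos p1 p2).ne' ?_
  linear_combination (P308.wt r (sp D b a e p) * (r p (b p) ^ 2 * ∏ v ∈ D.erase p, r v (b v))) * h1 +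
    (P308.wt r a * (r p (a e) ^ 2 * ∏ v ∈ D.erase p, r v (b v))) * h2

end weight

end Vale.Agent.P308
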