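import Vale.Agent.P308.Tools

/-!
Common lemmas for the four cases.
-/

namespace Vale.Agent.P308.Cs

open Finset Function

variable {V : Type} [DecidableEq V] {a b a' b' : V → V} {p : V} {j : ℕ}

/-- A pair with the same arc. -/
theorem same (h : Ok a b p (2 * j + 1)) (ha : IsPM a') (hb : IsPM b')
    (h1 : ∀ v ∈ ws a b p (2 * j + 1), v ≠ wk a b p (2 * j) → a' v = a v)
    (h2 : ∀ v ∈ ws a b p (2 * j + 1), v ≠ p → b' v = b v) :
    Ok a' b' p (2 * j + 1) ∧ ws a' b' p (2 * j + 1) = ws a b p (2 * j + 1) ∧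
      Arc (ws a b p (2 * j + 1)) a' b' p (wk a b p (2 * j)) ∧
      fa a' b' p j = sp (ws a b p (2 * j + 1)) a' b' p (wk a b p (2 * j)) ∧
      fb a' b' p j = sp (ws a b p (2 * j + 1)) b' a' (wk a b p (2 * j)) p := by
  obtain ⟨k1, k2, k3⟩ := h.congr h1 fun v hv c _ => h2 v hv c
  refine ⟨k1, k2, ?_, by rw [fa, k2, k3], by rw [fb, k2, k3]⟩
  have := k1.arc ha hb
  rwa [k2, k3] at this

theorem fa_evn (h : Ok a b p (2 * j + 1)) (ha : IsPM a) (hb : IsPM b) :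
    fa a b p j p = wk a b p (2 * j + 1) ∧ fa a b p j (wk a b p (2 * j + 1)) = p ∧
      (∀ v ∈ ws a b p (2 * j + 2), v ≠ p → v ≠ wk a b p (2 * j + 1) → fa a b p j v = b v) ∧
      ∀ v, v ∉ ws a b p (2 * j + 2) → fa a b p j v = a v := by
  have A := h.arc ha hb
  rw [ws_evn, wk_last]
  exact ⟨sp_head, A.sp_z, fun v hv c1 c2 => A.sp_in ((mem_insert.1 hv).resolve_left c2) c1,
    fun v hv => A.sp_out (fun c => hv (mem_insert_of_mem c)) fun c => hv (c ▸ mem_insert_self _ _)⟩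

theorem close {A : Finset V} {q : V} (E : Evn A a b p q) (hb : IsPM b) :
    cj q (b p) b p = q ∧ cj q (b p) b q = p ∧
      ∀ v ∈ A, v ≠ p → v ≠ q → cj q (b p) b v = b v := by
  have n : b q ≠ b p := fun e => E.ne (hb.inj e).symm
  have e1 := cj_left hb n
  rw [(hb p).1] at e1
  refine ⟨(cj_pm _ _ hb).eq_iff.1 e1, e1, fun v hv c1 c2 => ?_⟩
  obtain ⟨-, k1, k2⟩ := E.hb v hv c1 c2
  exact cj_out c2 (fun e => k1 (by rw [e, (hb p).1])) k2 fun e => c1 (hb.inj e)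

variable [Fintype V] {r : V → V → ℝ} {f : PM V → ℝ}

theorem Pm_congr (h : Ok a b p (2 * j + 1)) (ha : IsPM a') (hb : IsPM b') (hb0 : IsPM b)
    (h1 : ∀ v ∈ ws a b p (2 * j + 1), v ≠ wk a b p (2 * j) → a' v = a v)
    (h2 : ∀ v ∈ ws a b p (2 * j + 1), b' v = b v) : Pm r f a' b' p j = Pm r f a b p j := by
  obtain ⟨-, k2, -, -, k5⟩ := same h ha hb h1 fun v hv _ => h2 v hv
  have e : b' p = b p := h2 p (wk_mem (i := 0) (by omega))
  rw [Pm, Pm, k2, k5, e, fb]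
  congr 1 <;> refine mm_congr fun v hv => ?_
  · rcases mem_insert.1 hv with rfl | hv
    · rw [(hb0 p).1, ← e, (hb p).1]
    · exact h2 v hv
  · unfold sp
    rw [e]
    split_ifs with c1 c2 c3
    exacts [rfl, rfl, h1 v c3 c1, absurd ((mem_insert.1 hv).resolve_left c2) c3]

theorem Pm_cyc (h : Ok a b p (2 * j + 1)) (ha : IsPM a') (hb : IsPM b') (ha0 : IsPM a)
    (hb0 : IsPM b) (h1 : ∀ v ∈ ws a b p (2 * j + 2), a' v = a v)
    (h0 : b' p = wk a b p (2 * j + 1))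
    (h2 : ∀ v ∈ ws a b p (2 * j + 2), v ≠ p → v ≠ wk a b p (2 * j + 1) → b' v = b v) :
    Pm r f a' b' p j = Pp r f a b p j := by
  have A := h.arc ha0 hb0
  obtain ⟨f1, f2, f3, -⟩ := fa_evn h ha0 hb0
  have s1 : ws a b p (2 * j + 1) ⊆ ws a b p (2 * j + 2) := ws_mono (by omega)
  obtain ⟨-, k2, k3, -, k5⟩ := same h ha hb (fun v hv _ => h1 v (s1 hv))
    fun v hv c => h2 v (s1 hv) c fun e => A.hz (by rw [← wk_last (a := a) (b := b), ← e]; exact hv)
  rw [Pm, Pp, k2, k5, h0, ← ws_succ]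
  congr 1 <;> refine mm_congr fun v hv => ?_
  · by_cases c1 : v = p
    · rw [c1, h0, f1]
    by_cases c2 : v = wk a b p (2 * j + 1)
    · rw [c2, f2, ← h0, (hb p).1]
    · rw [h2 v hv c1 c2, f3 v hv c1 c2]
  · by_cases c1 : v = wk a b p (2 * j)
    · rw [c1, sp_head, h0, wk_last]
    by_cases c2 : v = wk a b p (2 * j + 1)
    · rw [c2, ← h0, k3.symm.sp_z, h0, wk_last, (ha0 _).1]
    · rw [k3.symm.sp_in ((mem_insert.1 (ws_succ (a := a) (2 * j + 1) ▸ hv)).resolve_left c2) c1,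
        h1 v hv]

theorem fb_cyc (hr : Sym r) (h : Ok a b p (2 * j + 1)) (ha : IsPM a) (hb : IsPM b)
    (h0 : b p = wk a b p (2 * j + 1)) :
    (∀ v ∈ ws a b p (2 * j + 2), fb a b p j v = a v) ∧
      (∀ v, v ∉ ws a b p (2 * j + 2) → fb a b p j v = b v) ∧
      wt r (fa a b p j) * wt r (fb a b p j) = wt r a * wt r b := by
  have A := h.arc ha hb
  have W := A.wt hr.1 hr.2 ha hb
  rw [wk_last] at h0
  rw [ws_evn, ← h0]
  refine ⟨fun v hv => ?_, fun v hv => A.symm.sp_out (fun c => hv (mem_insert_of_mem c))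
    fun c => hv (c ▸ mem_insert_self _ _), ?_⟩
  · by_cases c1 : v = wk a b p (2 * j)
    · rw [c1, fb, sp_head, h0]
    by_cases c2 : v = b p
    · rw [c2, fb, A.symm.sp_z, h0, (ha _).1]
    · exact A.symm.sp_in ((mem_insert.1 hv).resolve_left c2) c1
  · rw [← h0, mul_comm (r _ _ ^ 2)] at W
    exact mul_right_cancel₀ (mul_pos (pow_pos (hr.1 _ _) 2) (pow_pos (hr.1 _ _) 2)).ne' W

omit [Fintype V] [DecidableEq V] in
theorem sq3 (hr : Sym r) (u1 v1 u2 v2 u3 v3 : V) :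
    0 < r u1 v1 ^ 2 * r u2 v2 ^ 2 * r u3 v3 ^ 2 := by
  have := hr.1 u1 v1
  have := hr.1 u2 v2
  have := hr.1 u3 v3
  positivity

/-- Comparison of the real weight with a hidden weight. -/
theorem cmp (hr : Sym r) {K w w' : ℝ} (hK : 1 ≤ K) {y q1 p2 q x : V} (ht : Tt r K p y q1 p2 q x)
    (hw : 0 < w) {u1 v1 u2 v2 u3 v3 : V} (h1 : u1 ≠ v1) (h2 : u2 ≠ v2) (h3 : u3 ≠ v3)
    (e : ∀ s : V → ℝ, s p * s y * (s q1 * s p2) * (s q * s x) =
      s u1 * s v1 * (s u2 * s v2) * (s u3 * s v3))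
    (e' : w' * (r p y ^ 2 * r q1 p2 ^ 2 * r q x ^ 2) =
      w * (r u1 v1 ^ 2 * r u2 v2 ^ 2 * r u3 v3 ^ 2)) : w ≤ K ^ 6 * w' :=
  wt_le e' (ht.three hK h1 h2 h3 e) hw (sq3 hr _ _ _ _ _ _) (sq3 hr _ _ _ _ _ _)

/-- Keys. -/
abbrev Ky (V : Type) : Type := V × V × V × V × V

/-- The key of a pair. -/
def ky (p : V) (m l : ℕ) (s : PM V × PM V) : Ky V :=
  (s.2.1 p, wk s.1.1 s.2.1 p m, wk s.1.1 s.2.1 p (m + 1), wk s.1.1 s.2.1 p (m + 1 + l),
    wk s.1.1 s.2.1 p (m + 1 + (l + 1)))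

theorem card_ky : (Fintype.card (Ky V) : ℝ) = (Fintype.card V : ℝ) ^ 5 := by
  simp only [Fintype.card_prod]; push_cast; ring

omit [Fintype V] in
theorem flP_inj (p : V) (j : ℕ) : Injective (flP p j) :=
  LeftInverse.injective (flP_flP p j)

omit [Fintype V] in
theorem cjP_inj (u v : V) : Injective (cjP u v) := LeftInverse.injective (cjP_cjP u v)

omit [Fintype V] in
theorem stab3 {p p' x : V} {l l' : ℕ} {a b π : V → V}
    (h : ∀ v ∈ insert x (ws a b p l ∪ ws a b p' l'), π v = a v) :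
    insert x (ws π b p l ∪ ws π b p' l') = insert x (ws a b p l ∪ ws a b p' l') := by
  rw [stab1 p l fun v hv => h v (by simp [hv]), stab1 p' l' fun v hv => h v (by simp [hv])]

omit [Fintype V] in
theorem stab4 {p p' x : V} {l l' : ℕ} {a b π : V → V}
    (h : ∀ v ∈ insert x (ws b a p l ∪ ws a b p' l'), π v = a v) :
    insert x (ws b π p l ∪ ws π b p' l') = insert x (ws b a p l ∪ ws a b p' l') := by
  rw [stab2 p l fun v hv => h v (by simp [hv]), stab1 p' l' fun v hv => h v (by simp [hv])]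

end Vale.Agent.P308.Cs
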