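import Vale.Agent.P308.Case0

/-!
Arcs of even length: the two cases.
-/

namespace Vale.Agent.P308

open Finset Function

namespace Cs

variable {V : Type} [DecidableEq V] [Fintype V] {a b : V → V} {p : V} {r : V → V → ℝ}
  {f : PM V → ℝ} {K : ℝ}

theorem oo_raw (hr : Sym r) (hK : 1 ≤ K) (ha : IsPM a) (hb : IsPM b) {i k : ℕ} {y q1 p2 q x : V}
    (hy : b p = y) (hq1 : wk a b p (2 * i) = q1) (hp2 : wk a b p (2 * i + 1) = p2)
    (hq : wk a b p (2 * i + 1 + 2 * k) = q) (hx : wk a b p (2 * i + 1 + (2 * k + 1)) = x)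
    (h : Ok a b p (2 * i + 1 + (2 * k + 1))) (ht : Tt r K p y q1 p2 q x) :
    Hid r (K ^ 6) (wt r a * wt r b) (ws a b p (2 * i + 1 + (2 * k + 1))) a b p i p p ∧
    Hid r (K ^ 6) (wt r a * wt r b)
      (insert p (ws a (cj q y b) p (2 * i + 1) ∪ ws (cj q y b) a p2 (2 * k + 1)))
      (cj q y b) a p2 k p2 p2 ∧
    Pp r f a b p (i + k) - Pm r f a b p i + Pm r f b a p2 k =
      Er r f (ws a b p (2 * i + 1 + (2 * k + 1))) a b p i p p -
      Er r f (insert p (ws a (cj q y b) p (2 * i + 1) ∪ ws (cj q y b) a p2 (2 * k + 1)))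
        (cj q y b) a p2 k p2 p2 := by
  have w0 : 0 < wt r a * wt r b := mul_pos (wt_pos hr.1 _) (wt_pos hr.1 _)
  have h1 : Ok a b p (2 * i + 1) := h.mono (by omega)
  have hw : Ok a b p (2 * (i + k) + 1) := h.mono (by omega)
  obtain ⟨h2, dj⟩ := h.right_od (by omega)
  have U := ws_add_od (a := a) (b := b) (p := p) (m := 2 * i + 1) (by omega) (2 * k + 1)
  have A1 := h1.arc ha hb
  have A2 := h2.arc hb ha
  have E := hw.evn ha hb
  obtain ⟨g1, g2, g3, -⟩ := fa_evn hw ha hb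
  have el : 2 * (i + k) + 2 = 2 * i + 1 + (2 * k + 1) := by ring
  have ez : a q1 = p2 := by rw [← hq1, ← hp2, wk_last]
  have ex : b q = x := by rw [← hq, ← hx, ← add_assoc, wk_od (i := 2 * i + 1 + 2 * k) (by omega)]
  have ew : a p2 = q1 := ha.eq_iff.1 ez
  rw [← wk_add_od (by omega), hq] at A2
  rw [show 2 * (i + k) + 1 = 2 * i + 1 + 2 * k by ring, hq] at E g1 g2 g3
  rw [el] at E g3
  obtain ⟨c1, c2, c3⟩ := close E hb
  have wc := wt_cj hr.2 (u := q) (v := y) hb fun e => E.ne (hb.inj (hy.trans e.symm))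
  rw [hy] at c1 c2 c3
  rw [hp2] at h2 dj U A2
  have hb' := cj_pm q y hb
  have eq2 : wk b a p2 (2 * k) = q := by rw [← hp2, ← wk_add_od (by omega), hq]
  have dj' := disjoint_left.1 dj
  have m1 : ∀ v ∈ ws a b p (2 * i + 1), v ≠ p → cj q y b v = b v := fun v hv c =>
    c3 v (U ▸ mem_union_left _ hv) c fun e => dj' hv (e ▸ A2.he)
  have m2 : ∀ v ∈ ws b a p2 (2 * k + 1), v ≠ q → cj q y b v = b v := fun v hv c =>
    c3 v (U ▸ mem_union_right _ hv) (fun e => dj' A1.hp (e ▸ hv)) c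
  obtain ⟨-, s1, -⟩ := same h1 ha hb' (fun _ _ _ => rfl) m1
  obtain ⟨o2, s2, B2, f2, f2'⟩ := same h2 hb' ha (eq2 ▸ m2) fun _ _ _ => rfl
  have P2 := Pm_congr (r := r) (f := f) h2 hb' ha ha (eq2 ▸ m2) fun _ _ => rfl
  rw [eq2] at B2 f2 f2'
  rw [hq1] at A1
  have W1 := A1.wt hr.1 hr.2 ha hb
  have W2 := B2.wt hr.1 hr.2 hb' ha
  rw [ez, hy] at W1
  rw [c2, ew] at W2
  rw [ex, ← hy, (hb p).1, hy] at wc
  have n1 : p ≠ p2 := fun e => dj' A1.hp (e ▸ A2.hp)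
  have n2 : q1 ≠ y := fun e => A1.hw (hy ▸ e ▸ A1.he)
  have n3 : q ≠ x := fun e => (hb q).2 (ex.trans e.symm)
  have n4 : y ≠ x := fun e => E.ne (hb.inj (by rw [hy, ex, e]))
  have n5 : q1 ≠ p2 := fun e => dj' A1.he (e ▸ A2.hp)
  have n6 : q ≠ q1 := fun e => dj' A1.he (e ▸ A2.he)
  rw [s1, s2, ← U, insert_eq_of_mem E.hp]
  have k6 : 1 ≤ K ^ 6 := one_le_pow₀ hK
  refine ⟨⟨h1, ws_mono (by omega), E.hp, E.hp, E.ha, le_mul_of_one_le_left w0.le k6, ?_⟩,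
    ⟨o2, by rw [s2, U]; exact subset_union_right, U ▸ mem_union_right _ A2.hp,
      U ▸ mem_union_right _ A2.hp, fun v hv => ?_, ?_, ?_⟩, ?_⟩
  · rw [cj_self, fa, fb, hq1]
    refine cmp hr hK ht w0 n1 n2 n3 (fun s => by ring) ?_
    linear_combination r q x ^ 2 * W1
  · by_cases d1 : v = p
    · rw [d1, c1]; exact E.hq
    by_cases d2 : v = q
    · rw [d2, c2]; exact E.hp
    · rw [c3 v hv d1 d2]; exact (E.hb v hv d1 d2).1
  · refine cmp hr hK ht w0 E.ne.symm n4 n5 (fun s => by ring) ?_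
    rw [hr.2 p y]
    linear_combination wt r a * r q1 p2 ^ 2 * wc
  · rw [cj_self, f2, f2']
    refine cmp hr hK ht w0 n1.symm n4 n6 (fun s => by ring) ?_
    refine mul_right_cancel₀ (pow_pos (hr.1 q p) 2).ne' ?_
    rw [hr.2 p y, hr.2 q1 p2]
    linear_combination r y p ^ 2 * r q x ^ 2 * W2 + wt r a * r p2 p ^ 2 * r q q1 ^ 2 * wc
  · have e1 : mm r f (ws a b p (2 * i + 1 + (2 * k + 1))) (fa a b p i) =
        mm r f (ws a b p (2 * i + 1 + (2 * k + 1))) (fa (cj q y b) a p2 k) := by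
      refine mm_congr fun v hv => ?_
      rw [f2, fa, hq1]
      by_cases d1 : v = p
      · rw [d1, sp_head, ez]; exact (c2 ▸ B2.sp_z).symm
      by_cases d2 : v = p2
      · rw [d2, sp_head, c2]; exact ez ▸ A1.sp_z
      rcases mem_union.1 (U ▸ hv) with hv | hv
      · rw [A1.sp_in hv d1, B2.sp_out (dj' hv) (c2.symm ▸ d1), m1 v hv d1]
      · rw [B2.sp_in hv d2, A1.sp_out (fun c => dj' c hv) (ez.symm ▸ d2)]
    have e2 : mm r f (ws a b p (2 * i + 1 + (2 * k + 1))) (fa a b p (i + k)) =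
        mm r f (ws a b p (2 * i + 1 + (2 * k + 1))) (cj q y b) := by
      refine mm_congr fun v hv => ?_
      by_cases d1 : v = p
      · rw [d1, c1, g1]
      by_cases d2 : v = q
      · rw [d2, c2, g2]
      · rw [c3 v hv d1 d2, g3 v hv d1 d2]
    rw [Er, Er, cj_self, cj_self, P2, Pp, el, e1, e2]
    ring

theorem ee_raw (hr : Sym r) (hK : 1 ≤ K) (ha : IsPM a) (hb : IsPM b) {i k : ℕ} {y q1 p2 q x : V}
    (hy : b p = y) (hq1 : wk a b p (2 * i + 1) = q1) (hp2 : wk a b p (2 * i + 1 + 1) = p2)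
    (hq : wk a b p (2 * i + 1 + 1 + (2 * k + 1)) = q)
    (hx : wk a b p (2 * i + 1 + 1 + (2 * k + 1 + 1)) = x) {b2 a3 b3 : V → V}
    (hb2 : cj p p2 (cj q y b) = b2) (ha3 : (fl p i (a, b2)).2 = a3) (hb3 : (fl p i (a, b2)).1 = b3)
    (h : Ok a b p (2 * i + 1 + 1 + (2 * k + 1 + 1))) (ht : Tt r K p y q1 p2 q x) :
    Hid r (K ^ 6) (wt r a * wt r b)
      (insert p (ws a b2 p (2 * i + 1 + 1) ∪ ws a b2 p2 (2 * k + 1 + 1))) a b2 p i p p ∧
    Hid r (K ^ 6) (wt r a * wt r b)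
      (insert p (ws b3 a3 p (2 * i + 1 + 1) ∪ ws a3 b3 p2 (2 * k + 1 + 1))) a3 b3 p2 k p p2 ∧
    Pp r f a b p (i + k + 1) - Pp r f a b p i - Pp r f a b p2 k =
      Er r f (insert p (ws a b2 p (2 * i + 1 + 1) ∪ ws a b2 p2 (2 * k + 1 + 1))) a b2 p i p p +
      Er r f (insert p (ws b3 a3 p (2 * i + 1 + 1) ∪ ws a3 b3 p2 (2 * k + 1 + 1)))
        a3 b3 p2 k p p2 := by
  have w0 : 0 < wt r a * wt r b := mul_pos (wt_pos hr.1 _) (wt_pos hr.1 _)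
  have h1 : Ok a b p (2 * i + 1) := h.mono (by omega)
  have h1' : Ok a b p (2 * i + 1 + 1) := h.mono (by omega)
  have hw : Ok a b p (2 * (i + k + 1) + 1) := h.mono (by omega)
  obtain ⟨h2', dj⟩ := h.right_ev (by omega)
  have U := ws_add_ev (a := a) (b := b) (p := p) (m := 2 * i + 1 + 1) (by omega) (2 * k + 1 + 1)
  have eq2 : wk a b p2 (2 * k + 1) = q := by rw [← hp2, ← wk_add_ev (by omega), hq]
  rw [hp2] at h2' dj U
  have h2 : Ok a b p2 (2 * k + 1) := h2'.mono (by omega)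
  have E1 : Evn (ws a b p (2 * i + 1 + 1)) a b p q1 := hq1 ▸ h1.evn ha hb
  have E2 : Evn (ws a b p2 (2 * k + 1 + 1)) a b p2 q := eq2 ▸ h2.evn ha hb
  have E := hw.evn ha hb
  obtain ⟨g1, g2, g3, -⟩ := fa_evn hw ha hb
  have el : 2 * (i + k + 1) + 2 = 2 * i + 1 + 1 + (2 * k + 1 + 1) := by ring
  have ez : b q1 = p2 := by rw [← hq1, ← hp2, wk_od (i := 2 * i + 1) (by omega)]
  have ex : b q = x := by
    rw [← hq, ← hx]; exact (wk_od (i := 2 * i + 1 + 1 + (2 * k + 1)) (by omega)).symm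
  rw [show 2 * (i + k + 1) + 1 = 2 * i + 1 + 1 + (2 * k + 1) by ring, hq] at E g1 g2 g3
  rw [el] at E g3
  obtain ⟨c1, c2, c3⟩ := close E hb
  have wc := wt_cj hr.2 (u := q) (v := y) hb fun e => E.ne (hb.inj (hy.trans e.symm))
  rw [ex, ← hy, (hb p).1, hy] at wc
  rw [hy] at c1 c2 c3
  have hb1 := cj_pm q y hb
  have dj' := disjoint_left.1 dj
  have u1 : ∀ v ∈ ws a b p (2 * i + 1 + 1), v ∈ ws a b p (2 * i + 1 + 1 + (2 * k + 1 + 1)) :=
    fun v hv => U ▸ mem_union_left _ hv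
  have u2 : ∀ v ∈ ws a b p2 (2 * k + 1 + 1), v ∈ ws a b p (2 * i + 1 + 1 + (2 * k + 1 + 1)) :=
    fun v hv => U ▸ mem_union_right _ hv
  have n1 : p ≠ p2 := fun e => dj' E1.hp (e ▸ E2.hp)
  have n4 : y ≠ x := fun e => E.ne (hb.inj (by rw [hy, ex, e]))
  have n5 : q1 ≠ p2 := fun e => dj' E1.hq (e ▸ E2.hp)
  have n6 : q1 ≠ q := fun e => dj' E1.hq (e ▸ E2.hq)
  have c4 : cj q y b q1 = p2 := by rw [c3 _ (u1 _ E1.hq) E1.ne.symm n6, ez]
  have c5 : cj q y b p2 = q1 := hb1.eq_iff.1 c4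
  have n7 : cj q y b p ≠ p2 := c1.symm ▸ E2.ne.symm
  have wd := wt_cj hr.2 hb1 n7
  have d1 := cj_left hb1 n7
  have d2 := cj_right hb1 n7
  have hb2' := cj_pm p p2 hb1
  have d5 : ∀ v ∈ ws a b p (2 * i + 1 + 1 + (2 * k + 1 + 1)), v ≠ p → v ≠ q → v ≠ p2 → v ≠ q1 →
      cj p p2 (cj q y b) v = b v := fun v hv k1 k2 k3 k4 => by
    rw [cj_out k1 k3 (fun e => k2 (c1 ▸ (hb1.eq_iff.1 e).symm))
      (fun e => k4 (c5 ▸ (hb1.eq_iff.1 e).symm)), c3 v hv k1 k2]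
  rw [c1, c5, hb2] at wd
  rw [c5, hb2] at d1
  rw [c1, hb2] at d2
  rw [hb2] at d5 hb2'
  have m1 : ∀ v ∈ ws a b p (2 * i + 1 + 1), v ≠ p → v ≠ q1 → b2 v = b v := fun v hv k1 k2 =>
    d5 v (u1 v hv) k1 (fun e => dj' hv (e ▸ E2.hq)) (fun e => dj' hv (e ▸ E2.hp)) k2
  have m2 : ∀ v ∈ ws a b p2 (2 * k + 1 + 1), v ≠ p2 → v ≠ q → b2 v = b v := fun v hv k1 k2 =>
    d5 v (u2 v hv) (fun e => dj' E1.hp (e ▸ hv)) k2 k1 (fun e => dj' E1.hq (e ▸ hv))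
  obtain ⟨o1', s1, t1⟩ := h1'.congr (a' := a) (b' := b2) (fun _ _ _ => rfl) (hq1.symm ▸ m1)
  obtain ⟨-, s2, -⟩ := h2'.congr (a' := a) (b' := b2) (fun _ _ _ => rfl) (eq2.symm ▸ m2)
  have o1 : Ok a b2 p (2 * i + 1) := o1'.mono (by omega)
  have P1 := Pm_cyc (r := r) (f := f) h1 ha hb2' ha hb (fun _ _ => rfl) (hq1.symm ▸ d1)
    (hq1.symm ▸ m1)
  rw [fl, if_pos o1] at ha3 hb3
  dsimp only at ha3 hb3
  have ha3' : IsPM a3 := ha3 ▸ o1.fa_pm ha hb2'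
  have hb3' : IsPM b3 := hb3 ▸ o1.fb_pm ha hb2'
  obtain ⟨i1, i2, i3, i4⟩ := fa_evn o1 ha hb2'
  obtain ⟨j1, j2, W1⟩ := fb_cyc hr o1 ha hb2' (by rw [t1, hq1, d1])
  rw [ha3, t1, hq1] at i1 i2 i3
  rw [ha3] at i4 W1
  rw [hb3] at j1 j2 W1
  rw [s1] at i3 i4 j1 j2
  have x1 : ∀ v ∈ ws a b p2 (2 * k + 1 + 1), a3 v = a v := fun v hv => i4 v fun c => dj' c hv
  have x2 : ∀ v ∈ ws a b p2 (2 * k + 1 + 1), b3 v = b2 v := fun v hv => j2 v fun c => dj' c hv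
  have x3 : ∀ v ∈ ws a b p2 (2 * k + 1 + 1), v ≠ p2 → v ≠ q → b3 v = b v := fun v hv k1 k2 => by
    rw [x2 v hv, m2 v hv k1 k2]
  have x4 : b3 p2 = q := by rw [x2 _ E2.hp, d2]
  obtain ⟨-, s3, -⟩ := h1'.congr (a' := b3) (b' := a3) (fun v hv _ => j1 v hv)
    (hq1.symm ▸ fun v hv k1 k2 => by rw [i3 v hv k1 k2, m1 v hv k1 k2])
  obtain ⟨o4', s4, t4⟩ := h2'.congr (a' := a3) (b' := b3) (fun v hv _ => x1 v hv) (eq2.symm ▸ x3)
  have o4 : Ok a3 b3 p2 (2 * k + 1) := o4'.mono (by omega)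
  have P2 := Pm_cyc (r := r) (f := f) h2 ha3' hb3' ha hb x1 (eq2.symm ▸ x4) (eq2.symm ▸ x3)
  obtain ⟨l1, l2, l3, l4⟩ := fa_evn o4 ha3' hb3'
  obtain ⟨-, -, W2⟩ := fb_cyc hr o4 ha3' hb3' (by rw [t4, eq2, x4])
  rw [t4, eq2] at l1 l2 l3
  rw [s4] at l3 l4
  have ha4 := o4.fa_pm ha3' hb3'
  have l5 : fa a3 b3 p2 k p = q1 := by rw [l4 p (dj' E1.hp), i1]
  have n8 : fa a3 b3 p2 k p ≠ p2 := l5.symm ▸ n5
  have we := wt_cj hr.2 ha4 n8
  rw [l5, l1] at we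
  have W0 : wt r a * wt r b2 * (r p y ^ 2 * r q1 p2 ^ 2 * r q x ^ 2) =
      wt r a * wt r b * (r y x ^ 2 * r p2 q ^ 2 * r p q1 ^ 2) := by
    refine mul_right_cancel₀ (pow_pos (hr.1 p q) 2).ne' ?_
    rw [hr.2 p y, hr.2 q1 p2]
    rw [hr.2 q p] at wc
    linear_combination wt r a * r y p ^ 2 * r q x ^ 2 * wd + wt r a * r p2 q ^ 2 * r p q1 ^ 2 * wc
  have C0 := cmp hr hK ht w0 n4 E2.ne E1.ne (fun s => by ring) W0
  rw [s1, s2, s3, s4, ← U, insert_eq_of_mem E.hp]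
  refine ⟨⟨o1, (ws_mono (by omega)).trans (s1 ▸ u1), E.hp, E.hp, E.ha, C0, ?_⟩,
    ⟨o4, (ws_mono (by omega)).trans (s4 ▸ u2), E.hp, u2 _ E2.hp, fun v hv => ?_, W1 ▸ C0, ?_⟩, ?_⟩
  · rw [cj_self, ha3, hb3, W1]; exact C0
  · rcases mem_union.1 (U ▸ hv) with hv | hv
    · by_cases k1 : v = p
      · rw [k1, i1]; exact u1 _ E1.hq
      by_cases k2 : v = q1
      · rw [k2, i2]; exact E.hp
      · rw [i3 v hv k1 k2, m1 v hv k1 k2]; exact u1 _ (E1.hb v hv k1 k2).1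
    · rw [x1 v hv]; exact u2 _ (E2.ha v hv)
  · refine cmp hr hK ht w0 n4 n5.symm E.ne (fun s => by ring) ?_
    refine mul_right_cancel₀ (mul_pos (pow_pos (hr.1 p q1) 2) (pow_pos (hr.1 p2 q) 2)).ne' ?_
    rw [← W1, ← W2] at W0
    linear_combination wt r (fb a3 b3 p2 k) * (r p y ^ 2 * r q1 p2 ^ 2 * r q x ^ 2) * we +
      r p2 q1 ^ 2 * r p q ^ 2 * W0
  · have e2 : mm r f (ws a b p (2 * i + 1 + 1 + (2 * k + 1 + 1))) (fa a b p (i + k + 1)) =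
        mm r f (ws a b p (2 * i + 1 + 1 + (2 * k + 1 + 1))) (cj p p2 (fa a3 b3 p2 k)) := by
      refine mm_congr fun v hv => ?_
      by_cases k1 : v = p
      · rw [k1, g1, cj_left ha4 n8, l1]
      by_cases k2 : v = q
      · rw [k2, g2]; exact (l1 ▸ cj_right' ha4 n8).symm
      rw [g3 v hv k1 k2]
      by_cases k3 : v = p2
      · rw [k3, cj_right ha4 n8, l5, hb.eq_iff.1 ez]
      by_cases k4 : v = q1
      · rw [k4, ez]; exact (l5 ▸ cj_left' ha4 n8).symm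
      rw [cj_out k1 k3 (fun e => k4 (l5 ▸ (ha4.eq_iff.1 e).symm))
        fun e => k2 (l1 ▸ (ha4.eq_iff.1 e).symm)]
      rcases mem_union.1 (U ▸ hv) with hv | hv
      · rw [l4 v (dj' hv), i3 v hv k1 k4, m1 v hv k1 k4]
      · rw [l3 v hv k3 k2, x3 v hv k3 k2]
    rw [Er, Er, cj_self, P1, P2, Pp.eq_1 r f a b p (i + k + 1), el, e2, ha3]
    ring

end Cs

open Cs

theorem oo (V : Type) [Fintype V] [DecidableEq V] (h : AvgStmt V) : OOStmt V := by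
  classical
  intro r f K hr hK p i k
  have k0 : 0 ≤ K ^ 6 := by positivity
  have raw := fun (s : PM V × PM V) (hs : s ∈ univ.filter (Cut r K p (2 * i) (2 * k))) =>
    oo_raw (f := f) hr hK s.1.2 s.2.2 rfl rfl rfl rfl rfl (mem_filter.1 hs).2.1
      (mem_filter.1 hs).2.2
  have t1 := transfer (f := f) h hr _ (ky p (2 * i) (2 * k)) (fun _ => id)
    (fun _ => injective_id) (fun _ => p) (fun _ => p) (fun _ => p) i
    (fun _ a b => ws a b p (2 * i + 1 + (2 * k + 1))) (fun _ _ _ _ e => stab1 p _ e) k0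
    fun s hs => (raw s hs).1
  have t2 := transfer (f := f) h hr _ (ky p (2 * i) (2 * k))
    (fun c s => (cjP c.2.2.2.1 c.1 s.2, s.1))
    (fun c s t e => Prod.ext (congrArg Prod.snd e) (cjP_inj _ _ (congrArg Prod.fst e)))
    (fun c => c.2.2.1) (fun c => c.2.2.1) (fun c => c.2.2.1) k
    (fun c a b => insert p (ws b a p (2 * i + 1) ∪ ws a b c.2.2.1 (2 * k + 1)))
    (fun _ _ _ _ e => stab4 e) k0 fun s hs => (raw s hs).2.1
  rw [card_ky] at t1 t2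
  rw [mul_assoc 4, mul_assoc 4]
  exact two_errors _ _ _ _ _ (fun s => (ww_pos hr s).le) (fun s hs => Or.inl (raw s hs).2.2) t1 t2

theorem ee (V : Type) [Fintype V] [DecidableEq V] (h : AvgStmt V) : EEStmt V := by
  classical
  intro r f K hr hK p i k
  have k0 : 0 ≤ K ^ 6 := by positivity
  have raw := fun (s : PM V × PM V) (hs : s ∈ univ.filter (Cut r K p (2 * i + 1) (2 * k + 1))) =>
    ee_raw (f := f) hr hK s.1.2 s.2.2 rfl rfl rfl rfl rfl rfl rfl rfl (mem_filter.1 hs).2.1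
      (mem_filter.1 hs).2.2
  have inj : ∀ c : Ky V, Injective fun s : PM V × PM V =>
      (s.1, cjP p c.2.2.1 (cjP c.2.2.2.1 c.1 s.2)) := fun c s t e =>
    Prod.ext (Prod.mk.inj e).1 (cjP_inj _ _ (cjP_inj _ _ (Prod.mk.inj e).2))
  have t1 := transfer (f := f) h hr _ (ky p (2 * i + 1) (2 * k + 1)) _ inj
    (fun _ => p) (fun _ => p) (fun _ => p) i
    (fun c a b => insert p (ws a b p (2 * i + 1 + 1) ∪ ws a b c.2.2.1 (2 * k + 1 + 1)))
    (fun _ _ _ _ e => stab3 e) k0 fun s hs => (raw s hs).1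
  have t2 := transfer (f := f) h hr _ (ky p (2 * i + 1) (2 * k + 1))
    (fun c s => (flP p i (s.1, cjP p c.2.2.1 (cjP c.2.2.2.1 c.1 s.2))).swap)
    (fun c => Prod.swap_injective.comp ((flP_inj p i).comp (inj c)))
    (fun c => c.2.2.1) (fun _ => p) (fun c => c.2.2.1) k
    (fun c a b => insert p (ws b a p (2 * i + 1 + 1) ∪ ws a b c.2.2.1 (2 * k + 1 + 1)))
    (fun _ _ _ _ e => stab4 e) k0 fun s hs => (raw s hs).2.1
  rw [card_ky] at t1 t2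
  rw [mul_assoc 4, mul_assoc 4]
  exact two_errors _ _ _ _ _ (fun s => (ww_pos hr s).le) (fun s hs => Or.inr (raw s hs).2.2) t1 t2

end Vale.Agent.P308
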