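import Vale.Agent.P308.Case0

/-!
Arcs of odd length: the two cases.
-/

namespace Vale.Agent.P308

open Finset Function

namespace Cs

variable {V : Type} [DecidableEq V] [Fintype V] {a b : V → V} {p : V} {r : V → V → ℝ}
  {f : PM V → ℝ} {K : ℝ}

theorem oe_raw (hr : Sym r) (hK : 1 ≤ K) (ha : IsPM a) (hb : IsPM b) {i k : ℕ} {y q1 p2 q x : V}
    (hy : b p = y) (hq1 : wk a b p (2 * i) = q1) (hp2 : wk a b p (2 * i + 1) = p2)
    (hq : wk a b p (2 * i + 1 + (2 * k + 1)) = q)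
    (hx : wk a b p (2 * i + 1 + (2 * k + 1 + 1)) = x) {a3 b3 : V → V}
    (ha3 : (fl p (i + k + 1) (a, b)).2 = a3) (hb3 : cj q1 q (fl p (i + k + 1) (a, b)).1 = b3)
    (h : Ok a b p (2 * i + 1 + (2 * k + 1 + 1))) (ht : Tt r K p y q1 p2 q x) :
    Hid r (K ^ 6) (wt r a * wt r b) (ws a b p (2 * i + 1 + (2 * k + 1 + 1) + 1)) a b p i p p ∧
    Hid r (K ^ 6) (wt r a * wt r b)
      (insert x (ws b3 a3 p (2 * i + 1) ∪ ws a3 b3 p2 (2 * k + 1 + 1))) a3 b3 p2 k q p ∧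
    Pp r f a b p (i + k + 1) - Pm r f a b p i + Pp r f b a p2 k =
      Er r f (ws a b p (2 * i + 1 + (2 * k + 1 + 1) + 1)) a b p i p p -
      Er r f (insert x (ws b3 a3 p (2 * i + 1) ∪ ws a3 b3 p2 (2 * k + 1 + 1))) a3 b3 p2 k q p := by
  have w0 : 0 < wt r a * wt r b := mul_pos (wt_pos hr.1 _) (wt_pos hr.1 _)
  have el : 2 * (i + k + 1) + 1 = 2 * i + 1 + (2 * k + 1 + 1) := by ring
  have h1 : Ok a b p (2 * i + 1) := h.mono (by omega)
  have hw : Ok a b p (2 * (i + k + 1) + 1) := el ▸ h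
  obtain ⟨h2', dj⟩ := h.right_od (by omega)
  have U := ws_add_od (a := a) (b := b) (p := p) (m := 2 * i + 1) (by omega) (2 * k + 1 + 1)
  have eq2 : wk b a p2 (2 * k + 1) = q := by rw [← hp2, ← wk_add_od (by omega), hq]
  rw [hp2] at h2' dj U
  have h2 : Ok b a p2 (2 * k + 1) := h2'.mono (by omega)
  have A1 : Arc (ws a b p (2 * i + 1)) a b p q1 := hq1 ▸ h1.arc ha hb
  have E2 : Evn (ws b a p2 (2 * k + 1 + 1)) b a p2 q := eq2 ▸ h2.evn hb ha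
  have A := hw.arc ha hb
  have E := hw.evn ha hb
  have eq3 : wk a b p (2 * (i + k + 1)) = q := by rw [← hq]; congr 1; ring
  have ez : a q1 = p2 := by rw [← hq1, ← hp2, wk_last]
  have ex : a q = x := by
    rw [← hq, ← hx]; exact (wk_ev (i := 2 * i + 1 + (2 * k + 1)) (by omega)).symm
  have SS : ws a b p (2 * i + 1 + (2 * k + 1 + 1) + 1) =
      insert x (ws a b p (2 * i + 1 + (2 * k + 1 + 1))) := by rw [ws_succ, hx]
  rw [fl, if_pos hw] at ha3 hb3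
  dsimp only at ha3 hb3
  have ha3' : IsPM a3 := ha3 ▸ hw.fa_pm ha hb
  have hb1 := hw.fb_pm ha hb
  have a3J := ha3
  rw [fa, eq3, el] at ha3
  rw [fb, eq3, el] at hb3 hb1
  rw [eq3, el] at A
  rw [show 2 * (i + k + 1) + 2 = 2 * i + 1 + (2 * k + 1 + 1) + 1 by ring, el, hx, SS] at E
  have dj' := disjoint_left.1 dj
  have u1 : ∀ v ∈ ws a b p (2 * i + 1), v ∈ ws a b p (2 * i + 1 + (2 * k + 1 + 1)) :=
    fun v hv => U ▸ mem_union_left _ hv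
  have u2 : ∀ v ∈ ws b a p2 (2 * k + 1 + 1), v ∈ ws a b p (2 * i + 1 + (2 * k + 1 + 1)) :=
    fun v hv => U ▸ mem_union_right _ hv
  have n1 : p ≠ p2 := fun e => dj' A1.hp (e ▸ E2.hp)
  have n2 : q1 ≠ y := fun e => A1.hw (hy ▸ e ▸ A1.he)
  have n3 : q ≠ x := fun e => (ha q).2 (ex.trans e.symm)
  have n4 : p ≠ x := E.ne
  have n6 : q1 ≠ q := fun e => dj' A1.he (e ▸ E2.hq)
  have WW := A.wt hr.1 hr.2 ha hb
  have W1 := A1.wt hr.1 hr.2 ha hb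
  have c1 := A.symm.sp_in (u1 _ A1.he) n6
  have c2 : sp (ws a b p (2 * i + 1 + (2 * k + 1 + 1))) b a q p q = b p := sp_head
  have c3 := fun v hv k => A.symm.sp_in (v := v) hv k
  have i1 : a3 p = x := by rw [← ha3, sp_head, ex]
  have i3 := fun v hv k => A.sp_in (v := v) hv k
  generalize sp (ws a b p (2 * i + 1 + (2 * k + 1 + 1))) b a q p = b1 at hb3 hb1 WW c1 c2 c3
  rw [ha3] at WW i3
  rw [ez] at c1 W1
  rw [hy] at c2 W1 WW
  rw [ex] at WW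
  have n7 : b1 q1 ≠ q := c1.symm ▸ E2.ne
  have wc := wt_cj hr.2 hb1 n7
  have d1 := cj_left' hb1 n7
  have hb3' := cj_pm q1 q hb1
  have d5 : ∀ v ∈ ws a b p (2 * i + 1 + (2 * k + 1 + 1)), v ≠ q → v ≠ q1 → v ≠ p2 →
      cj q1 q b1 v = a v := fun v hv k1 k2 k3 => by
    rw [cj_out k2 k1 (fun e => k3 (c1 ▸ (hb1.eq_iff.1 e).symm))
      (fun e => A.hw (hy ▸ c2 ▸ (hb1.eq_iff.1 e).symm ▸ hv)), c3 v hv k1]
  rw [c1, c2, hb3] at wc
  rw [c1, hb3] at d1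
  rw [hb3] at d5 hb3'
  have x1 : ∀ v ∈ ws b a p2 (2 * k + 1 + 1), a3 v = b v := fun v hv =>
    i3 v (u2 v hv) fun e => dj' A1.hp (e ▸ hv)
  have x3 : ∀ v ∈ ws b a p2 (2 * k + 1 + 1), v ≠ p2 → v ≠ q → b3 v = a v := fun v hv k1 k2 =>
    d5 v (u2 v hv) k2 (fun e => dj' A1.he (e ▸ hv)) k1
  obtain ⟨-, s3, -⟩ := h1.congr (a' := b3) (b' := a3) (hq1.symm ▸ fun v hv k1 =>
    d5 v (u1 v hv) (fun e => dj' hv (e ▸ E2.hq)) k1 fun e => dj' hv (e ▸ E2.hp))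
    fun v hv k1 _ => i3 v (u1 v hv) k1
  obtain ⟨o4', s4, t4⟩ := h2'.congr (a' := a3) (b' := b3) (fun v hv _ => x1 v hv) (eq2.symm ▸ x3)
  have o4 : Ok a3 b3 p2 (2 * k + 1) := o4'.mono (by omega)
  have P2 := Pm_cyc (r := r) (f := f) h2 ha3' hb3' hb ha x1 (eq2.symm ▸ d1) (eq2.symm ▸ x3)
  obtain ⟨l1, l2, l3, l4⟩ := fa_evn o4 ha3' hb3'
  obtain ⟨-, -, W2⟩ := fb_cyc hr o4 ha3' hb3' (by rw [t4, eq2, d1])
  rw [t4, eq2] at l1 l2 l3
  rw [s4] at l3 l4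
  have ha4 := o4.fa_pm ha3' hb3'
  have l5 : fa a3 b3 p2 k p = x := by rw [l4 p (dj' A1.hp), i1]
  have n8 : fa a3 b3 p2 k q ≠ p := l2.symm ▸ n1.symm
  have we := wt_cj hr.2 ha4 n8
  rw [l5, l2] at we
  have W0 : wt r a3 * wt r b3 * (r p y ^ 2 * r q1 p2 ^ 2 * r q x ^ 2) =
      wt r a * wt r b * (r p x ^ 2 * r q p2 ^ 2 * r q1 y ^ 2) := by
    refine mul_right_cancel₀ (pow_pos (hr.1 q y) 2).ne' ?_
    linear_combination wt r a3 * r p y ^ 2 * r q x ^ 2 * wc + r q p2 ^ 2 * r q1 y ^ 2 * WW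
  have k6 : 1 ≤ K ^ 6 := one_le_pow₀ hK
  rw [s3, s4, ← U, SS]
  refine ⟨⟨h1, fun v hv => mem_insert_of_mem (u1 v hv), E.hp, E.hp, E.ha,
      le_mul_of_one_le_left w0.le k6, ?_⟩,
    ⟨o4, fun v hv => mem_insert_of_mem (u2 v (s4 ▸ ws_mono (by omega) hv)),
      mem_insert_of_mem A.he, E.hp, fun v hv => ?_,
      cmp hr hK ht w0 n4 E2.ne.symm n2 (fun s => by ring) W0, ?_⟩, ?_⟩
  · rw [cj_self, fa, fb, hq1]
    refine cmp hr hK ht w0 n1 n2 n3 (fun s => by ring) ?_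
    linear_combination r q x ^ 2 * W1
  · rcases mem_insert.1 hv with rfl | hv
    · rw [ha3'.eq_iff.1 i1]; exact E.hp
    by_cases k1 : v = p
    · rw [k1, i1]; exact E.hq
    · rw [i3 v hv k1]; exact mem_insert_of_mem (A.hb v hv k1)
  · refine cmp hr hK ht w0 n1 n3 n2 (fun s => by ring) ?_
    refine mul_right_cancel₀ (mul_pos (pow_pos (hr.1 q p2) 2) (pow_pos (hr.1 p x) 2)).ne' ?_
    rw [← W2] at W0
    linear_combination wt r (fb a3 b3 p2 k) * (r p y ^ 2 * r q1 p2 ^ 2 * r q x ^ 2) * we +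
      r p p2 ^ 2 * r q x ^ 2 * W0
  · have e2 : mm r f (insert x (ws a b p (2 * i + 1 + (2 * k + 1 + 1)))) (fa a b p i) =
        mm r f (insert x (ws a b p (2 * i + 1 + (2 * k + 1 + 1)))) (cj q p (fa a3 b3 p2 k)) := by
      refine mm_congr fun v hv => ?_
      rw [fa.eq_1 a, hq1]
      by_cases k1 : v = p
      · rw [k1, sp_head, ez, cj_right ha4 n8, l2]
      by_cases k3 : v = p2
      · rw [k3, ← ez, A1.sp_z, ez]; exact (l2 ▸ cj_left' ha4 n8).symm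
      by_cases k2 : v = q
      · rw [k2, A1.sp_out (fun c => dj' c E2.hq) (ez.symm ▸ E2.ne.symm), cj_left ha4 n8, l5, ex]
      by_cases k4 : v = x
      · rw [k4, A1.sp_out (fun c => A.hz (ex ▸ u1 _ c)) (ez.symm ▸ k4 ▸ k3), ha.eq_iff.1 ex]
        exact (l5 ▸ cj_right' ha4 n8).symm
      rw [cj_out k2 k1 (fun e => k3 (l2 ▸ (ha4.eq_iff.1 e).symm))
        fun e => k4 (l5 ▸ (ha4.eq_iff.1 e).symm)]
      rcases mem_union.1 (U ▸ (mem_insert.1 hv).resolve_left k4) with hv | hv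
      · rw [l4 v (dj' hv), i3 v (u1 v hv) k1, A1.sp_in hv k1]
      · rw [l3 v hv k3 k2, x3 v hv k3 k2, A1.sp_out (fun c => dj' c hv) (ez.symm ▸ k3)]
    rw [Er, Er, cj_self, P2, Pp.eq_1 r f a b p (i + k + 1), a3J,
      show 2 * (i + k + 1) + 2 = 2 * i + 1 + (2 * k + 1 + 1) + 1 by ring, SS, e2]
    ring

theorem eo_raw (hr : Sym r) (hK : 1 ≤ K) (ha : IsPM a) (hb : IsPM b) {i k : ℕ} {y q1 p2 q x : V}
    (hy : b p = y) (hq1 : wk a b p (2 * i + 1) = q1) (hp2 : wk a b p (2 * i + 1 + 1) = p2)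
    (hq : wk a b p (2 * i + 1 + 1 + 2 * k) = q)
    (hx : wk a b p (2 * i + 1 + 1 + (2 * k + 1)) = x) {a3 b3 : V → V}
    (ha3 : (fl p2 k (a, b)).2 = a3) (hb3 : cj p q (fl p2 k (a, b)).1 = b3)
    (h : Ok a b p (2 * i + 1 + 1 + (2 * k + 1))) (ht : Tt r K p y q1 p2 q x) :
    Hid r (K ^ 6) (wt r a * wt r b) (ws a b p (2 * i + 1 + 1 + (2 * k + 1) + 1)) a b p2 k p2 p2 ∧
    Hid r (K ^ 6) (wt r a * wt r b)
      (insert x (ws b3 a3 p2 (2 * k + 1) ∪ ws a3 b3 p (2 * i + 1 + 1))) a3 b3 p i p p2 ∧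
    Pp r f a b p (i + k + 1) - Pp r f a b p i - Pm r f a b p2 k =
      Er r f (ws a b p (2 * i + 1 + 1 + (2 * k + 1) + 1)) a b p2 k p2 p2 +
      Er r f (insert x (ws b3 a3 p2 (2 * k + 1) ∪ ws a3 b3 p (2 * i + 1 + 1))) a3 b3 p i p p2 := by
  have w0 : 0 < wt r a * wt r b := mul_pos (wt_pos hr.1 _) (wt_pos hr.1 _)
  have el : 2 * (i + k + 1) + 1 = 2 * i + 1 + 1 + (2 * k + 1) := by ring
  have h1 : Ok a b p (2 * i + 1) := h.mono (by omega)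
  have h1' : Ok a b p (2 * i + 1 + 1) := h.mono (by omega)
  have hw : Ok a b p (2 * (i + k + 1) + 1) := el ▸ h
  obtain ⟨h2, dj⟩ := h.right_ev (by omega)
  have U := ws_add_ev (a := a) (b := b) (p := p) (m := 2 * i + 1 + 1) (by omega) (2 * k + 1)
  have eq2 : wk a b p2 (2 * k) = q := by rw [← hp2, ← wk_add_ev (by omega), hq]
  rw [hp2] at h2 dj U
  have E1 : Evn (ws a b p (2 * i + 1 + 1)) a b p q1 := hq1 ▸ h1.evn ha hb
  have A2 : Arc (ws a b p2 (2 * k + 1)) a b p2 q := eq2 ▸ h2.arc ha hb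
  have A := hw.arc ha hb
  have E := hw.evn ha hb
  have eq3 : wk a b p (2 * (i + k + 1)) = q := by rw [← hq]; congr 1; ring
  have ez : b q1 = p2 := by rw [← hq1, ← hp2, wk_od (i := 2 * i + 1) (by omega)]
  have ew : b p2 = q1 := hb.eq_iff.1 ez
  have ex : a q = x := by
    rw [← hq, ← hx]; exact (wk_ev (i := 2 * i + 1 + 1 + 2 * k) (by omega)).symm
  have SS : ws a b p (2 * i + 1 + 1 + (2 * k + 1) + 1) =
      insert x (ws a b p (2 * i + 1 + 1 + (2 * k + 1))) := by rw [ws_succ, hx]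
  rw [fl, if_pos h2] at ha3 hb3
  dsimp only at ha3 hb3
  have ha3' : IsPM a3 := ha3 ▸ h2.fa_pm ha hb
  have hb1 := h2.fb_pm ha hb
  have a3J := ha3
  have b1J : fb a b p2 k = sp (ws a b p2 (2 * k + 1)) b a q p2 := by rw [fb, eq2]
  rw [fa, eq2] at ha3
  rw [b1J] at hb3 hb1
  rw [eq3, el] at A
  rw [show 2 * (i + k + 1) + 2 = 2 * i + 1 + 1 + (2 * k + 1) + 1 by ring, el, hx, SS] at E
  have dj' := disjoint_left.1 dj
  have u1 : ∀ v ∈ ws a b p (2 * i + 1 + 1), v ∈ ws a b p (2 * i + 1 + 1 + (2 * k + 1)) :=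
    fun v hv => U ▸ mem_union_left _ hv
  have u2 : ∀ v ∈ ws a b p2 (2 * k + 1), v ∈ ws a b p (2 * i + 1 + 1 + (2 * k + 1)) :=
    fun v hv => U ▸ mem_union_right _ hv
  have n0 : p ≠ y := fun e => (hb p).2 (hy.trans e.symm)
  have n2 : q ≠ y := fun e => A.hw (hy ▸ e ▸ A.he)
  have n3 : p2 ≠ x := fun e => A2.hz (ex ▸ e ▸ A2.hp)
  have n5 : q1 ≠ p2 := fun e => dj' E1.hq (e ▸ A2.hp)
  have n6 : q ≠ q1 := fun e => dj' E1.hq (e ▸ A2.he)
  have W1 := A2.wt hr.1 hr.2 ha hb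
  have c1 := A2.symm.sp_out (dj' E1.hp) (ew.symm ▸ E1.ne)
  have c2 : sp (ws a b p2 (2 * k + 1)) b a q p2 q = b p2 := sp_head
  have c3 := fun v hv k => A2.symm.sp_in (v := v) hv k
  have c4 := fun v hv k => A2.symm.sp_out (v := v) hv k
  have i1 : a3 p2 = x := by rw [← ha3, sp_head, ex]
  have i3 := fun v hv k => A2.sp_in (v := v) hv k
  have i4 := fun v hv k => A2.sp_out (v := v) hv k
  generalize sp (ws a b p2 (2 * k + 1)) b a q p2 = b1 at hb3 hb1 W1 c1 c2 c3 c4 b1J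
  rw [ha3] at W1 i3 i4
  rw [ew] at c2 c4 W1
  rw [hy] at c1
  rw [ex] at W1 i4
  have n7 : b1 p ≠ q := c1.symm ▸ n2.symm
  have wc := wt_cj hr.2 hb1 n7
  have d1 := cj_left hb1 n7
  have hb3' := cj_pm p q hb1
  have d5 : ∀ v ∈ ws a b p (2 * i + 1 + 1 + (2 * k + 1)), v ≠ p → v ≠ q → v ≠ q1 →
      cj p q b1 v = b1 v := fun v hv k1 k2 k3 =>
    cj_out k1 k2 (fun e => A.hw (hy ▸ c1 ▸ (hb1.eq_iff.1 e).symm ▸ hv))
      fun e => k3 (c2 ▸ (hb1.eq_iff.1 e).symm)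
  rw [c1, c2, hb3] at wc
  rw [c2, hb3] at d1
  rw [hb3] at d5 hb3'
  have x1 : ∀ v ∈ ws a b p (2 * i + 1 + 1), a3 v = a v := fun v hv =>
    i4 v (dj' hv) fun e => A.hz (ex ▸ e ▸ u1 v hv)
  have x3 : ∀ v ∈ ws a b p (2 * i + 1 + 1), v ≠ p → v ≠ q1 → b3 v = b v := fun v hv k1 k2 => by
    rw [d5 v (u1 v hv) k1 (fun e => dj' hv (e ▸ A2.he)) k2, c4 v (dj' hv) k2]
  obtain ⟨-, s3, -⟩ := h2.congr (a' := b3) (b' := a3) (eq2.symm ▸ fun v hv k1 => by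
    rw [d5 v (u2 v hv) (fun e => dj' E1.hp (e ▸ hv)) k1 fun e => dj' E1.hq (e ▸ hv), c3 v hv k1])
    fun v hv k1 _ => i3 v hv k1
  obtain ⟨o4', s4, t4⟩ := h1'.congr (a' := a3) (b' := b3) (fun v hv _ => x1 v hv) (hq1.symm ▸ x3)
  have o4 : Ok a3 b3 p (2 * i + 1) := o4'.mono (by omega)
  have P2 := Pm_cyc (r := r) (f := f) h1 ha3' hb3' ha hb x1 (hq1.symm ▸ d1) (hq1.symm ▸ x3)
  obtain ⟨l1, l2, l3, l4⟩ := fa_evn o4 ha3' hb3'
  obtain ⟨-, -, W2⟩ := fb_cyc hr o4 ha3' hb3' (by rw [t4, hq1, d1])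
  rw [t4, hq1] at l1 l2 l3
  rw [s4] at l3 l4
  have ha4 := o4.fa_pm ha3' hb3'
  have l5 : fa a3 b3 p i p2 = x := by rw [l4 p2 fun c => dj' c A2.hp, i1]
  have n8 : fa a3 b3 p i p ≠ p2 := l1.symm ▸ n5
  have we := wt_cj hr.2 ha4 n8
  rw [l5, l1] at we
  rw [hr.2 p2 q1] at W1 we
  have W0 : wt r a3 * wt r b3 * (r p y ^ 2 * r q1 p2 ^ 2 * r q x ^ 2) =
      wt r a * wt r b * (r p2 x ^ 2 * r q y ^ 2 * r p q1 ^ 2) := by
    refine mul_right_cancel₀ (pow_pos (hr.1 q q1) 2).ne' ?_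
    linear_combination wt r a3 * r q1 p2 ^ 2 * r q x ^ 2 * wc + r q y ^ 2 * r p q1 ^ 2 * W1
  have k6 : 1 ≤ K ^ 6 := one_le_pow₀ hK
  rw [s3, s4, union_comm, ← U, SS]
  refine ⟨⟨h2, fun v hv => mem_insert_of_mem (u2 v hv), mem_insert_of_mem (u2 _ A2.hp),
      mem_insert_of_mem (u2 _ A2.hp), E.ha, le_mul_of_one_le_left w0.le k6, ?_⟩,
    ⟨o4, fun v hv => mem_insert_of_mem (u1 v (s4 ▸ ws_mono (by omega) hv)),
      E.hp, mem_insert_of_mem (u2 _ A2.hp), fun v hv => ?_,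
      cmp hr hK ht w0 n3 n2 E1.ne (fun s => by ring) W0, ?_⟩, ?_⟩
  · rw [cj_self, a3J, b1J]
    refine cmp hr hK ht w0 n0 n3 n6 (fun s => by ring) ?_
    linear_combination r p y ^ 2 * W1
  · rcases mem_insert.1 hv with rfl | hv
    · rw [ha3'.eq_iff.1 i1]; exact mem_insert_of_mem (u2 _ A2.hp)
    rcases mem_union.1 (U ▸ hv) with hv | hv
    · rw [x1 v hv]; exact mem_insert_of_mem (u1 _ (E1.ha v hv))
    by_cases k1 : v = p2
    · rw [k1, i1]; exact E.hq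
    · rw [i3 v hv k1]; exact mem_insert_of_mem (u2 _ (A2.hb v hv k1))
  · refine cmp hr hK ht w0 n5 E.ne n2 (fun s => by ring) ?_
    refine mul_right_cancel₀ (mul_pos (pow_pos (hr.1 p q1) 2) (pow_pos (hr.1 p2 x) 2)).ne' ?_
    rw [← W2] at W0
    linear_combination wt r (fb a3 b3 p i) * (r p y ^ 2 * r q1 p2 ^ 2 * r q x ^ 2) * we +
      r q1 p2 ^ 2 * r p x ^ 2 * W0
  · have e2 : mm r f (insert x (ws a b p (2 * i + 1 + 1 + (2 * k + 1)))) (fa a b p (i + k + 1)) =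
        mm r f (insert x (ws a b p (2 * i + 1 + 1 + (2 * k + 1)))) (cj p p2 (fa a3 b3 p i)) := by
      refine mm_congr fun v hv => ?_
      rw [fa.eq_1 a, eq3, el]
      by_cases k1 : v = p
      · rw [k1, sp_head, ex, cj_left ha4 n8, l5]
      by_cases k4 : v = x
      · rw [k4, ← ex, A.sp_z, ex]; exact (l5 ▸ cj_right' ha4 n8).symm
      have hv' := (mem_insert.1 hv).resolve_left k4
      rw [A.sp_in hv' k1]
      by_cases k3 : v = p2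
      · rw [k3, cj_right ha4 n8, l1, ew]
      by_cases k2 : v = q1
      · rw [k2, ez]; exact (l1 ▸ cj_left' ha4 n8).symm
      rw [cj_out k1 k3 (fun e => k2 (l1 ▸ (ha4.eq_iff.1 e).symm))
        fun e => k4 (l5 ▸ (ha4.eq_iff.1 e).symm)]
      rcases mem_union.1 (U ▸ hv') with hv | hv
      · rw [l3 v hv k1 k2, x3 v hv k1 k2]
      · rw [l4 v fun c => dj' c hv, i3 v hv k3]
    rw [Er, Er, cj_self, P2, Pp.eq_1 r f a b p (i + k + 1), a3J,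
      show 2 * (i + k + 1) + 2 = 2 * i + 1 + 1 + (2 * k + 1) + 1 by ring, SS, e2]
    ring

end Cs

open Cs

theorem oe (V : Type) [Fintype V] [DecidableEq V] (h : AvgStmt V) : OEStmt V := by
  classical
  intro r f K hr hK p i k
  have k0 : 0 ≤ K ^ 6 := by positivity
  have raw := fun (s : PM V × PM V) (hs : s ∈ univ.filter (Cut r K p (2 * i) (2 * k + 1))) =>
    oe_raw (f := f) hr hK s.1.2 s.2.2 rfl rfl rfl rfl rfl rfl rfl (mem_filter.1 hs).2.1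
      (mem_filter.1 hs).2.2
  have t1 := transfer (f := f) h hr _ (ky p (2 * i) (2 * k + 1)) (fun _ => id)
    (fun _ => injective_id) (fun _ => p) (fun _ => p) (fun _ => p) i
    (fun _ a b => ws a b p (2 * i + 1 + (2 * k + 1 + 1) + 1)) (fun _ _ _ _ e => stab1 p _ e) k0
    fun s hs => (raw s hs).1
  have t2 := transfer (f := f) h hr _ (ky p (2 * i) (2 * k + 1))
    (fun c s => ((flP p (i + k + 1) s).2, cjP c.2.1 c.2.2.2.1 (flP p (i + k + 1) s).1))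
    (fun c s t e => flP_inj p _ (Prod.ext (cjP_inj _ _ (Prod.mk.inj e).2) (Prod.mk.inj e).1))
    (fun c => c.2.2.1) (fun c => c.2.2.2.1) (fun _ => p) k
    (fun c a b => insert c.2.2.2.2 (ws b a p (2 * i + 1) ∪ ws a b c.2.2.1 (2 * k + 1 + 1)))
    (fun _ _ _ _ e => stab4 e) k0 fun s hs => (raw s hs).2.1
  rw [card_ky] at t1 t2
  rw [mul_assoc 4, mul_assoc 4]
  exact two_errors _ _ _ _ _ (fun s => (ww_pos hr s).le) (fun s hs => Or.inl (raw s hs).2.2) t1 t2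

theorem eo (V : Type) [Fintype V] [DecidableEq V] (h : AvgStmt V) : EOStmt V := by
  classical
  intro r f K hr hK p i k
  have k0 : 0 ≤ K ^ 6 := by positivity
  have raw := fun (s : PM V × PM V) (hs : s ∈ univ.filter (Cut r K p (2 * i + 1) (2 * k))) =>
    eo_raw (f := f) hr hK s.1.2 s.2.2 rfl rfl rfl rfl rfl rfl rfl (mem_filter.1 hs).2.1
      (mem_filter.1 hs).2.2
  have t1 := transfer (f := f) h hr _ (ky p (2 * i + 1) (2 * k)) (fun _ => id)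
    (fun _ => injective_id) (fun c => c.2.2.1) (fun c => c.2.2.1) (fun c => c.2.2.1) k
    (fun _ a b => ws a b p (2 * i + 1 + 1 + (2 * k + 1) + 1)) (fun _ _ _ _ e => stab1 p _ e) k0
    fun s hs => (raw s hs).1
  have t2 := transfer (f := f) h hr _ (ky p (2 * i + 1) (2 * k))
    (fun c s => ((flP c.2.2.1 k s).2, cjP p c.2.2.2.1 (flP c.2.2.1 k s).1))
    (fun c s t e => flP_inj _ _ (Prod.ext (cjP_inj _ _ (Prod.mk.inj e).2) (Prod.mk.inj e).1))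
    (fun _ => p) (fun _ => p) (fun c => c.2.2.1) i
    (fun c a b => insert c.2.2.2.2 (ws b a c.2.2.1 (2 * k + 1) ∪ ws a b p (2 * i + 1 + 1)))
    (fun _ _ _ _ e => stab4 e) k0 fun s hs => (raw s hs).2.1
  rw [card_ky] at t1 t2
  rw [mul_assoc 4, mul_assoc 4]
  exact two_errors _ _ _ _ _ (fun s => (ww_pos hr s).le) (fun s hs => Or.inr (raw s hs).2.2) t1 t2

end Vale.Agent.P308
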