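import Mathlib

/-!
Counting perfect matchings: definitions used in the statement.
-/

namespace Vale.Agent.P308

/-- Self-delimiting binary code of a list: each item is preceded by `1`, the end is `0`. -/
def codeList {α : Type} (f : α → List Bool) (l : List α) : List Bool :=
  (l.flatMap fun a => true :: f a) ++ [false]

/-- Code of a pair. -/
def codePair (x y : List Bool) : List Bool := true :: (x ++ y)

/-- Code of a bit. -/
def codeBit (b : Bool) : List Bool := if b then [true, false, false] else [false]

/-- Code of a list of bits. -/
def codeBits (l : List Bool) : List Bool := codeList codeBit l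

/-- Code of a number: the list of its binary digits. -/
def codeNat (n : ℕ) : List Bool := codeBits n.bits

/-- Code of the input: the rows of a matrix of bits, a list of numbers, the random bits. -/
def codeIn (a : List (List Bool) × List ℕ × List Bool) : List Bool :=
  codePair (codeList codeBits a.1) (codePair (codeList codeNat a.2.1) (codeBits a.2.2))

/-- Code of the output: numerator and denominator. -/
def codeOut (a : ℕ × ℕ) : List Bool := codePair (codeNat a.1) (codeNat a.2)

/-- The rows of the adjacency matrix. -/
def adjRows {n : ℕ} (G : SimpleGraph (Fin n)) [DecidableRel G.Adj] : List (List Bool) :=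
  List.ofFn fun i => List.ofFn fun j => decide (G.Adj i j)

/-- The number output on the graph `G`, the parameters `ε`, `δ` and the random bits `ρ`. -/
def estimate (f : List (List Bool) × List ℕ × List Bool → ℕ × ℕ) {n : ℕ}
    (G : SimpleGraph (Fin n)) [DecidableRel G.Adj] (ε δ : ℚ) (ρ : List Bool) : ℚ :=
  ((f (adjRows G, [ε.num.toNat, ε.den, δ.num.toNat, δ.den], ρ)).1 : ℚ) /
    (f (adjRows G, [ε.num.toNat, ε.den, δ.num.toNat, δ.den], ρ)).2

end Vale.Agent.P308
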