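import Vale.Agent.P308.Gap1

/-!
The recursion along a cycle and the gap.
-/

namespace Vale.Agent.P308

open Finset Function

set_option linter.unusedSectionVars false

namespace Gp

variable {V : Type} [Fintype V] [DecidableEq V] (r : V → V → ℝ) (f : PM V → ℝ)

/-- Value of a walk. -/
noncomputable def vl (a b : V → V) (p : V) (l : ℕ) : ℝ :=
  if l % 2 = 0 then Pm r f a b p (l / 2) else Pp r f a b p (l / 2)

/-- Error of a split. -/
noncomputable def err (p : V) (m l : ℕ) (s : PM V × PM V) : ℝ :=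
  vl r f s.1.1 s.2.1 p (m + 1 + l) - vl r f s.1.1 s.2.1 p m +
    if m % 2 = 0 then vl r f s.2.1 s.1.1 (wk s.1.1 s.2.1 p (m + 1)) l
    else -vl r f s.1.1 s.2.1 (wk s.1.1 s.2.1 p (m + 1)) l

open Classical in
/-- All errors for one order. -/
noncomputable def E0 (K : ℝ) (s : PM V × PM V) : ℝ :=
  ∑ p, ∑ m ∈ range (Fintype.card V), ∑ l ∈ range (Fintype.card V),
    if Cut r K p m l s then err r f p m l s ^ 2 else 0

variable {r f}

theorem vl_ev (a b : V → V) (p : V) (i : ℕ) : vl r f a b p (2 * i) = Pm r f a b p i := by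
  rw [vl, if_pos (by omega), show 2 * i / 2 = i by omega]

theorem vl_od (a b : V → V) (p : V) (i : ℕ) : vl r f a b p (2 * i + 1) = Pp r f a b p i := by
  rw [vl, if_neg (by omega), show (2 * i + 1) / 2 = i by omega]

open Classical in
theorem lnk (h1 : AvgStmt V) (hr : Sym r) {K : ℝ} (hK : 1 ≤ K) (p : V) {m l j : ℕ}
    (e : m + 1 + l = 2 * j) : ∑ s : PM V × PM V with Cut r K p m l s,
      ww r s * (Pp r f s.1.1 s.2.1 p j - Pm r f s.1.1 s.2.1 p j) ^ 2 ≤
      4 * (Fintype.card V : ℝ) ^ 5 * K ^ 6 * Dt r f := by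
  have hn : (1 : ℝ) ≤ Fintype.card V := by exact_mod_cast Fintype.card_pos_iff.2 ⟨p⟩
  refine (link h1 hr (C := K ^ 4) (one_le_pow₀ hK) p j _ fun s hs => ?_).trans
    (mul_le_mul_of_nonneg_right ?_ (Dt_nonneg hr))
  · obtain ⟨ok, tt⟩ := (mem_filter.1 hs).2
    rw [← add_assoc, e] at ok tt
    refine ⟨ok, tt.two hK (fun c => ?_) fun c => (ok.arc s.1.2 s.2.2).hw (c ▸ wk_mem (by omega))⟩
    have := ok_iff.1 (ok.step s.1.2 s.2.2) 0 (by omega) _ (by omega) c
    omega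
  · have := one_le_pow₀ hn (n := 5)
    have := pow_le_pow_right₀ hK (show 4 ≤ 6 by norm_num)
    have : 0 ≤ K ^ 6 := by positivity
    nlinarith

open Classical in
theorem err_le (h1 : AvgStmt V) (h3 : OOStmt V) (h4 : EEStmt V) (h5 : OEStmt V) (h6 : EOStmt V)
    (hr : Sym r) {K : ℝ} (hK : 1 ≤ K) (p : V) (m l : ℕ) :
    ∑ s : PM V × PM V with Cut r K p m l s, ww r s * err r f p m l s ^ 2 ≤
      4 * (4 * (Fintype.card V : ℝ) ^ 5 * K ^ 6 * Dt r f) := by
  have B0 : 0 ≤ 4 * (Fintype.card V : ℝ) ^ 5 * K ^ 6 * Dt r f := by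
    have := Dt_nonneg (f := f) hr
    positivity
  have w0 := fun s => (ww_pos hr s).le
  obtain ⟨i, rfl | rfl⟩ := Nat.even_or_odd' m <;> obtain ⟨k, rfl | rfl⟩ := Nat.even_or_odd' l
  · refine le_trans (le_of_eq_of_le (sum_congr rfl fun s _ => ?_) (h3 r f K hr hK p i k))
      (by linarith)
    rw [err, if_pos (by omega), show 2 * i + 1 + 2 * k = 2 * (i + k) + 1 by ring, vl_od, vl_ev,
      vl_ev]
  · refine two_errors _ _ _ _ _ w0 (fun s _ => Or.inl ?_) (h5 r f K hr hK p i k)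
      (lnk h1 hr hK p (j := i + k + 1) (by ring))
    rw [err, if_pos (by omega), show 2 * i + 1 + (2 * k + 1) = 2 * (i + k + 1) by ring, vl_od,
      vl_ev, vl_ev]
    ring
  · refine two_errors _ _ _ _ _ w0 (fun s _ => Or.inl ?_) (h6 r f K hr hK p i k)
      (lnk h1 hr hK p (j := i + k + 1) (by ring))
    rw [err, if_neg (by omega), show 2 * i + 1 + 1 + 2 * k = 2 * (i + k + 1) by ring, vl_od,
      vl_ev, vl_ev]
    ring
  · refine le_trans (le_of_eq_of_le (sum_congr rfl fun s _ => ?_) (h4 r f K hr hK p i k))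
      (by linarith)
    rw [err, if_neg (by omega), show 2 * i + 1 + 1 + (2 * k + 1) = 2 * (i + k + 1) + 1 by ring,
      vl_od, vl_od, vl_od, ← sub_eq_add_neg]

theorem E0_le (h1 : AvgStmt V) (h3 : OOStmt V) (h4 : EEStmt V) (h5 : OEStmt V) (h6 : EOStmt V)
    (hr : Sym r) {K : ℝ} (hK : 1 ≤ K) : ∑ s, ww r s * E0 r f K s ≤
      16 * (Fintype.card V : ℝ) ^ 8 * K ^ 6 * Dt r f := by
  classical
  simp only [E0, mul_sum, mul_ite, mul_zero]
  rw [sum_comm]
  refine (sum_le_card_nsmul _ _ ((Fintype.card V : ℝ) * (Fintype.card V *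
    (4 * (4 * (Fintype.card V : ℝ) ^ 5 * K ^ 6 * Dt r f)))) fun p _ => ?_).trans_eq ?_
  · rw [sum_comm]
    refine (sum_le_card_nsmul _ _ _ fun m _ => ?_).trans_eq (by rw [card_range, nsmul_eq_mul])
    rw [sum_comm]
    refine (sum_le_card_nsmul _ _ _ fun l _ => ?_).trans_eq (by rw [card_range, nsmul_eq_mul])
    rw [← sum_filter]
    exact err_le h1 h3 h4 h5 h6 hr hK p m l
  · rw [card_univ, nsmul_eq_mul]
    ring

theorem E0_nn (K : ℝ) (s : PM V × PM V) : 0 ≤ E0 r f K s :=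
  sum_nonneg fun _ _ => sum_nonneg fun _ _ => sum_nonneg fun _ _ => by
    split_ifs
    exacts [sq_nonneg _, le_rfl]

theorem err_E0 {K : ℝ} {p : V} {m l : ℕ} {s : PM V × PM V} (h : Cut r K p m l s) :
    err r f p m l s ^ 2 ≤ E0 r f K s := by
  classical
  have h0 := h.1.le
  have n0 : ∀ p m l, 0 ≤ if Cut r K p m l s then err r f p m l s ^ 2 else 0 := fun p m l => by
    split_ifs
    exacts [sq_nonneg _, le_rfl]
  refine le_trans ?_ (single_le_sum
    (fun _ _ => sum_nonneg fun _ _ => sum_nonneg fun _ _ => n0 _ _ _) (mem_univ p))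
  refine le_trans ?_ (single_le_sum (fun _ _ => sum_nonneg fun _ _ => n0 _ _ _)
    (mem_range.2 (show m < _ by omega)))
  refine le_trans ?_ (single_le_sum (fun _ _ => n0 _ _ _) (mem_range.2 (show l < _ by omega)))
  rw [if_pos h]

theorem Pm_zero {a b : V → V} (hb : IsPM b) (p : V) : Pm r f a b p 0 = 0 := by
  have : fb a b p 0 = b := by
    funext v
    show (if v = p then b p else if v = b p then p else if v ∈ ws a b p 1 then a v else b v) = b v
    split_ifs with c1 c2 c3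
    · rw [c1]
    · rw [c2, (hb p).1]
    · exact absurd (by simpa [ws, wk] using c3) c1
    · rfl
  rw [Pm, this, sub_self]

theorem recur {K : ℝ} {κ : V → V → ℝ} (hs : ∀ u v, κ u v = κ v u)
    (hκ : ∀ (c : ℕ → V) (m l : ℕ) (x y : V), m < l →
      l ≤ Fintype.card V → c m ≠ c (m + 1) → y ≠ c 0 → x ≠ c l →
      (∀ i < l, κ (c i) (c (i + 1)) ≤ κ (c m) (c (m + 1))) →
      κ (c m) (c (m + 1)) ≤ κ (c 0) y → κ (c m) (c (m + 1)) ≤ κ (c l) x →
      Tt r K (c 0) y (c m) (c (m + 1)) (c l) x) (l : ℕ) : ∀ (s : PM V × PM V) (p : V),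
    Ok s.1.1 s.2.1 p (l + 1) →
    (∀ i < l, κ (wk s.1.1 s.2.1 p i) (wk s.1.1 s.2.1 p (i + 1)) ≤ κ p (s.2.1 p)) →
    (∀ i < l, κ (wk s.1.1 s.2.1 p i) (wk s.1.1 s.2.1 p (i + 1)) ≤
      κ (wk s.1.1 s.2.1 p l) (wk s.1.1 s.2.1 p (l + 1))) →
    |vl r f s.1.1 s.2.1 p l| ≤ l * √(E0 r f K s + E0 r f K s.swap) := by
  induction l using Nat.strong_induction_on with
  | _ l ih =>
  intro s p ok g1 g2
  rcases Nat.eq_zero_or_pos l with rfl | hl
  · rw [vl, if_pos rfl, Pm_zero s.2.2]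
    simp
  obtain ⟨m, hm, mx⟩ := exists_max_image (range l)
    (fun i => κ (wk s.1.1 s.2.1 p i) (wk s.1.1 s.2.1 p (i + 1))) ⟨0, mem_range.2 hl⟩
  simp only [mem_range] at hm mx
  obtain ⟨k, rfl⟩ : ∃ k, l = m + 1 + k := ⟨l - (m + 1), by omega⟩
  have nx : ∀ i, wk s.1.1 s.2.1 p (i + 1) ≠ wk s.1.1 s.2.1 p i := fun i => by
    rw [wk]
    split_ifs
    exacts [(s.1.2 _).2, (s.2.2 _).2]
  have cut : Cut r K p m k s := ⟨ok, hκ (wk s.1.1 s.2.1 p) m (m + 1 + k) _ _ hm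
    (by have := ok.le; omega) (nx m).symm (s.2.2 p).2 (nx _) mx (g1 m hm) (g2 m hm)⟩
  have e1 := Real.abs_le_sqrt ((err_E0 (f := f) cut).trans
    (le_add_of_nonneg_right (E0_nn (r := r) (f := f) K s.swap)))
  have e2 := ih m hm s p (ok.mono (by omega)) (fun i hi => g1 i (by omega))
    fun i hi => mx i (by omega)
  rw [err] at e1
  push_cast
  split_ifs at e1 with c
  · have w1 : ∀ i, wk s.2.1 s.1.1 (wk s.1.1 s.2.1 p (m + 1)) i = wk s.1.1 s.2.1 p (m + 1 + i) :=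
      fun i => (wk_add_od (by omega) i).symm
    have e3 := ih k (by omega) s.swap (wk s.1.1 s.2.1 p (m + 1))
      (Ok.right_od (m := m + 1) (l := k + 1) ok (by omega)).1 (fun i hi => by
        simp only [Prod.fst_swap, Prod.snd_swap, w1]
        rw [s.1.2.eq_iff.1 (wk_ev c).symm, hs _ (wk s.1.1 s.2.1 p m)]
        exact mx (m + 1 + i) (by omega)) fun i hi => by
        simp only [Prod.fst_swap, Prod.snd_swap, w1]
        exact g2 (m + 1 + i) (by omega)
    simp only [Prod.fst_swap, Prod.snd_swap, Prod.swap_swap] at e3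
    rw [add_comm (E0 r f K s.swap)] at e3
    rw [abs_le] at e1 e2 e3 ⊢
    constructor <;> linarith [e1.1, e1.2, e2.1, e2.2, e3.1, e3.2]
  · have c' : m % 2 = 1 := by omega
    have w1 : ∀ i, wk s.1.1 s.2.1 (wk s.1.1 s.2.1 p (m + 1)) i = wk s.1.1 s.2.1 p (m + 1 + i) :=
      fun i => (wk_add_ev (by omega) i).symm
    have e3 := ih k (by omega) s (wk s.1.1 s.2.1 p (m + 1))
      (Ok.right_ev (m := m + 1) (l := k + 1) ok (by omega)).1 (fun i hi => by
        simp only [w1]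
        rw [s.2.2.eq_iff.1 (wk_od c').symm, hs _ (wk s.1.1 s.2.1 p m)]
        exact mx (m + 1 + i) (by omega)) fun i hi => by
        simp only [w1]
        exact g2 (m + 1 + i) (by omega)
    rw [abs_le] at e1 e2 e3 ⊢
    constructor <;> linarith [e1.1, e1.2, e2.1, e2.2, e3.1, e3.2]

theorem root {κ : V → V → ℝ} (hs : ∀ u v, κ u v = κ v u) {e : ℝ} (he : 0 ≤ e) (s : PM V × PM V)
    (p : V) (hrec : ∀ l, Ok s.1.1 s.2.1 p (l + 1) →
    (∀ i < l, κ (wk s.1.1 s.2.1 p i) (wk s.1.1 s.2.1 p (i + 1)) ≤ κ p (s.2.1 p)) →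
    (∀ i < l, κ (wk s.1.1 s.2.1 p i) (wk s.1.1 s.2.1 p (i + 1)) ≤
      κ (wk s.1.1 s.2.1 p l) (wk s.1.1 s.2.1 p (l + 1))) → |vl r f s.1.1 s.2.1 p l| ≤ l * e)
    (mx : ∀ x ∈ hull s.1.1 s.2.1 {p}, κ x (s.1.1 x) ≤ κ p (s.2.1 p) ∧
      κ x (s.2.1 x) ≤ κ p (s.2.1 p)) :
    |mm r f (hull s.1.1 s.2.1 {p}) s.2.1 - mm r f (hull s.1.1 s.2.1 {p}) s.1.1| ≤
      Fintype.card V * e := by
  obtain ⟨j, ok, c⟩ := exists_cyc s.1.2 s.2.2 p
  have ok' := ok.step s.1.2 s.2.2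
  have g1 : ∀ i < 2 * j + 1, κ (wk s.1.1 s.2.1 p i) (wk s.1.1 s.2.1 p (i + 1)) ≤
      κ p (s.2.1 p) := fun i hi => by
    have := mx _ ((cyc_hull s.1.2 s.2.2 ok c).symm ▸ wk_mem (show i < 2 * j + 2 by omega))
    rw [wk]
    split_ifs
    exacts [this.1, this.2]
  have h := hrec (2 * j + 1) ok' g1 fun i hi => by
    rw [wk_od (i := 2 * j + 1) (by omega), wk_last, ← c, (s.2.2 p).1, hs _ p]
    exact g1 i hi
  rw [vl_od, cyc_Pp s.1.2 s.2.2 ok c] at h
  refine h.trans (mul_le_mul_of_nonneg_right ?_ he)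
  have := ok'.le
  exact_mod_cast (by omega : 2 * j + 1 ≤ Fintype.card V)

theorem phi_le {K : ℝ} {κ : V → V → ℝ} (hs : ∀ u v, κ u v = κ v u)
    (hκ : ∀ (c : ℕ → V) (m l : ℕ) (x y : V), m < l →
      l ≤ Fintype.card V → c m ≠ c (m + 1) → y ≠ c 0 → x ≠ c l →
      (∀ i < l, κ (c i) (c (i + 1)) ≤ κ (c m) (c (m + 1))) →
      κ (c m) (c (m + 1)) ≤ κ (c 0) y → κ (c m) (c (m + 1)) ≤ κ (c l) x →
      Tt r K (c 0) y (c m) (c (m + 1)) (c l) x) (s : PM V × PM V) (u : V) :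
    (mm r f (hull s.1.1 s.2.1 {u}) s.2.1 - mm r f (hull s.1.1 s.2.1 {u}) s.1.1) ^ 2 ≤
      (Fintype.card V : ℝ) ^ 2 * (E0 r f K s + E0 r f K s.swap) := by
  have E := add_nonneg (E0_nn (r := r) (f := f) K s) (E0_nn (r := r) (f := f) K s.swap)
  rw [← Real.sq_sqrt E, ← mul_pow]
  refine sq_le_sq' (neg_le_of_abs_le ?_) (le_of_abs_le ?_) <;>
  · obtain ⟨p, hp, mx⟩ := exists_max_image (hull s.1.1 s.2.1 {u})
      (fun x => max (κ x (s.1.1 x)) (κ x (s.2.1 x))) ⟨u, sub_hull (mem_singleton_self u)⟩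
    rw [← hull_one s.1.2 s.2.2 hp] at mx ⊢
    rcases le_total (κ p (s.1.1 p)) (κ p (s.2.1 p)) with c | c
    · simp only [max_eq_right c, max_le_iff] at mx
      exact root hs (Real.sqrt_nonneg _) s p (fun l => recur hs hκ l s p) mx
    · simp only [max_eq_left c, max_le_iff] at mx
      rw [hull_comm] at mx ⊢
      rw [abs_sub_comm, add_comm]
      exact root hs (Real.sqrt_nonneg _) s.swap p (fun l => recur hs hκ l s.swap p)
        fun x hx => (mx x hx).symm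

end Gp

open Gp in
theorem gap (V : Type) [Fintype V] [DecidableEq V] (h1 : AvgStmt V) (h2 : PotStmt V)
    (h3 : OOStmt V) (h4 : EEStmt V) (h5 : OEStmt V) (h6 : EOStmt V) : GapStmt V := by
  intro r f η hr e0 e1 hl
  have D0 := Dt_nonneg (f := f) hr
  rcases isEmpty_or_nonempty (PM V) with hP | hP
  · rw [univ_eq_empty, sum_empty]
    positivity
  rcases isEmpty_or_nonempty V with hV | hV
  · rw [sum_eq_zero fun s _ => by rw [Subsingleton.elim s.1 s.2]; simp]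
    positivity
  obtain ⟨κ, hs, hκ⟩ := h2 r η hr e0 e1 hl hP
  have hn : (1 : ℝ) ≤ Fintype.card V := by exact_mod_cast Fintype.card_pos
  have hK : 1 ≤ 16 * (Fintype.card V : ℝ) ^ 2 / η ^ 6 := by
    rw [one_le_div (by positivity)]
    have := pow_le_one₀ e0.le e1 (n := 6)
    have := one_le_pow₀ hn (n := 2)
    linarith
  have k1 := E0_le (f := f) h1 h3 h4 h5 h6 hr hK
  have k6 : (16 * (Fintype.card V : ℝ) ^ 2 / η ^ 6) ^ 6 =
      2 ^ 24 * (Fintype.card V : ℝ) ^ 12 / η ^ 36 := by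
    rw [div_pow]; ring
  generalize 16 * (Fintype.card V : ℝ) ^ 2 / η ^ 6 = K at hκ hK k1 k6
  have k2 : ∑ s : PM V × PM V, ww r s * E0 r f K s.swap = ∑ s, ww r s * E0 r f K s := by
    rw [← Equiv.sum_comp (Equiv.prodComm (PM V) (PM V)) fun s => ww r s * E0 r f K s]
    exact sum_congr rfl fun s _ => congrArg (· * _) (mul_comm _ _)
  have k3 := tele (f := f) hr (B := 66 * (Fintype.card V : ℝ) ^ 10 * K ^ 6 * Dt r f)
    (by positivity) (fun u => ?_) univ
  · simp only [sw_univ, card_univ] at k3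
    simp only [sub_sq_comm (f (Prod.fst _))]
    refine k3.trans ?_
    rw [k6, ← mul_assoc]
    refine mul_le_mul_of_nonneg_right ?_ D0
    generalize (Fintype.card V : ℝ) = n at hn
    rw [← mul_div_assoc, ← mul_div_assoc]
    refine div_le_div_of_nonneg_right ?_ (by positivity)
    have a1 : (n + 1) ^ 2 ≤ 4 * n ^ 2 := by nlinarith
    have a2 := pow_le_pow_right₀ hn (show 24 ≤ 30 by norm_num)
    calc _ ≤ 4 * n ^ 2 * (66 * n ^ 10 * (2 ^ 24 * n ^ 12)) := by gcongr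
      _ = 264 * 2 ^ 24 * n ^ 24 := by ring
      _ ≤ _ := by gcongr; norm_num
  have k4 := first (f := f) h1 hr u
  have k5 := sum_le_sum fun s (_ : s ∈ univ) =>
    mul_le_mul_of_nonneg_left (phi_le (f := f) hs hκ s u) (ww_pos hr s).le
  simp only [mul_left_comm (ww r _), mul_add (ww r _), ← mul_sum, sum_add_distrib, k2] at k5
  have k7 : (Fintype.card V : ℝ) * Dt r f ≤ (Fintype.card V : ℝ) ^ 10 * K ^ 6 * Dt r f := by
    refine mul_le_mul_of_nonneg_right ?_ D0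
    have := one_le_pow₀ hK (n := 6)
    have := le_self_pow₀ hn (show 10 ≠ 0 by norm_num)
    nlinarith
  have k8 := mul_le_mul_of_nonneg_left k1 (sq_nonneg (Fintype.card V : ℝ))
  have k9 := sum_le_sum fun s (_ : s ∈ univ) => show ww r s * (f (sw {u} s).1 - f s.1) ^ 2 ≤
      2 * (ww r s * (f (sw {u} s).1 - f s.1 - (mm r f (hull s.1.1 s.2.1 {u}) s.2.1 -
        mm r f (hull s.1.1 s.2.1 {u}) s.1.1)) ^ 2) + 2 * (ww r s *
        (mm r f (hull s.1.1 s.2.1 {u}) s.2.1 - mm r f (hull s.1.1 s.2.1 {u}) s.1.1) ^ 2) by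
    have := mul_nonneg (ww_pos hr s).le (sq_nonneg (f (sw {u} s).1 - f s.1 -
      2 * (mm r f (hull s.1.1 s.2.1 {u}) s.2.1 - mm r f (hull s.1.1 s.2.1 {u}) s.1.1)))
    nlinarith
  rw [sum_add_distrib, ← mul_sum, ← mul_sum] at k9
  nlinarith

end Vale.Agent.P308
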