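import Vale.Agent.P308.Tools

/-!
Telescoping along alternating cycles.
-/

namespace Vale.Agent.P308

open Finset Function

set_option linter.unusedSectionVars false

namespace Gp

variable {V : Type} [Fintype V] [DecidableEq V] {r : V → V → ℝ} {f : PM V → ℝ}

/-- Closed sets. -/
def Cl (a b : V → V) (T : Finset V) : Prop := ∀ x ∈ T, a x ∈ T ∧ b x ∈ T

open Classical in
/-- The least closed set over `W`. -/
noncomputable def hull (a b : V → V) (W : Finset V) : Finset V :=
  univ.filter fun v => ∀ T, W ⊆ T → Cl a b T → v ∈ T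

variable {a b a' b' : V → V} {W T : Finset V}

theorem mem_hull {v : V} : v ∈ hull a b W ↔ ∀ T, W ⊆ T → Cl a b T → v ∈ T := by
  simp [hull]

theorem hull_cl : Cl a b (hull a b W) := fun x hx =>
  ⟨mem_hull.2 fun T h1 h2 => (h2 x (mem_hull.1 hx T h1 h2)).1,
    mem_hull.2 fun T h1 h2 => (h2 x (mem_hull.1 hx T h1 h2)).2⟩

theorem sub_hull : W ⊆ hull a b W := fun _ hx => mem_hull.2 fun _ h1 _ => h1 hx

theorem hull_min (h1 : W ⊆ T) (h2 : Cl a b T) : hull a b W ⊆ T :=
  fun _ hx => mem_hull.1 hx T h1 h2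

theorem hull_congr (h : ∀ T, Cl a b T ↔ Cl a' b' T) : hull a b W = hull a' b' W := by
  ext v
  simp only [mem_hull, h]

theorem hull_comm : hull a b W = hull b a W :=
  hull_congr fun _ => forall₂_congr fun _ _ => and_comm

theorem Cl.compl (h : Cl a b T) (ha : IsPM a) (hb : IsPM b) : Cl a b Tᶜ := fun x hx =>
  ⟨mem_compl.2 fun e => mem_compl.1 hx (by simpa only [(ha x).1] using (h _ e).1),
    mem_compl.2 fun e => mem_compl.1 hx (by simpa only [(hb x).1] using (h _ e).2)⟩

theorem Cl.pm (h : Cl a b T) (ha : IsPM a) (hb : IsPM b) : IsPM (T.piecewise b a) := by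
  intro v
  by_cases c : v ∈ T
  · rw [piecewise_eq_of_mem _ _ _ c, piecewise_eq_of_mem _ _ _ (h v c).2]
    exact hb v
  · rw [piecewise_eq_of_notMem _ _ _ c, piecewise_eq_of_notMem _ _ _
      (mem_compl.1 (h.compl ha hb v (mem_compl.2 c)).1)]
    exact ha v

theorem Cl.symm (h : Cl a b T) : Cl b a T := fun x hx => (h x hx).symm

theorem hull_pw (U : Finset V) : hull (U.piecewise b a) (U.piecewise a b) W = hull a b W :=
  hull_congr fun T => forall₂_congr fun x _ => by
    by_cases c : x ∈ U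
    · rw [piecewise_eq_of_mem _ _ _ c, piecewise_eq_of_mem _ _ _ c, and_comm]
    · rw [piecewise_eq_of_notMem _ _ _ c, piecewise_eq_of_notMem _ _ _ c]

theorem hull_out (ha : IsPM a) (hb : IsPM b) {u x : V} (hu : u ∉ hull a b W)
    (hx : x ∈ hull a b {u}) : x ∉ hull a b W :=
  mem_compl.1 (hull_min (singleton_subset_iff.2 (mem_compl.2 hu)) (hull_cl.compl ha hb) hx)

theorem hull_one (ha : IsPM a) (hb : IsPM b) {u p : V} (hp : p ∈ hull a b {u}) :
    hull a b {p} = hull a b {u} := by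
  refine (hull_min (singleton_subset_iff.2 hp) hull_cl).antisymm
    (hull_min (singleton_subset_iff.2 ?_) hull_cl)
  by_contra c
  exact hull_out ha hb c hp (sub_hull (mem_singleton_self p))

theorem hull_ins (u : V) : hull a b (insert u W) = hull a b {u} ∪ hull a b W := by
  refine (hull_min ?_ fun x hx => ?_).antisymm (union_subset
    (hull_min (singleton_subset_iff.2 (sub_hull (mem_insert_self _ _))) hull_cl)
    (hull_min ((subset_insert _ _).trans sub_hull) hull_cl))
  · rw [insert_eq]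
    exact union_subset_union sub_hull sub_hull
  · rcases mem_union.1 hx with c | c
    · exact ⟨mem_union_left _ (hull_cl x c).1, mem_union_left _ (hull_cl x c).2⟩
    · exact ⟨mem_union_right _ (hull_cl x c).1, mem_union_right _ (hull_cl x c).2⟩

/-- Exchange on the hull. -/
noncomputable def sw (W : Finset V) (s : PM V × PM V) : PM V × PM V :=
  (⟨(hull s.1.1 s.2.1 W).piecewise s.2.1 s.1.1, hull_cl.pm s.1.2 s.2.2⟩,
    ⟨(hull s.1.1 s.2.1 W).piecewise s.1.1 s.2.1, hull_cl.symm.pm s.2.2 s.1.2⟩)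

theorem sw_sw (W : Finset V) : Involutive (sw W : PM V × PM V → _) := by
  intro s
  refine Prod.ext (Subtype.ext (funext fun x => ?_)) (Subtype.ext (funext fun x => ?_)) <;>
  · simp only [sw, hull_pw]
    by_cases c : x ∈ hull s.1.1 s.2.1 W
    · simp only [piecewise_eq_of_mem _ _ _ c]
    · simp only [piecewise_eq_of_notMem _ _ _ c]

theorem wt_pw (U : Finset V) :
    wt r (U.piecewise b a) * wt r (U.piecewise a b) = wt r a * wt r b := by
  simp only [wt, ← prod_mul_distrib]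
  refine prod_congr rfl fun x _ => ?_
  by_cases c : x ∈ U
  · rw [piecewise_eq_of_mem _ _ _ c, piecewise_eq_of_mem _ _ _ c, mul_comm]
  · rw [piecewise_eq_of_notMem _ _ _ c, piecewise_eq_of_notMem _ _ _ c]

theorem sw_ins (u : V) (s : PM V × PM V) :
    (sw (insert u W) s).1 = (sw W s).1 ∨ (sw (insert u W) s).1 = (sw {u} (sw W s)).1 := by
  by_cases hu : u ∈ hull s.1.1 s.2.1 W
  · exact Or.inl (Subtype.ext (congrArg (fun U : Finset V => U.piecewise s.2.1 s.1.1)
      ((hull_ins u).trans (union_eq_right.2 (hull_min (singleton_subset_iff.2 hu) hull_cl)))))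
  · refine Or.inr (Subtype.ext (funext fun x => ?_))
    simp only [sw, hull_ins, hull_pw]
    by_cases c : x ∈ hull s.1.1 s.2.1 {u}
    · rw [piecewise_eq_of_mem _ _ _ (mem_union_left _ c), piecewise_eq_of_mem _ _ _ c,
        piecewise_eq_of_notMem _ _ _ (hull_out s.1.2 s.2.2 hu c)]
    · rw [piecewise_eq_of_notMem _ _ _ c]
      by_cases c' : x ∈ hull s.1.1 s.2.1 W
      · rw [piecewise_eq_of_mem _ _ _ (mem_union_right _ c'), piecewise_eq_of_mem _ _ _ c']
      · rw [piecewise_eq_of_notMem _ _ _ (notMem_union.2 ⟨c, c'⟩),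
          piecewise_eq_of_notMem _ _ _ c']

theorem tele (hr : Sym r) {B : ℝ} (hB0 : 0 ≤ B)
    (hB : ∀ u, ∑ s, ww r s * (f (sw {u} s).1 - f s.1) ^ 2 ≤ B) (W : Finset V) :
    ∑ s, ww r s * (f (sw W s).1 - f s.1) ^ 2 ≤ ((W.card : ℝ) + 1) ^ 2 * B := by
  induction W using Finset.induction_on with
  | empty =>
    have : ∀ s : PM V × PM V, (sw ∅ s).1 = s.1 := fun s => Subtype.ext (by
      have : hull s.1.1 s.2.1 ∅ = ∅ := subset_empty.1 (hull_min subset_rfl fun _ h => by simp at h)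
      exact (congrArg (fun U : Finset V => U.piecewise s.2.1 s.1.1) this).trans
        (piecewise_empty _ _))
    simp [this, hB0]
  | insert u W hu ih =>
    have h1 : ∑ s, ww r s * (f (sw {u} (sw W s)).1 - f (sw W s).1) ^ 2 ≤ B := by
      refine le_of_eq_of_le ?_ (hB u)
      rw [← Equiv.sum_comp (sw_sw W).toPerm fun s => ww r s * (f (sw {u} s).1 - f s.1) ^ 2]
      exact sum_congr rfl fun s _ => congrArg (· * _) (wt_pw _).symm
    rw [card_insert_of_notMem hu]
    generalize W.card = k at ih ⊢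
    have hk : (0 : ℝ) ≤ k := Nat.cast_nonneg k
    have h2 : ∀ s, (k + 1) * (ww r s * (f (sw (insert u W) s).1 - f s.1) ^ 2) ≤
        (k + 2) * (ww r s * (f (sw W s).1 - f s.1) ^ 2) + (k + 1) * (k + 2) *
          (ww r s * (f (sw {u} (sw W s)).1 - f (sw W s).1) ^ 2) := by
      intro s
      have w0 := (ww_pos hr s).le
      rcases sw_ins (W := W) u s with e | e <;> rw [e]
      · have := mul_nonneg w0 (sq_nonneg (f (sw W s).1 - f s.1))
        have := mul_nonneg (mul_nonneg (by linarith : (0 : ℝ) ≤ k + 1) (by linarith : (0 : ℝ) ≤ k + 2))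
          (mul_nonneg w0 (sq_nonneg (f (sw {u} (sw W s)).1 - f (sw W s).1)))
        nlinarith
      · have := mul_nonneg w0 (sq_nonneg ((f (sw W s).1 - f s.1) -
          (k + 1) * (f (sw {u} (sw W s)).1 - f (sw W s).1)))
        nlinarith
    have h3 := sum_le_sum fun s (_ : s ∈ univ) => h2 s
    rw [sum_add_distrib, ← mul_sum, ← mul_sum, ← mul_sum] at h3
    refine le_of_mul_le_mul_left (h3.trans ?_) (by linarith : (0 : ℝ) < k + 1)
    have h4 := mul_le_mul_of_nonneg_left ih (by linarith : (0 : ℝ) ≤ k + 2)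
    have h5 := mul_le_mul_of_nonneg_left h1
      (mul_nonneg (by linarith : (0 : ℝ) ≤ k + 1) (by linarith : (0 : ℝ) ≤ k + 2))
    push_cast
    nlinarith

theorem sw_univ (s : PM V × PM V) : (sw univ s).1 = s.2 :=
  Subtype.ext ((congrArg (fun U : Finset V => U.piecewise s.2.1 s.1.1)
    (univ_subset_iff.1 sub_hull)).trans (piecewise_univ _ _))

section cyc

variable {p : V} {j : ℕ} (ha : IsPM a) (hb : IsPM b) (h : Ok a b p (2 * j + 1))
  (e : b p = a (wk a b p (2 * j)))
include ha hb h e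

theorem cyc_hull : hull a b {p} = ws a b p (2 * j + 2) := by
  have E := h.evn ha hb
  rw [wk_last, ← e] at E
  refine (hull_min (singleton_subset_iff.2 E.hp) fun x hx => ⟨E.ha x hx, ?_⟩).antisymm fun x hx => ?_
  · by_cases c1 : x = p
    · rw [c1]; exact E.hq
    by_cases c2 : x = b p
    · rw [c2, (hb p).1]; exact E.hp
    exact (E.hb x hx c1 c2).1
  · obtain ⟨i, -, rfl⟩ := mem_ws.1 hx
    clear hx
    induction i with
    | zero => exact sub_hull (mem_singleton_self p)
    | succ i ih =>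
      rw [wk]
      split_ifs
      exacts [(hull_cl _ ih).1, (hull_cl _ ih).2]

theorem cyc_fa : fa a b p j = (hull a b {p}).piecewise b a := by
  have A := h.arc ha hb
  funext v
  have hm : v ∈ hull a b {p} ↔ v = b p ∨ v ∈ ws a b p (2 * j + 1) := by
    rw [cyc_hull ha hb h e, ws_evn, ← e, mem_insert]
  unfold fa
  by_cases c1 : v = p
  · rw [piecewise_eq_of_mem _ _ _ (hm.2 (Or.inr (c1 ▸ A.hp))), c1, sp_head, e]
  by_cases c2 : v = b p
  · rw [piecewise_eq_of_mem _ _ _ (hm.2 (Or.inl c2)), c2, (hb p).1, e, A.sp_z]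
  by_cases c3 : v ∈ ws a b p (2 * j + 1)
  · rw [piecewise_eq_of_mem _ _ _ (hm.2 (Or.inr c3)), A.sp_in c3 c1]
  · rw [piecewise_eq_of_notMem _ _ _ fun c => (hm.1 c).elim c2 c3, A.sp_out c3 (e ▸ c2)]

theorem cyc_fb : fb a b p j = (hull a b {p}).piecewise a b := by
  have A := (h.arc ha hb).symm
  funext v
  have hm : v ∈ hull a b {p} ↔ v = b p ∨ v ∈ ws a b p (2 * j + 1) := by
    rw [cyc_hull ha hb h e, ws_evn, ← e, mem_insert]
  unfold fb
  by_cases c1 : v = wk a b p (2 * j)
  · rw [piecewise_eq_of_mem _ _ _ (hm.2 (Or.inr (c1 ▸ A.hp))), c1, sp_head, e]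
  by_cases c2 : v = b p
  · rw [piecewise_eq_of_mem _ _ _ (hm.2 (Or.inl c2)), c2, A.sp_z, e, (ha _).1]
  by_cases c3 : v ∈ ws a b p (2 * j + 1)
  · rw [piecewise_eq_of_mem _ _ _ (hm.2 (Or.inr c3)), A.sp_in c3 c1]
  · rw [piecewise_eq_of_notMem _ _ _ fun c => (hm.1 c).elim c2 c3, A.sp_out c3 c2]

theorem cyc_Pm : Pm r f a b p j = mm r f (hull a b {p}) b - mm r f (hull a b {p}) a := by
  rw [Pm, e, ← ws_evn, ← cyc_hull ha hb h e, cyc_fb ha hb h e,
    mm_congr (α := piecewise _ a b) (β := a) fun v hv => piecewise_eq_of_mem _ _ _ hv]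

theorem cyc_Pp : Pp r f a b p j = mm r f (hull a b {p}) b - mm r f (hull a b {p}) a := by
  rw [Pp, ← cyc_hull ha hb h e, cyc_fa ha hb h e,
    mm_congr (β := b) fun v hv => piecewise_eq_of_mem _ _ _ hv]

end cyc

theorem first (h1 : AvgStmt V) (hr : Sym r) (u : V) :
    ∑ s, ww r s * (f (sw {u} s).1 - f s.1 - (mm r f (hull s.1.1 s.2.1 {u}) s.2.1 -
      mm r f (hull s.1.1 s.2.1 {u}) s.1.1)) ^ 2 ≤ Fintype.card V * Dt r f := by
  obtain ⟨F, hF⟩ : ∃ F : PM V × PM V → ℝ, F = fun s => ww r s * (f (sw {u} s).1 - f s.1 -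
    (mm r f (hull s.1.1 s.2.1 {u}) s.2.1 - mm r f (hull s.1.1 s.2.1 {u}) s.1.1)) ^ 2 := ⟨_, rfl⟩
  have F0 : ∀ s, 0 ≤ F s := fun s => hF ▸ mul_nonneg (ww_pos hr s).le (sq_nonneg _)
  have k1 : ∀ j, ∑ s : PM V × PM V with Ok s.1.1 s.2.1 u (2 * j + 1) ∧
      s.2.1 u = s.1.1 (wk s.1.1 s.2.1 u (2 * j)), F s ≤ Dt r f := by
    intro j
    have key := transfer (f := f) h1 hr (univ.filter fun s : PM V × PM V =>
      Ok s.1.1 s.2.1 u (2 * j + 1) ∧ s.2.1 u = s.1.1 (wk s.1.1 s.2.1 u (2 * j)))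
      (fun _ => ()) (fun _ => id) (fun _ => injective_id)
      (fun _ => u) (fun _ => u) (fun _ => u) j (fun _ _ _ => univ)
      (fun _ _ _ _ _ => rfl) (C := 1) zero_le_one fun s hs => by
        obtain ⟨ok, e⟩ := (mem_filter.1 hs).2
        refine ⟨ok, subset_univ _, mem_univ _, mem_univ _, fun _ _ => mem_univ _,
          (one_mul _).ge, ?_⟩
        simp only [id]
        rw [cj_self, cyc_fa s.1.2 s.2.2 ok e, cyc_fb s.1.2 s.2.2 ok e, wt_pw, one_mul]
        exact le_rfl
    simp only [Fintype.card_unit, Nat.cast_one, one_mul, id] at key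
    refine le_of_eq_of_le (sum_congr rfl fun s hs => ?_) key
    obtain ⟨ok, e⟩ := (mem_filter.1 hs).2
    rw [hF, Er, cj_self, cyc_fa s.1.2 s.2.2 ok e, cyc_Pm s.1.2 s.2.2 ok e, mm_univ hr]
    exact congrArg (fun t => ww r s * (t - _ - _) ^ 2) (mm_univ hr (sw {u} s).1).symm
  have k2 := sum_le_card_nsmul (range (Fintype.card V)) _ _ fun j _ => k1 j
  rw [card_range, nsmul_eq_mul] at k2
  refine le_trans ?_ k2
  simp only [sum_filter]
  rw [sum_comm]
  refine sum_le_sum fun s _ => ?_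
  obtain ⟨j, ok, e⟩ := exists_cyc s.1.2 s.2.2 u
  have hj : j < Fintype.card V := by have := ok.le; omega
  refine le_trans ?_ (single_le_sum (fun i _ => ?_) (mem_range.2 hj))
  · rw [if_pos ⟨ok, e⟩, hF]
  · split_ifs
    exacts [F0 s, le_rfl]

end Gp

end Vale.Agent.P308
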