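import Vale.Agent.P308.Spec

/-!
Large deviations of a count.
-/

namespace Vale.Agent.P308

open Finset

namespace Hf

variable {Ω : Type} [Fintype Ω] [DecidableEq Ω] {μ : Ω → ℝ}

theorem one (E : Finset Ω) (h0 : ∀ x, 0 ≤ μ x) (h1 : ∑ x, μ x = 1) {s : ℝ} (hs : |s| ≤ 1) :
    ∑ ω, μ ω * Real.exp (s * ((if ω ∈ E then 1 else 0) - ∑ y ∈ E, μ y)) ≤ Real.exp (s ^ 2) := by
  have p0 : 0 ≤ ∑ y ∈ E, μ y := sum_nonneg fun y _ => h0 y
  have p1 : ∑ y ∈ E, μ y ≤ 1 :=
    h1 ▸ sum_le_sum_of_subset_of_nonneg (subset_univ E) fun y _ _ => h0 y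
  have hE : ∑ ω, μ ω * (if ω ∈ E then (1 : ℝ) else 0) = ∑ y ∈ E, μ y := by
    simp only [mul_ite, mul_one, mul_zero, sum_ite_mem, univ_inter]
  generalize ∑ y ∈ E, μ y = p at *
  calc _ ≤ ∑ ω, μ ω * (1 + s ^ 2 - s * p + s * (if ω ∈ E then 1 else 0)) := by
        refine sum_le_sum fun ω _ => mul_le_mul_of_nonneg_left ?_ (h0 ω)
        have hy : |(if ω ∈ E then (1 : ℝ) else 0) - p| ≤ 1 := by
          split_ifs <;> rw [abs_le] <;> constructor <;> linarith
        generalize (if ω ∈ E then (1 : ℝ) else 0) = e at *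
        have a1 : |s * (e - p)| ≤ 1 := by
          rw [abs_mul]; exact mul_le_one₀ hs (abs_nonneg _) hy
        have a2 := (abs_le.1 (Real.abs_exp_sub_one_sub_id_le a1)).2
        have a3 : (e - p) ^ 2 ≤ 1 := by rw [← sq_abs]; exact pow_le_one₀ (abs_nonneg _) hy
        have a4 : (s * (e - p)) ^ 2 ≤ s ^ 2 := by
          rw [mul_pow]; exact mul_le_of_le_one_right (sq_nonneg s) a3
        linarith
    _ = (1 + s ^ 2 - s * p) * ∑ ω, μ ω + s * ∑ ω, μ ω * (if ω ∈ E then (1 : ℝ) else 0) := by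
        rw [mul_sum, mul_sum, ← sum_add_distrib]
        exact sum_congr rfl fun ω _ => by ring
    _ = s ^ 2 + 1 := by rw [h1, hE]; ring
    _ ≤ _ := Real.add_one_le_exp _

theorem card_lt {K k : ℕ} (h : k ≤ K) : (univ.filter fun i : Fin K => i.val < k).card = k := by
  rw [Fin.card_filter_val_lt, min_eq_right h]

theorem mgf (E : Finset Ω) (h0 : ∀ x, 0 ≤ μ x) (h1 : ∑ x, μ x = 1) {K k : ℕ} (h : k ≤ K) {s : ℝ}
    (hs : |s| ≤ 1) :
    ∑ x : Fin K → Ω, (∏ i, μ (x i)) * Real.exp (s *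
      (((univ.filter fun i : Fin K => i.val < k ∧ x i ∈ E).card : ℝ) - k * ∑ y ∈ E, μ y)) ≤
      Real.exp (k * s ^ 2) := by
  have key : ∀ x : Fin K → Ω, (∏ i, μ (x i)) * Real.exp (s *
      (((univ.filter fun i : Fin K => i.val < k ∧ x i ∈ E).card : ℝ) - k * ∑ y ∈ E, μ y)) =
      ∏ i : Fin K, μ (x i) * Real.exp (if i.val < k then
        s * ((if x i ∈ E then 1 else 0) - ∑ y ∈ E, μ y) else 0) := by
    intro x
    rw [prod_mul_distrib, ← Real.exp_sum, ← sum_filter, ← mul_sum, sum_sub_distrib, sum_const,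
      card_lt h, nsmul_eq_mul, sum_boole, filter_filter]
  rw [sum_congr rfl fun x _ => key x, ← Fintype.piFinset_univ,
    ← prod_univ_sum (fun _ => univ) fun (i : Fin K) ω => μ ω * Real.exp (if i.val < k then
        s * ((if ω ∈ E then 1 else 0) - ∑ y ∈ E, μ y) else 0)]
  calc _ ≤ ∏ i : Fin K, Real.exp (if i.val < k then s ^ 2 else 0) := by
        refine prod_le_prod (fun i _ => sum_nonneg fun ω _ =>
          mul_nonneg (h0 ω) (Real.exp_pos _).le) fun i _ => ?_
        by_cases c : i.val < k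
        · simp only [c, if_true]; exact one E h0 h1 hs
        · simp only [c, if_false, Real.exp_zero, mul_one, h1, le_refl]
    _ = _ := by rw [← Real.exp_sum, ← sum_filter, sum_const, card_lt h, nsmul_eq_mul]

end Hf

theorem hoef : HoefStmt := by
  intro Ω _ _ μ E K k a h0 h1 hk a0 a1
  have m1 := Hf.mgf E h0 h1 hk (s := a / 2) (by rw [abs_le]; constructor <;> linarith)
  have m2 := Hf.mgf E h0 h1 hk (s := -(a / 2)) (by rw [abs_le]; constructor <;> linarith)
  have pw : ∀ x : Fin K → Ω, 0 ≤ ∏ i, μ (x i) := fun x => prod_nonneg fun i _ => h0 _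
  generalize hS : (fun x : Fin K → Ω =>
    ((univ.filter fun i : Fin K => i.val < k ∧ x i ∈ E).card : ℝ) - k * ∑ y ∈ E, μ y) = S
  have eS : ∀ x : Fin K → Ω, ((univ.filter fun i : Fin K => i.val < k ∧ x i ∈ E).card : ℝ) -
    k * ∑ y ∈ E, μ y = S x := fun x => congrFun hS x
  simp only [eS] at m1 m2 ⊢
  rw [sum_filter]
  calc _ ≤ ∑ x : Fin K → Ω, Real.exp (-(a / 2 * (a * k))) *
        ((∏ i, μ (x i)) * Real.exp (a / 2 * S x) + (∏ i, μ (x i)) * Real.exp (-(a / 2) * S x)) := by
        refine sum_le_sum fun x _ => ?_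
        have e1 := Real.exp_pos (a / 2 * S x)
        have e2 := Real.exp_pos (-(a / 2) * S x)
        have e3 := Real.exp_pos (-(a / 2 * (a * k)))
        have := pw x
        split_ifs with c
        · rw [← mul_add, mul_left_comm]
          refine le_mul_of_one_le_right this ?_
          rw [mul_add, ← Real.exp_add, ← Real.exp_add]
          rcases lt_abs.1 c with c | c
          · have := Real.exp_pos (-(a / 2 * (a * k)) + -(a / 2) * S x)
            have := Real.one_le_exp (x := -(a / 2 * (a * k)) + a / 2 * S x) (by nlinarith)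
            linarith
          · have := Real.exp_pos (-(a / 2 * (a * k)) + a / 2 * S x)
            have := Real.one_le_exp (x := -(a / 2 * (a * k)) + -(a / 2) * S x) (by nlinarith)
            linarith
        · positivity
    _ ≤ Real.exp (-(a / 2 * (a * k))) *
        (Real.exp (k * (a / 2) ^ 2) + Real.exp (k * (-(a / 2)) ^ 2)) := by
        rw [← mul_sum, sum_add_distrib]
        exact mul_le_mul_of_nonneg_left (add_le_add m1 m2) (Real.exp_pos _).le
    _ = _ := by
        rw [neg_sq, ← two_mul, mul_left_comm, ← Real.exp_add]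
        congr 2; ring

end Vale.Agent.P308
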