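import Vale.Agent.P308.Spec

/-!
The law of the initial population.
-/

namespace Vale.Agent.P308

open Finset
open Vale.Agent.P328 (Ex val)
open Vale.Agent.P328.Lw

namespace In

variable {V : Type} [Fintype V] [DecidableEq V]

/-- Maps that match the list and agree with a given map elsewhere. -/
def Om (L : List V) (π : V → V) : Finset (V → V) :=
  univ.filter fun σ => (∀ v ∈ L, σ v ∈ L ∧ σ (σ v) = v ∧ σ v ≠ v) ∧ ∀ v, v ∉ L → σ v = π v

/-- Adding one edge. -/
def up (a c : V) (π : V → V) : V → V := fun v => if v = a then c else if v = c then a else π v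

theorem Om_nil (π : V → V) : Om [] π = {π} := by
  ext σ
  simp [Om, funext_iff]

theorem Om_fib {a c : V} {R : List V} (h : (a :: R).Nodup) (hc : c ∈ R) (π : V → V) :
    (Om (a :: R) π).filter (fun σ => σ a = c) = Om (R.erase c) (up a c π) := by
  obtain ⟨ha, hR⟩ := List.nodup_cons.1 h
  have ca : c ≠ a := fun e => ha (e ▸ hc)
  ext σ
  simp only [Om, mem_filter, mem_univ, true_and, hR.mem_erase_iff, List.mem_cons]
  constructor
  · rintro ⟨⟨h1, h2⟩, e⟩
    have e' : σ c = a := by rw [← e]; exact (h1 a (Or.inl rfl)).2.1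
    refine ⟨fun v hv => ?_, fun v hv => ?_⟩
    · obtain ⟨k1, k2, k3⟩ := h1 v (Or.inr hv.2)
      refine ⟨⟨fun q => ha ?_, k1.resolve_left fun q => hv.1 ?_⟩, k2, k3⟩
      · rw [q, e'] at k2; exact k2 ▸ hv.2
      · rw [q, e] at k2; exact k2.symm
    · unfold up
      split_ifs with c1 c2
      · rw [c1, e]
      · rw [c2, e']
      · exact h2 v fun q => q.elim c1 fun q => hv ⟨c2, q⟩
  · rintro ⟨h1, h2⟩
    have e : σ a = c := by rw [h2 a fun q => ha q.2, up, if_pos rfl]
    have e' : σ c = a := by rw [h2 c fun q => q.1 rfl, up, if_neg ca, if_pos rfl]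
    refine ⟨⟨fun v hv => ?_, fun v hv => ?_⟩, e⟩
    · by_cases c1 : v = a
      · rw [c1, e, e']; exact ⟨Or.inr hc, rfl, ca⟩
      by_cases c2 : v = c
      · rw [c2, e', e]; exact ⟨Or.inl rfl, rfl, ca.symm⟩
      obtain ⟨k1, k2⟩ := h1 v ⟨c2, hv.resolve_left c1⟩
      exact ⟨Or.inr k1.2, k2⟩
    · rw [h2 v fun q => hv (Or.inr q.2), up, if_neg fun q => hv (Or.inl q),
        if_neg fun q : v = c => hv (Or.inr (q ▸ hc))]

theorem Om_sum {a : V} {R : List V} (h : (a :: R).Nodup) (π : V → V) (H : (V → V) → ℝ) :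
    ∑ σ ∈ Om (a :: R) π, H σ = ∑ c ∈ R.toFinset, ∑ σ ∈ Om (R.erase c) (up a c π), H σ := by
  rw [← sum_fiberwise_of_maps_to (t := R.toFinset) (g := fun σ => σ a)]
  · exact sum_congr rfl fun c hc => by rw [Om_fib h (List.mem_toFinset.1 hc)]
  · intro σ hσ
    obtain ⟨k1, -, k3⟩ := (mem_filter.1 hσ).2.1 a List.mem_cons_self
    exact List.mem_toFinset.2 ((List.mem_cons.1 k1).resolve_left k3)

theorem Om_card (j : ℕ) : ∀ (L : List V) (π : V → V), L.Nodup → L.length = 2 * j →
    ((Om L π).card : ℝ) = (2 * j - 1).doubleFactorial := by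
  induction j with
  | zero =>
    intro L π _ h
    rw [List.length_eq_zero_iff.1 h, Om_nil]; simp
  | succ j ih =>
    intro L π hL h
    obtain _ | ⟨a, R⟩ := L
    · simp at h
    have hR := (List.nodup_cons.1 hL).2
    have hl : R.length = 2 * j + 1 := by simp at h; omega
    have := Om_sum hL π fun _ => 1
    simp only [sum_const, nsmul_eq_mul, mul_one] at this
    rw [this, sum_congr rfl (g := fun _ => ((2 * j - 1).doubleFactorial : ℝ)) fun c hc =>
      ih _ _ (hR.erase c) (by rw [List.length_erase_of_mem (List.mem_toFinset.1 hc)]; omega),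
      sum_const, List.toFinset_card_of_nodup hR, hl, show 2 * (j + 1) - 1 = 2 * j + 1 by omega,
      Nat.doubleFactorial_add_one, nsmul_eq_mul, Nat.cast_mul]

theorem sum_mod (r q : ℕ) (F : ℕ → ℝ) :
    ∑ v ∈ range (q * r), F (v % r) = q * ∑ i ∈ range r, F i := by
  induction q with
  | zero => simp
  | succ q ih =>
    have : ∑ i ∈ range r, F ((q * r + i) % r) = ∑ i ∈ range r, F i :=
      sum_congr rfl fun i hi => by
        rw [Nat.mul_add_mod_self_right, Nat.mod_eq_of_lt (mem_range.1 hi)]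
    rw [Nat.succ_mul, sum_range_add, ih, this]
    push_cast; ring

theorem sum_mod_le {r : ℕ} (hr : 0 < r) (N : ℕ) (F : ℕ → ℝ) (hF : ∀ i, 0 ≤ F i) :
    ∑ v ∈ range N, F (v % r) ≤ ((N : ℝ) / r + 1) * ∑ i ∈ range r, F i := by
  have h : N ≤ (N / r + 1) * r := by
    rw [mul_comm]; exact (Nat.lt_mul_div_succ N hr).le
  refine (sum_le_sum_of_subset_of_nonneg (range_subset_range.2 h) fun _ _ _ => hF _).trans ?_
  rw [sum_mod]
  refine mul_le_mul_of_nonneg_right ?_ (sum_nonneg fun i _ => hF i)
  push_cast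
  exact add_le_add_left Nat.cast_div_le _

omit [Fintype V] [DecidableEq V] in
theorem sum_getD (R : List V) (a : V) (S : V → ℝ) :
    ∑ i ∈ range R.length, S (R.getD i a) = (R.map S).sum := by
  induction R with
  | nil => simp
  | cons b R ih =>
    rw [List.length_cons, sum_range_succ', List.map_cons, List.sum_cons, add_comm, ← ih]
    simp

theorem gen_le (n B : ℕ) (H : (V → V) → ℝ) (hH : ∀ σ, 0 ≤ H σ) (m : ℕ) :
    ∀ (j : ℕ) (L : List V) (π : V → V), L.Nodup → L.length = 2 * j → j ≤ m → 2 * j ≤ n →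
    Ex (m * B) (fun l => H (gen B m l L π)) ≤
      (1 + (n : ℝ) / 2 ^ B) ^ m * ((∑ σ ∈ Om L π, H σ) / (2 * j - 1).doubleFactorial) := by
  have c1 : (1 : ℝ) ≤ 1 + (n : ℝ) / 2 ^ B := le_add_of_nonneg_right (by positivity)
  induction m with
  | zero =>
    intro j L π _ h hj _
    obtain rfl : j = 0 := by omega
    rw [List.length_eq_zero_iff.1 h, Om_nil]
    simp [gen, Ex]
  | succ m ih =>
    intro j L π hL h hj hn
    obtain _ | ⟨a, R⟩ := L
    · obtain rfl : j = 0 := by simp at h; omega
      rw [Om_nil]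
      simp only [gen, Ex_const, sum_singleton, mul_zero, zero_tsub, Nat.doubleFactorial,
        Nat.cast_one, div_one]
      exact le_mul_of_one_le_left (hH π) (one_le_pow₀ c1)
    obtain _ | j := j
    · simp at h
    have hR := (List.nodup_cons.1 hL).2
    have hl : R.length = 2 * j + 1 := by simp at h; omega
    set S : V → ℝ := fun c => ∑ σ ∈ Om (R.erase c) (up a c π), H σ with hS
    have S0 : ∀ c, 0 ≤ S c := fun c => sum_nonneg fun σ _ => hH σ
    set D : ℝ := ((2 * j - 1).doubleFactorial : ℝ) with hD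
    have D0 : 0 < D := Nat.cast_pos.2 (Nat.doubleFactorial_pos _)
    set C : ℝ := 1 + (n : ℝ) / 2 ^ B with hC
    have e1 := Ex_split B (m * B) fun l1 l2 => H (gen B m l2
      (R.erase (R.getD (val l1 % R.length) a)) (up a (R.getD (val l1 % R.length) a) π))
    rw [show (m + 1) * B = B + m * B by ring]
    refine (le_of_eq e1).trans ?_
    refine (Ex_mono (G := fun l1 => C ^ m * (S (R.getD (val l1 % R.length) a) / D))
      fun l1 _ => ?_).trans ?_
    · have hc : R.getD (val l1 % R.length) a ∈ R := by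
        have : val l1 % R.length < R.length := Nat.mod_lt _ (by omega)
        rw [List.getD_eq_getElem _ _ this]; exact List.getElem_mem _
      exact ih j _ _ (hR.erase _) (by rw [List.length_erase_of_mem hc]; omega) (by omega) (by omega)
    rw [Ex_val B fun v => C ^ m * (S (R.getD (v % R.length) a) / D), Om_sum hL,
      show 2 * (j + 1) - 1 = 2 * j + 1 by omega, Nat.doubleFactorial_add_one,
      List.sum_toFinset _ hR, ← sum_getD R a, ← mul_sum, ← sum_div]
    have k := sum_mod_le (r := R.length) (by omega) (2 ^ B) (fun i => S (R.getD i a))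
      fun i => S0 _
    have T0 : 0 ≤ ∑ i ∈ range R.length, S (R.getD i a) := sum_nonneg fun i _ => S0 _
    rw [hl] at k T0 ⊢
    generalize ∑ i ∈ range (2 * j + 1), S (R.getD i a) = T at *
    generalize ∑ v ∈ range (2 ^ B), S (R.getD (v % (2 * j + 1)) a) = T' at *
    have hn' : ((2 * j + 1 : ℕ) : ℝ) ≤ n := Nat.cast_le.2 (by omega)
    have r0 : (0 : ℝ) < ((2 * j + 1 : ℕ) : ℝ) := Nat.cast_pos.2 (by omega)
    rw [Nat.cast_mul, ← hD]
    rw [Nat.cast_pow, Nat.cast_ofNat] at k
    generalize ((2 * j + 1 : ℕ) : ℝ) = r at *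
    have N0 : (0 : ℝ) < 2 ^ B := by positivity
    have k2 : T' / 2 ^ B ≤ C * (T / r) := by
      rw [div_le_iff₀ N0]
      refine k.trans ?_
      have : C * (T / r) * 2 ^ B = (2 ^ B / r + n / r) * T := by rw [hC]; field_simp
      rw [this]
      exact mul_le_mul_of_nonneg_right (add_le_add_right ((one_le_div r0).2 hn') _) T0
    calc C ^ m * (T' / D) / 2 ^ B = C ^ m / D * (T' / 2 ^ B) := by ring
      _ ≤ C ^ m / D * (C * (T / r)) := mul_le_mul_of_nonneg_left k2 (by positivity)
      _ = _ := by field_simp; ring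

theorem blocks {A P : Type} [Fintype P] (g : List Bool → A) (e : P → A) (L : ℕ) {c w : ℝ}
    (hc : 0 ≤ c) (hw : 0 ≤ w)
    (h : ∀ H : A → ℝ, (∀ x, 0 ≤ H x) → Ex L (fun l => H (g l)) ≤ c * ∑ p, w * H (e p)) (K : ℕ) :
    ∀ G : (Fin K → A) → ℝ, (∀ x, 0 ≤ G x) →
    Ex (K * L) (fun l => G fun i => g ((l.drop (i * L)).take L)) ≤
      c ^ K * ∑ x : Fin K → P, (∏ _i : Fin K, w) * G fun i => e (x i) := by
  induction K with
  | zero =>
    intro G _
    simp only [zero_mul, Ex, pow_zero, one_mul, univ_eq_empty, prod_empty, Fintype.sum_unique]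
    exact le_of_eq (congrArg G (funext fun i => i.elim0))
  | succ K ih =>
    intro G hG
    have e1 := Ex_split L (K * L) fun l1 l2 =>
      G (Fin.cons (g l1) fun i : Fin K => g ((l2.drop (i * L)).take L))
    rw [show (K + 1) * L = L + K * L by ring]
    refine (le_of_eq ((Ex_congr fun l _ => congrArg G (funext fun i => ?_)).trans e1)).trans ?_
    · refine Fin.cases (by simp) (fun i => ?_) i
      rw [Fin.cons_succ, List.drop_drop, Fin.val_succ, show (i.val + 1) * L = L + i * L by ring]
    refine (Ex_mono (G := fun l1 => c ^ K * ∑ x : Fin K → P, (∏ _i : Fin K, w) *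
      G (Fin.cons (g l1) fun i => e (x i))) fun l1 _ =>
        ih (fun y => G (Fin.cons (g l1) y)) fun _ => hG _).trans ?_
    refine (h (fun a => c ^ K * ∑ x : Fin K → P, (∏ _i : Fin K, w) *
      G (Fin.cons a fun i => e (x i))) fun a => mul_nonneg (pow_nonneg hc _) (sum_nonneg
        fun x _ => mul_nonneg (prod_nonneg fun _ _ => hw) (hG _))).trans (le_of_eq ?_)
    rw [← (Fin.consEquiv fun _ : Fin (K + 1) => P).sum_comp, Fintype.sum_prod_type, pow_succ,
      Fin.prod_univ_succ]
    simp only [mul_sum]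
    refine sum_congr rfl fun p _ => sum_congr rfl fun x _ => ?_
    have : (fun i => e ((Fin.consEquiv fun _ : Fin (K + 1) => P) (p, x) i)) =
        Fin.cons (e p) fun i => e (x i) := funext fun i => Fin.cases rfl (fun _ => rfl) i
    rw [this]; ring

theorem mem_Om (n : ℕ) (σ : Fin n → Fin n) : σ ∈ Om (List.finRange n) id ↔ IsPM σ := by
  simp [Om, IsPM]

end In

theorem init : InitStmt := by
  intro n hn
  obtain ⟨j, hj⟩ := hn
  have hl : (List.finRange n).length = 2 * j := by rw [List.length_finRange]; omega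
  have hc : (Fintype.card (PM (Fin n)) : ℝ) = (2 * j - 1).doubleFactorial := by
    rw [Fintype.card_of_subtype _ (In.mem_Om n)]
    exact In.Om_card j _ _ (List.nodup_finRange n) hl
  refine ⟨?_, fun K B G hG => ?_⟩
  · rw [show n - 1 = 2 * j - 1 by omega]; exact_mod_cast hc
  rw [pow_mul]
  refine In.blocks (fun l => gen B n l (List.finRange n) id) (fun p : PM (Fin n) => p.1) (n * B)
    (by positivity) (by positivity) (fun H hH => ?_) K G hG
  refine (In.gen_le n B H hH n j _ id (List.nodup_finRange n) hl (by omega) (by omega)).trans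
    (le_of_eq ?_)
  rw [sum_subtype _ (In.mem_Om n) H, ← mul_sum, hc]
  ring

end Vale.Agent.P308
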