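import Vale.Agent.P308.Spec

/-!
The law of the output: backward induction over the stages.
-/

namespace Vale.Agent.P308

open Finset Function
open Vale.Agent.P328 (Ex val)
open Vale.Agent.P317 (run run_inv Ex_run Ex_run_le)
open Vale.Agent.P328.Lw (Ex_mono Ex_congr Ex_const Ex_lin Ex_split)

namespace Lx

theorem stage {X S : Type} [Fintype X] [DecidableEq S] (w : X → ℝ) (hw : ∀ x, 0 ≤ w x)
    (hs : ∑ x, w x = 1) (a : X → S) (Vs : Finset S) (F : X → ℝ) (H : S → X → ℝ) (B : X → Prop)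
    [DecidablePred B] (M e τ : ℝ) (hM : 0 ≤ M) (h1 : ∀ x, a x ∈ Vs → F x = H (a x) x)
    (h2 : ∀ x, a x ∉ Vs → F x ≤ if B x then 1 else 0)
    (h3 : ∀ s ∈ Vs, ∑ x, w x * (if a x = s then 1 else 0) * H s x ≤
      (∑ x, w x * if a x = s then 1 else 0) * M + e)
    (h4 : ∑ x with B x, w x ≤ τ) : ∑ x, w x * F x ≤ M + Vs.card * e + τ := by
  have k1 : ∀ x, w x * F x ≤ (∑ s ∈ Vs, w x * (if a x = s then 1 else 0) * H s x) +
      if B x then w x else 0 := by
    intro x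
    have := hw x
    simp only [mul_ite, ite_mul, mul_one, mul_zero, zero_mul, sum_ite_eq]
    by_cases c : a x ∈ Vs
    · rw [if_pos c, h1 x c]
      split_ifs <;> linarith
    · have := mul_le_mul_of_nonneg_left (h2 x c) this
      rw [if_neg c]
      split_ifs at this ⊢ <;> linarith
  have k2 : ∑ s ∈ Vs, ∑ x, w x * (if a x = s then 1 else 0) ≤ 1 := by
    rw [sum_comm]
    refine (sum_le_sum fun x _ => ?_).trans hs.le
    have := hw x
    simp only [mul_ite, mul_one, mul_zero, sum_ite_eq]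
    split_ifs <;> linarith
  refine (sum_le_sum fun x _ => k1 x).trans ?_
  rw [sum_add_distrib, ← sum_filter, sum_comm]
  have k3 := sum_le_sum h3
  rw [sum_add_distrib, ← sum_mul, sum_const, nsmul_eq_mul] at k3
  nlinarith

theorem union_le {X I : Type} [Fintype X] [Fintype I] (w : X → ℝ) (hw : ∀ x, 0 ≤ w x)
    (B : X → Prop) [DecidablePred B] (E : I → X → Prop) [∀ i, DecidablePred (E i)]
    (h : ∀ x, B x → ∃ i, E i x) (τ : ℝ) (hτ : ∀ i, ∑ x with E i x, w x ≤ τ) :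
    ∑ x with B x, w x ≤ Fintype.card I * τ := by
  have k2 := sum_le_sum fun i (_ : i ∈ univ) => hτ i
  simp only [sum_filter] at k2 ⊢
  rw [sum_comm, sum_const, nsmul_eq_mul, card_univ] at k2
  refine (sum_le_sum fun x _ => ?_).trans k2
  have k3 : ∀ i, 0 ≤ if E i x then w x else 0 := fun i => ite_nonneg (hw x) le_rfl
  split_ifs with c
  · obtain ⟨i, hi⟩ := h x c
    exact (if_pos hi).ge.trans (single_le_sum (fun i _ => k3 i) (mem_univ i))
  · exact sum_nonneg fun i _ => k3 i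

section num

variable {Q : ℝ} (hQ : 1000 ≤ Q)
include hQ

theorem pw_le {c : ℝ} (hc : c ≤ 1000) {i j : ℕ} (h : i < j) : c * Q ^ i ≤ Q ^ j := by
  have h0 : 0 < Q ^ i := by positivity
  calc c * Q ^ i ≤ Q * Q ^ i := by gcongr; linarith
    _ = Q ^ (i + 1) := by ring
    _ ≤ Q ^ j := pow_le_pow_right₀ (by linarith) h

theorem rate : 1 / (2 * (Q ^ 340) ^ 2 * Q ^ 6) * Q ^ 340 / Q ^ 123 = 1 / (2 * Q ^ 469) := by
  have : Q ≠ 0 := by linarith
  field_simp

theorem num1 : 16 * (Q ^ 14 + 1) ^ 3 ≤ (1 / Q ^ 480) ^ 2 * (Q ^ 340) ^ 3 := by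
  have h0 : Q ≠ 0 := by linarith
  have h1 : 1 ≤ Q ^ 14 := one_le_pow₀ (by linarith)
  have e : (1 / Q ^ 480) ^ 2 * (Q ^ 340) ^ 3 = Q ^ 60 := by field_simp
  rw [e]
  calc 16 * (Q ^ 14 + 1) ^ 3 ≤ 16 * (2 * Q ^ 14) ^ 3 := by gcongr; linarith
    _ = 128 * Q ^ 42 := by ring
    _ ≤ _ := pw_le hQ (by norm_num) (by norm_num)

theorem num2 : 100 * (1 / Q ^ 480) ≤ 1 / (2 * Q ^ 469) := by
  have h0 : 0 < Q := by linarith
  rw [mul_one_div, div_le_div_iff₀ (by positivity) (by positivity)]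
  have := pw_le hQ (c := 200) (by norm_num) (show 469 < 480 by norm_num)
  linarith

theorem num3 : 100 * (1 / Q ^ 480) ^ 2 * Q ^ 490 ≤ 1 / (2 * Q ^ 469) := by
  have h0 : 0 < Q := by linarith
  have e : 100 * (1 / Q ^ 480) ^ 2 * Q ^ 490 = 100 / Q ^ 470 := by field_simp
  rw [e, div_le_div_iff₀ (by positivity) (by positivity)]
  have := pw_le hQ (c := 200) (by norm_num) (show 469 < 470 by norm_num)
  linarith

theorem num4 : 100 * Q ^ 14 ≤ 1 / (2 * Q ^ 469) * Q ^ 490 := by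
  have h0 : 0 < Q := by linarith
  have e : 1 / (2 * Q ^ 469) * Q ^ 490 = Q ^ 21 / 2 := by field_simp
  have := pw_le hQ (c := 200) (by norm_num) (show 14 < 21 by norm_num)
  rw [e]
  linarith

theorem num5 : 16 * Q ^ 340 * (3 / Q ^ 171) ^ 2 ≤ 1 := by
  have h0 : 0 < Q := by linarith
  have e : 16 * Q ^ 340 * (3 / Q ^ 171) ^ 2 = 144 / Q ^ 2 := by field_simp; norm_num
  rw [e, div_le_one (by positivity)]
  nlinarith

end num

theorem two_pow_le {a : ℕ} {x : ℝ} (h : (a : ℝ) ≤ x) : Real.exp (-x) ≤ 1 / 2 ^ a := by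
  rw [Real.exp_neg, one_div]
  refine inv_anti₀ (by positivity) (le_trans ?_ (Real.exp_le_exp.2 h))
  rw [← mul_one (a : ℝ), Real.exp_nat_mul]
  have := Real.add_one_le_exp 1
  gcongr
  linarith

section alg

variable {n : ℕ} (b : ℕ) (adj : Fin n → Fin n → Bool)

/-- The output of a state. -/
def oz (s : As n) : ℕ × ℕ := (if s.dn then s.nu * (n - 1).doubleFactorial else 0, s.de)

open Classical in
/-- The indicator of failure. -/
noncomputable def bad (s : As n) : ℝ := if Good b adj (oz s) then 0 else 1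

/-- The probability of failure after some stages. -/
noncomputable def Fail (m : ℕ) (z : As n × (Fin (KK b) → Fin n → Fin n)) : ℝ :=
  Ex (m * (TT b * B1 b)) fun l => bad b adj (run (stg b adj) (TT b * B1 b) m l z).1

/-- The error of one stage. -/
noncomputable def err : ℝ := 100 * (((q b ^ 14 : ℕ) : ℝ) + 1) ^ 2 * 4 ^ kk b / 2 ^ q b ^ 14

/-- The tail of one stage. -/
noncomputable def tail (n : ℕ) : ℝ := (n : ℝ) ^ 2 * (2 * Real.exp (-((q b : ℝ) ^ 3 / 4)))

variable {b adj}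

theorem bad_mem (s : As n) : 0 ≤ bad b adj s ∧ bad b adj s ≤ 1 := by
  unfold bad
  split_ifs <;> norm_num

theorem fail_mem (m : ℕ) (z : As n × (Fin (KK b) → Fin n → Fin n)) :
    0 ≤ Fail b adj m z ∧ Fail b adj m z ≤ 1 :=
  ⟨(Ex_const _ 0).ge.trans (Ex_mono fun _ _ => (bad_mem _).1),
    (Ex_mono fun _ _ => (bad_mem _).2).trans (Ex_const _ 1).le⟩

theorem fail_dn (m : ℕ) {z : As n × (Fin (KK b) → Fin n → Fin n)} (h : z.1.dn = true) :
    Fail b adj m z = bad b adj z.1 := by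
  refine (Ex_congr fun l _ => ?_).trans (Ex_const _ _)
  rw [run_inv (stg b adj) (TT b * B1 b) (fun y => y.1 = z.1) (fun l y hy => ?_) m l z rfl]
  show aup b adj _ y.1 = _
  rw [hy, aup, if_pos h]

theorem fail_succ (m : ℕ) (z : As n × (Fin (KK b) → Fin n → Fin n)) :
    Fail b adj (m + 1) z = Ex (TT b * B1 b) fun l => Fail b adj m (aup b adj (cnt b z.2) z.1,
      run (fstep b (aup b adj (cnt b z.2) z.1).k) (B1 b) (TT b) l z.2) :=
  Ex_run (stg b adj) (TT b * B1 b) m (fun y => bad b adj y.1) z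

theorem cnt_le (x : Fin (KK b) → Fin n → Fin n) (u v : Fin n) : cnt b x u v ≤ kk b := by
  rw [cnt, ← card_range (kk b)]
  exact card_le_card_of_injOn Fin.val (fun i hi => by
    simpa using (mem_filter.1 (mem_coe.1 hi)).2.1) Fin.val_injective.injOn

open Classical in
theorem card_vals (s : As n) (Vs : Finset (As n))
    (h : ∀ s' ∈ Vs, s'.dn = false ∧ ∃ x, aup b adj (cnt b x) s = s') (hs : s.dn = false) :
    Vs.card ≤ n * (n * 2) * (kk b + 1) := by
  have : Vs ⊆ ((univ : Finset (Fin n × Fin n × Bool)) ×ˢ range (kk b + 1)).image fun z =>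
      if z.1.2.2 then
        (⟨bump s.k z.1.1 z.1.2.1 (-1), s.nu * (kk b * (qq b - 1) ^ 2 + (2 * qq b - 1) * z.2),
          s.de * (kk b * (qq b - 1) ^ 2), false⟩ : As n)
      else
        ⟨bump s.k z.1.1 z.1.2.1 1, s.nu * (kk b * qq b ^ 2 - (2 * qq b - 1) * z.2),
          s.de * (kk b * qq b ^ 2), false⟩ := by
    intro s' hs'
    obtain ⟨h1, x, rfl⟩ := h s' hs'
    rw [aup, if_neg (by simp [hs])] at h1 ⊢
    rcases e : dec b adj s.k (cnt b x) with _ | d
    · rw [e] at h1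
      simp at h1
    · exact mem_image.2 ⟨(d, cnt b x d.1 d.2.1), mem_product.2 ⟨mem_univ _,
        mem_range.2 (Nat.lt_succ_of_le (cnt_le _ _ _))⟩, rfl⟩
  refine (card_le_card this).trans (card_image_le.trans (le_of_eq ?_))
  simp

variable (hq : 2 ^ 20 * (n + 1) ^ 2 ≤ q b)
include hq

theorem q_ge : 2 ^ 20 ≤ q b := le_trans (Nat.le_mul_of_pos_right _ (by positivity)) hq

theorem qR : (1000 : ℝ) ≤ q b := by
  have : 1000 ≤ q b := le_trans (by norm_num) (q_ge hq)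
  exact_mod_cast this

theorem nq : n ^ 2 ≤ q b :=
  ((Nat.pow_le_pow_left n.le_succ 2).trans (Nat.le_mul_of_pos_left _ (by norm_num))).trans hq

theorem nR : (n : ℝ) ^ 2 ≤ q b := by exact_mod_cast nq hq

theorem nR1 : (n : ℝ) ≤ q b := by
  have : n ≤ q b := (Nat.le_self_pow (by norm_num) n).trans (nq hq)
  exact_mod_cast this

theorem gam_pos : 0 < gam b := by
  have h := qR hq
  have h1 : (q b : ℝ) ^ 1 ≤ (q b : ℝ) ^ 171 := pow_le_pow_right₀ (by linarith) (by norm_num)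
  rw [gam, qq, Nat.cast_pow, sub_pos, div_lt_one (by positivity)]
  linarith

theorem wt_pos' (k : Fin n → Fin n → ℤ) (π : Fin n → Fin n) : 0 < wt (rr b k) π :=
  wt_pos (fun _ _ => zpow_pos (gam_pos hq) _) π

variable [Nonempty (PM (Fin n))]

theorem PP_pos (k : Fin n → Fin n → ℤ) : 0 < PP b k :=
  sum_pos (fun _ _ => wt_pos' hq k _) univ_nonempty

theorem mu_pos (k : Fin n → Fin n → ℤ) (π : PM (Fin n)) : 0 < mu b k π :=
  div_pos (wt_pos' hq k _) (PP_pos hq k)

theorem mu_sum (k : Fin n → Fin n → ℤ) : ∑ π, mu b k π = 1 := by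
  simp only [mu]
  rw [← sum_div]
  exact div_self (PP_pos hq k).ne'

theorem pr_sum (k : Fin n → Fin n → ℤ) :
    ∑ x : Fin (KK b) → PM (Fin n), ∏ i, mu b k (x i) = 1 := by
  rw [← Fintype.piFinset_univ, ← prod_univ_sum (fun _ => univ) fun _ π => mu b k π]
  simp [mu_sum hq]

theorem gapq (hG : GapStmt (Fin n)) (k : Fin n → Fin n → ℤ) (hs : ∀ u v, k u v = k v u)
    (hl : ∀ u v, u ≠ v → 1 / (q b : ℝ) ^ 3 ≤ xm b k u v) (f : PM (Fin n) → ℝ) :
    ∑ s : PM (Fin n) × PM (Fin n), mu b k s.1 * mu b k s.2 * (f s.1 - f s.2) ^ 2 ≤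
      (q b : ℝ) ^ 123 * ∑ t : Prp n, ∑ s : PM (Fin n) × PM (Fin n),
        min (mu b k s.1 * mu b k s.2) (mu b k (gP t s).1 * mu b k (gP t s).2) *
          (f (gP t s).1 + f (gP t s).2 - f s.1 - f s.2) ^ 2 := by
  have h := qR hq
  have hP := PP_pos hq k
  have h0 : (0 : ℝ) < q b := by linarith
  have e : ∀ s : PM (Fin n) × PM (Fin n),
      mu b k s.1 * mu b k s.2 = ww (rr b k) s / PP b k ^ 2 := fun s => by
    rw [mu, mu, ww]; field_simp
  have key := hG (rr b k) f (1 / (q b : ℝ) ^ 3) ⟨fun _ _ => zpow_pos (gam_pos hq) _,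
    fun u v => by rw [rr, rr, hs]⟩ (by positivity)
    (by rw [div_le_one (by positivity)]; exact one_le_pow₀ (by linarith)) fun u v huv => by
      have := hl u v huv
      simp only [xm, mu] at this
      rwa [← sum_div, le_div_iff₀ hP] at this
  have e2 : Dt (rr b k) f = ∑ t : Prp n, Dr (rr b k) f (gP t) := by
    simp only [Dt, Fintype.sum_prod_type, gP, Fintype.card_fin]
    refine sum_congr rfl fun p _ => ?_
    exact (Fin.sum_univ_eq_sum_range (fun j => ∑ u, ∑ v, ∑ u', ∑ v',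
      Dr (rr b k) f (mvP p j u v u' v')) n).symm
  have e3 : 0 ≤ Dt (rr b k) f := by
    rw [e2]
    exact sum_nonneg fun t _ => sum_nonneg fun s _ => mul_nonneg (le_min
      (mul_pos (wt_pos' hq k _) (wt_pos' hq k _)).le
      (mul_pos (wt_pos' hq k _) (wt_pos' hq k _)).le) (sq_nonneg _)
  have e4 : 2 ^ 40 * (Fintype.card (Fin n) : ℝ) ^ 30 / (1 / (q b : ℝ) ^ 3) ^ 36 ≤
      (q b : ℝ) ^ 123 := by
    have h1 : (2 : ℝ) ^ 20 * ((n : ℝ) + 1) ^ 2 ≤ q b := by exact_mod_cast hq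
    have h2 : (0 : ℝ) ≤ n := n.cast_nonneg
    have h3 : (8 * (n : ℝ) ^ 2) ^ 15 ≤ (q b : ℝ) ^ 15 :=
      pow_le_pow_left₀ (by positivity) (by nlinarith) _
    have h4 : (0 : ℝ) ≤ (n : ℝ) ^ 30 := by positivity
    rw [Fintype.card_fin, div_le_iff₀ (by positivity),
      show (q b : ℝ) ^ 123 * (1 / (q b : ℝ) ^ 3) ^ 36 = (q b : ℝ) ^ 15 by field_simp]
    calc _ ≤ 2 ^ 45 * (n : ℝ) ^ 30 := by gcongr <;> norm_num
      _ = (8 * (n : ℝ) ^ 2) ^ 15 := by ring
      _ ≤ _ := h3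
  have key2 := key.trans (mul_le_mul_of_nonneg_right e4 e3)
  simp only [e, min_div_div_right (sq_nonneg (PP b k)), div_mul_eq_mul_div, ← sum_div]
  rw [← mul_div_assoc]
  refine div_le_div_of_nonneg_right ?_ (sq_nonneg _)
  rw [e2] at key2
  exact key2

/-- The reversal of proposals. -/
def rev (n : ℕ) : Prp n ≃ Prp n where
  toFun t := (t.1, t.2.1, t.2.2.2.2.1, t.2.2.2.2.2, t.2.2.1, t.2.2.2.1)
  invFun t := (t.1, t.2.1, t.2.2.2.2.1, t.2.2.2.2.2, t.2.2.1, t.2.2.2.1)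
  left_inv _ := rfl
  right_inv _ := rfl

theorem mixq (hn : 0 < n) (hG : GapStmt (Fin n)) (hM : MixStmt) (k k' : Fin n → Fin n → ℤ)
    (hs : ∀ u v, k' u v = k' v u) (hl : ∀ u v, u ≠ v → 1 / (q b : ℝ) ^ 3 ≤ xm b k' u v)
    (hr : ∀ π, |mu b k π / mu b k' π - 1| ≤ 3 / qq b) (A G : (Fin (KK b) → PM (Fin n)) → ℝ)
    (hA : ∀ x, |A x| ≤ 1)
    (hA' : ∀ x y, (∀ i : Fin (KK b), i.val < kk b → x i = y i) → A x = A y)
    (hG' : ∀ x, |G x| ≤ 1) :
    ∑ x, (∏ i, mu b k (x i)) * A x *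
        (Pop (mu b k') gP (1 / (2 * (KK b : ℝ) ^ 2 * (q b : ℝ) ^ 6)))^[TT b] G x ≤
      (∑ x, (∏ i, mu b k (x i)) * A x) * (∑ y, (∏ i, mu b k' (y i)) * G y) + err b := by
  have h := qR hq
  have h0 : (0 : ℝ) < q b := by linarith
  have e : ∀ π, mu b k' π * (mu b k π / mu b k' π) = mu b k π := fun π =>
    mul_div_cancel₀ _ (mu_pos hq k' π).ne'
  have eK : (KK b : ℝ) = (q b : ℝ) ^ 340 := by rw [KK, Nat.cast_pow]
  have eT : (TT b : ℝ) = (q b : ℝ) ^ 490 := by rw [TT, Nat.cast_pow]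
  have eq : (qq b : ℝ) = (q b : ℝ) ^ 171 := by rw [qq, Nat.cast_pow]
  have := hM (PM (Fin n)) (Prp n) (mu b k') gP (rev n)
    (⟨0, hn⟩, ⟨0, hn⟩, ⟨0, hn⟩, ⟨0, hn⟩, ⟨0, hn⟩, ⟨0, hn⟩) ((q b : ℝ) ^ 123)
    (1 / (2 * (KK b : ℝ) ^ 2 * (q b : ℝ) ^ 6)) (1 / (q b : ℝ) ^ 480) (3 / qq b) (KK b) (kk b)
    (q b ^ 14) (TT b) (mu_pos hq k') (mu_sum hq k') (fun t s => mvP_mvP _ _ _ _ _ _ s)
    (fun s => by simp only [gP, mvP, cjP_self, flP_zero]) (gapq hq hG k' hs hl)
    (one_le_pow₀ (by linarith)) (by rw [eK]; positivity) ?_ ?_ (by positivity)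
    (by rw [eK, Nat.cast_pow]; exact num1 h) (by rw [eK, rate h]; exact num2 h)
    (by rw [eK, eT, rate h]; exact num3 h) (by rw [eK, eT, rate h, Nat.cast_pow]; exact num4 h)
    (by rw [eK, eq]; exact num5 h) (fun π => mu b k π / mu b k' π) A G
    (by simp only [e]; exact mu_sum hq k) hr hA hA' hG'
  · simp only [e] at this
    have := (abs_le.1 this).2
    unfold err
    linarith
  · have h1 : (n : ℝ) ^ 6 ≤ (q b : ℝ) ^ 6 := pow_le_pow_left₀ n.cast_nonneg (nR1 hq) 6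
    have h2 : (KK b : ℝ) ≠ 0 := by rw [eK]; positivity
    have h3 : (Fintype.card (Prp n) : ℝ) = (n : ℝ) ^ 6 := by
      simp only [Fintype.card_prod, Fintype.card_fin]; push_cast; ring
    rw [h3, show 1 / (2 * (KK b : ℝ) ^ 2 * (q b : ℝ) ^ 6) * (KK b : ℝ) ^ 2 * (n : ℝ) ^ 6 =
      (n : ℝ) ^ 6 / (q b : ℝ) ^ 6 / 2 by field_simp]
    have := (div_le_one (by positivity)).2 h1
    linarith
  · have h1 := pw_le h (c := 8) (by norm_num) (show 14 < 340 by norm_num)
    have h2 : 1 ≤ (q b : ℝ) ^ 14 := one_le_pow₀ (by linarith)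
    have : 4 * ((q b : ℝ) ^ 14 + 1) ≤ (KK b : ℝ) := by rw [eK]; linarith
    exact_mod_cast this

open Classical in
theorem tailq (hH : HoefStmt) (k : Fin n → Fin n → ℤ) :
    ∑ x : Fin (KK b) → PM (Fin n) with ¬Acc b k (cnt b fun i => (x i).1), ∏ i, mu b k (x i) ≤
      tail b n := by
  have h := qR hq
  have h0 : (0 : ℝ) < q b := by linarith
  have hw : ∀ x : Fin (KK b) → PM (Fin n), 0 ≤ ∏ i, mu b k (x i) := fun x =>
    prod_nonneg fun i _ => (mu_pos hq k _).le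
  have key : ∀ e : Fin n × Fin n, ∑ x : Fin (KK b) → PM (Fin n) with 1 / (q b : ℝ) ^ 5 * kk b <
      |(cnt b (fun i => (x i).1) e.1 e.2 : ℝ) - kk b * xm b k e.1 e.2|, ∏ i, mu b k (x i) ≤
      2 * Real.exp (-((q b : ℝ) ^ 3 / 4)) := by
    intro e
    have := hH (PM (Fin n)) (mu b k) (univ.filter fun π => π.1 e.1 = e.2) (KK b) (kk b)
      (1 / (q b : ℝ) ^ 5) (fun π => (mu_pos hq k π).le) (mu_sum hq k)
      (by unfold kk KK; exact pow_le_pow_right₀ (Nat.one_le_two_pow (n := b)) (by norm_num))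
      (by positivity) (by rw [div_le_one (by positivity)]; exact one_le_pow₀ (by linarith))
    simp only [mem_filter, mem_univ, true_and] at this
    rw [show (kk b : ℝ) * (1 / (q b : ℝ) ^ 5) ^ 2 = (q b : ℝ) ^ 3 by
      rw [kk, Nat.cast_pow]; field_simp] at this
    exact this
  refine (union_le _ hw _ _ (fun x c => ?_) _ key).trans (le_of_eq ?_)
  · by_contra hc
    push Not at hc
    exact c fun u v _ => ⟨cnt_le _ _ _, hc (u, v)⟩
  · rw [Fintype.card_prod, Fintype.card_fin, Nat.cast_mul, ← sq, tail]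

/-- The error of one stage. -/
noncomputable def bet (b n : ℕ) : ℝ := ((n * (n * 2) * (kk b + 1) : ℕ) : ℝ) * err b + tail b n

omit hq [Nonempty (PM (Fin n))] in
theorem err_nonneg : 0 ≤ err b := by unfold err; positivity

omit hq [Nonempty (PM (Fin n))] in
theorem bet_nonneg : 0 ≤ bet b n := by
  have := err_nonneg (b := b)
  unfold bet tail
  positivity

theorem back (hn : 0 < n) (hc : Fintype.card (PM (Fin n)) = (n - 1).doubleFactorial)
    (hG : GapStmt (Fin n)) (hM : MixStmt) (hH : HoefStmt) (hS : StepStmt b n)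
    {Inv : ℕ → As n → Prop}
    (i1 : ∀ t s, Inv t s → s.dn = false ∧ (∀ u v, s.k u v = s.k v u) ∧ (∀ u v, |s.k u v| ≤ t) ∧
      ∀ u v, u ≠ v → 1 / (q b : ℝ) ^ 3 ≤ xm b s.k u v)
    (i2 : ∀ t s c, t < SS b → Inv t s → Acc b s.k c →
      (aup b adj c s = { s with dn := true } ∧
        Good b adj (s.nu * Fintype.card (PM (Fin n)), s.de)) ∨
      (Inv (t + 1) (aup b adj c s) ∧
        ∀ π, |mu b s.k π / mu b (aup b adj c s).k π - 1| ≤ 3 / qq b))
    (i3 : ∀ s, Inv (SS b) s → ZZ adj = 0) (m : ℕ) : ∀ t s, t + m = SS b → Inv t s →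
    ∑ x : Fin (KK b) → PM (Fin n), (∏ i, mu b s.k (x i)) * Fail b adj m (s, fun i => (x i).1) ≤
      m * bet b n := by
  classical
  induction m with
  | zero =>
    intro t s ht hs
    have : ∀ z, Fail b adj 0 (s, z) = 0 := fun z => by
      rw [Fail, zero_mul]
      show bad b adj s = 0
      rw [bad, if_pos]
      simp [Good, oz, (i1 t s hs).1, i3 s (ht ▸ hs)]
    simp [this]
  | succ m ih =>
    intro t s ht hs
    have hw : ∀ x : Fin (KK b) → PM (Fin n), 0 ≤ ∏ i, mu b s.k (x i) := fun x =>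
      prod_nonneg fun i _ => (mu_pos hq _ _).le
    obtain ⟨Vs, hV⟩ : ∃ Vs : Finset (As n), ∀ s', s' ∈ Vs ↔ (∃ x : Fin (KK b) → PM (Fin n),
        aup b adj (cnt b fun i => (x i).1) s = s') ∧ Inv (t + 1) s' ∧
        ∀ π, |mu b s.k π / mu b s'.k π - 1| ≤ 3 / qq b :=
      ⟨(univ.image fun x : Fin (KK b) → PM (Fin n) =>
        aup b adj (cnt b fun i => (x i).1) s).filter fun s' => Inv (t + 1) s' ∧
          ∀ π, |mu b s.k π / mu b s'.k π - 1| ≤ 3 / qq b, fun s' => by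
            simp only [mem_filter, mem_image, mem_univ, true_and]⟩
    have hb := bet_nonneg (b := b) (n := n)
    have key := stage _ hw (pr_sum hq s.k) (fun x => aup b adj (cnt b fun i => (x i).1) s) Vs
      (fun x => Fail b adj (m + 1) (s, fun i => (x i).1))
      (fun s' => (Pop (mu b s'.k) gP (1 / (2 * (KK b : ℝ) ^ 2 * (q b : ℝ) ^ 6)))^[TT b]
        fun y => Fail b adj m (s', fun i => (y i).1))
      (fun x => ¬Acc b s.k (cnt b fun i => (x i).1)) (m * bet b n) (err b) (tail b n)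
      (by positivity) (fun x hx => ?_) (fun x hx => ?_) (fun s' hs' => ?_) (tailq hq hH s.k)
    · have h1 := card_vals s Vs (fun s' hs' => by
        obtain ⟨⟨x, hx⟩, h2, -⟩ := (hV s').1 hs'
        exact ⟨(i1 _ _ h2).1, _, hx⟩) (i1 t s hs).1
      have h2 : (Vs.card : ℝ) * err b ≤ ((n * (n * 2) * (kk b + 1) : ℕ) : ℝ) * err b :=
        mul_le_mul_of_nonneg_right (Nat.cast_le.2 h1) err_nonneg
      have h3 : ((m + 1 : ℕ) : ℝ) * bet b n = m * bet b n +
          ((n * (n * 2) * (kk b + 1) : ℕ) : ℝ) * err b + tail b n := by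
        rw [add_assoc, ← bet]; push_cast; ring
      linarith
    · rw [fail_succ]
      refine hS _ (fun u v => ((i1 _ _ ((hV _).1 hx).2.1).2.2.1 u v).trans ?_)
        (fun y => Fail b adj m (aup b adj (cnt b fun i => (x i).1) s, y)) (TT b) x
      exact Int.ofNat_le.2 (by omega)
    · split_ifs with c
      · rcases i2 t s _ (by omega) hs c with ⟨h1, h2⟩ | h1
        · rw [fail_succ]
          refine (Ex_mono fun l _ => le_of_eq ?_).trans (Ex_const _ 0).le
          rw [fail_dn _ (by rw [h1])]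
          show bad b adj (aup b adj _ s) = 0
          rw [h1, bad, if_pos]
          rw [oz, ← hc]
          exact h2
        · exact absurd ((hV _).2 ⟨⟨x, rfl⟩, h1⟩) hx
      · exact (fail_mem _ _).2
    · obtain ⟨-, h1, h2⟩ := (hV s').1 hs'
      refine (mixq hq hn hG hM s.k s'.k (i1 _ _ h1).2.1 (i1 _ _ h1).2.2.2 h2
        (fun x => if aup b adj (cnt b fun i => (x i).1) s = s' then 1 else 0) _
        (fun x => by split_ifs <;> norm_num) (fun x y h => ?_) fun y => ?_).trans ?_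
      · have : (cnt b fun i => (x i).1) = cnt b fun i => (y i).1 := by
          funext u v
          exact congrArg card (filter_congr fun i _ => and_congr_right fun hi => by simp only [h i hi])
        simp only [this]
      · exact abs_le.2 ⟨le_trans (by norm_num) (fail_mem _ _).1, (fail_mem _ _).2⟩
      · exact add_le_add_left (mul_le_mul_of_nonneg_left (ih (t + 1) s' (by omega) h1)
          (sum_nonneg fun x _ => mul_nonneg (hw x) (by split_ifs <;> norm_num))) _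

omit [Nonempty (PM (Fin n))] in
theorem total : 3 * (SS b * bet b n) ≤ 1 / 2 ^ q b := by
  have h := qR hq
  have hn := nR hq
  have h0 : (0 : ℝ) < q b := by linarith
  have hb : b ≤ q b := Nat.lt_two_pow_self.le
  have hq1 : 1000 ≤ q b := le_trans (by norm_num) (q_ge hq)
  have e : ∀ c : ℕ, (q b : ℝ) ^ c = 2 ^ (b * c) := fun c => by rw [q, pow_mul]; push_cast; rfl
  have eS : (SS b : ℝ) = (q b : ℝ) ^ 174 := by rw [SS, Nat.cast_pow]
  have a1 : 3 * (SS b * tail b n) ≤ 1 / 2 ^ (q b + 1) := by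
    have h1 : Real.exp (-((q b : ℝ) ^ 3 / 4)) ≤ 1 / 2 ^ (q b ^ 2) := two_pow_le (by
      push_cast
      nlinarith [sq_nonneg (q b : ℝ)])
    have h2 : 3 + b * 175 + (q b + 1) ≤ q b ^ 2 := by nlinarith
    calc 3 * (SS b * tail b n)
        ≤ 3 * ((q b : ℝ) ^ 174 * (q b * (2 * (1 / 2 ^ (q b ^ 2))))) := by
          rw [eS, tail]; gcongr
      _ = 6 * (q b : ℝ) ^ 175 / 2 ^ (q b ^ 2) := by ring
      _ ≤ 2 ^ 3 * 2 ^ (b * 175) / 2 ^ (3 + b * 175 + (q b + 1)) := by
          rw [e]; gcongr <;> norm_num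
      _ = _ := by rw [pow_add _ (3 + b * 175), pow_add _ 3]; field_simp
  have a2 : 3 * (SS b * (((n * (n * 2) * (kk b + 1) : ℕ) : ℝ) * err b)) ≤ 1 / 2 ^ (q b + 1) := by
    have h1 : 1 ≤ (q b : ℝ) ^ 13 := one_le_pow₀ (by linarith)
    have h1' : 1 ≤ (q b : ℝ) ^ 14 := one_le_pow₀ (by linarith)
    have h2 : 13 + b * 216 + 2 * kk b + (q b + 1) ≤ q b ^ 14 := by
      have h3 : q b ≤ q b ^ 13 := Nat.le_self_pow (by norm_num) _
      have h4 : 1000 * q b ^ 13 ≤ q b * q b ^ 13 := Nat.mul_le_mul_right _ hq1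
      rw [pow_succ' _ 13, kk]
      omega
    have h3 : ((n * (n * 2) * (kk b + 1) : ℕ) : ℝ) ≤ 2 * q b * (2 * (q b : ℝ) ^ 13) := by
      rw [kk]
      push_cast
      exact mul_le_mul (by linarith) (by linarith) (by positivity) (by positivity)
    have h4 : err b ≤ 100 * (2 * (q b : ℝ) ^ 14) ^ 2 * 4 ^ kk b / 2 ^ q b ^ 14 := by
      rw [err]
      push_cast
      gcongr
      linarith
    have h5 := err_nonneg (b := b)
    calc _ ≤ 3 * ((q b : ℝ) ^ 174 * (2 * q b * (2 * (q b : ℝ) ^ 13) *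
          (100 * (2 * (q b : ℝ) ^ 14) ^ 2 * 4 ^ kk b / 2 ^ q b ^ 14))) := by
          rw [eS]; gcongr
      _ = 4800 * (q b : ℝ) ^ 216 * 4 ^ kk b / 2 ^ q b ^ 14 := by ring
      _ ≤ 2 ^ 13 * 2 ^ (b * 216) * 2 ^ (2 * kk b) /
          2 ^ (13 + b * 216 + 2 * kk b + (q b + 1)) := by
          rw [e, pow_mul 2 2, show (2 : ℝ) ^ 2 = 4 by norm_num]; gcongr <;> norm_num
      _ = _ := by rw [pow_add _ (13 + b * 216 + 2 * kk b), pow_add _ (13 + b * 216), pow_add _ 13]
                  field_simp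
  have a3 : (1 : ℝ) / 2 ^ q b = 1 / 2 ^ (q b + 1) + 1 / 2 ^ (q b + 1) := by
    rw [pow_succ]; field_simp; norm_num
  rw [bet]
  linarith

omit [Nonempty (PM (Fin n))] in
theorem start : (1 + (n : ℝ) / 2 ^ BI b) ^ (n * KK b) ≤ 3 := by
  have h := qR hq
  have hn := nR hq
  have h0 : (0 : ℝ) < q b := by linarith
  have e : (2 : ℝ) ^ BI b = (q b : ℝ) ^ 342 := by
    rw [q, BI, mul_comm, pow_mul]; push_cast; rfl
  have h1 : ((n * KK b : ℕ) : ℝ) * (n / 2 ^ BI b) ≤ 1 := by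
    rw [e, KK]
    push_cast
    rw [show (n : ℝ) * (q b : ℝ) ^ 340 * (n / (q b : ℝ) ^ 342) = n ^ 2 / (q b : ℝ) ^ 2 by
      field_simp, div_le_one (by positivity)]
    nlinarith
  calc _ ≤ Real.exp ((n : ℝ) / 2 ^ BI b) ^ (n * KK b) := by
        gcongr
        linarith [Real.add_one_le_exp ((n : ℝ) / 2 ^ BI b)]
    _ = Real.exp (((n * KK b : ℕ) : ℝ) * (n / 2 ^ BI b)) := (Real.exp_nat_mul _ _).symm
    _ ≤ Real.exp 1 := Real.exp_le_exp.2 h1
    _ ≤ 3 := by linarith [Real.exp_one_lt_d9]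

end alg

theorem Ex_not (P : ℕ) (F G : List Bool → ℝ) (h : ∀ l, F l = 1 - G l) : Ex P F = 1 - Ex P G := by
  have := Ex_lin P 1 (-1) 0 G G
  rw [Ex_congr (G := F) fun l _ => by rw [h]; ring] at this
  linarith

theorem ini_take (n K B : ℕ) (l : List Bool) : ini n K B (l.take (K * (n * B))) = ini n K B l := by
  funext i
  have : n * B ≤ K * (n * B) - i * (n * B) := by
    rw [← Nat.sub_mul]
    exact Nat.le_mul_of_pos_left _ (Nat.sub_pos_of_lt i.2)
  simp only [ini, List.drop_take, List.take_take, min_eq_left this]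

end Lx

open Lx in
theorem law {n : ℕ} (b : ℕ) (adj : Fin n → Fin n → Bool) (hq : 2 ^ 20 * (n + 1) ^ 2 ≤ q b)
    (hn : 0 < n) (he : Even n) (hG : GapStmt (Fin n)) (hM : MixStmt) (hH : HoefStmt)
    (hI : InitStmt) (hS : StepStmt b n) (hA : AnnStmt b adj) : LawStmt b adj := by
  classical
  intro P hP
  obtain ⟨hc, hi⟩ := hI n he
  obtain ⟨Inv, i0, i1, i2, i3⟩ := hA
  have : Nonempty (PM (Fin n)) :=
    Fintype.card_pos_iff.1 (hc ▸ Nat.doubleFactorial_pos _)
  have k1 := back hq hn hc hG hM hH hS i1 i2 i3 (SS b) 0 _ (zero_add _) i0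
  have k2 := hi (KK b) (BI b) (fun x => Fail b adj (SS b) (⟨fun _ _ => 0, 1, 1, false⟩, x))
    fun x => (fail_mem _ _).1
  have k3 : ∀ π : PM (Fin n), mu b (fun _ _ => 0) π = 1 / Fintype.card (PM (Fin n)) := by
    intro π
    simp [mu, PP, wt, rr]
  simp only [k3] at k1
  obtain ⟨R, rfl⟩ := Nat.exists_eq_add_of_le ((Nat.le_add_right _ _).trans hP)
  have k4 : Ex (KK b * (n * BI b) + R) (fun l => bad b adj (fin b adj l)) =
      Ex (KK b * (n * BI b)) fun l =>
        Fail b adj (SS b) (⟨fun _ _ => 0, 1, 1, false⟩, ini n (KK b) (BI b) l) := by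
    refine Eq.trans (Ex_congr fun l _ => ?_) ((Ex_split _ R fun l l' => bad b adj
      (run (stg b adj) (TT b * B1 b) (SS b) l'
        (⟨fun _ _ => 0, 1, 1, false⟩, ini n (KK b) (BI b) l)).1).trans (Ex_congr fun l _ => ?_))
    · rw [ini_take, fin]
    · unfold Fail
      exact Ex_run_le (stg b adj) (TT b * B1 b) (Nat.le_of_add_le_add_left hP)
        (fun y => bad b adj y.1) _
  have k5 : Ex (KK b * (n * BI b) + R) (fun ρ => if Good b adj (out b adj ρ) then 1 else 0) =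
      1 - Ex (KK b * (n * BI b) + R) (fun l => bad b adj (fin b adj l)) := by
    refine Ex_not _ _ _ fun l => ?_
    rw [bad, show oz (fin b adj l) = out b adj l by rw [oz, out]]
    split_ifs <;> norm_num
  have k6 := mul_le_mul (start hq) k1 (sum_nonneg fun x _ => mul_nonneg
    (prod_nonneg fun _ _ => by positivity) (fail_mem _ _).1) (by norm_num)
  have k7 := total hq
  rw [k5, k4]
  linarith

end Vale.Agent.P308
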