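import Vale.Agent.P308.Rep

/-!
The machine and the final statement.
-/

namespace Vale.Agent.P308

open Finset

namespace AL

open Vale.Agent.Lib.H24.T Turing

theorem code_list {α : Type} [Enc α] {f : α → List Bool} (h : ∀ a, code a = f a) (l : List α) :
    code l = codeList f l := P328.AL.code_list h l

theorem code_bit (b : Bool) : code b = codeBit b := by cases b <;> rfl

theorem code_bits (l : List Bool) : code l = codeBits l := code_list code_bit l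

theorem code_nat (n : ℕ) : code n = codeNat n := code_bits n.bits

theorem code_in (a : List (List Bool) × List ℕ × List Bool) : code a = codeIn a := by
  obtain ⟨x, y, z⟩ := a
  rw [code_pair, code_pair, code_list code_bits, code_list code_nat, code_bits]
  rfl

theorem code_out (a : ℕ × ℕ) : code a = codeOut a := by
  obtain ⟨x, y⟩ := a
  rw [code_pair, code_nat, code_nat]
  rfl

theorem alg_machine : ∃ M : TM2ComputableInPolyTime codeIn codeOut alg,
    ∀ k, Finite (M.tm.Γ k) := by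
  obtain ⟨p, t, ⟨k, hk⟩, hp⟩ := pt_alg
  obtain ⟨tm, ein, eout, h1, h2⟩ := P328.AL.exists_tm p
  have h3 : ∀ S, Nonempty (TM2OutputsInTime tm ((codeIn S).map ein.invFun)
      (some ((codeOut (alg S)).map eout.invFun))
      (((Polynomial.X + 2) ^ k + 2 : Polynomial ℕ).eval (codeIn S).length)) := by
    intro S
    obtain ⟨h⟩ := h2 _ _ _ ((hp S).mono (hk S))
    rw [code_in, code_out, sz, code_in] at h
    refine ⟨?_⟩
    simpa using h
  exact ⟨⟨⟨tm, ein, eout⟩, (Polynomial.X + 2) ^ k + 2, fun S => (h3 S).some⟩, h1⟩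

theorem ceil_inv {ε : ℚ} (h : 0 < ε) :
    ⌈ε⁻¹⌉₊ = (ε.den + ε.num.toNat - 1) / ε.num.toNat := by
  obtain ⟨a, ha⟩ : ∃ a : ℕ, ε.num = a := ⟨_, (Int.toNat_of_nonneg (Rat.num_pos.2 h).le).symm⟩
  have h0 : 0 < a := by have := Rat.num_pos.2 h; omega
  have h1 : (0 : ℚ) < a := by exact_mod_cast h0
  have e : ε⁻¹ = (ε.den : ℚ) / a := by
    conv_lhs => rw [← Rat.num_div_den ε, ha]
    simp
  rw [e, ha, Int.toNat_natCast]
  refine eq_of_forall_ge_iff fun m => ?_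
  rw [Nat.ceil_le, div_le_iff₀ h1, ← Nat.lt_succ_iff, Nat.div_lt_iff_lt_mul h0, Nat.succ_mul,
    ← Nat.cast_mul, Nat.cast_le]
  omega

theorem clock' {n b Q e : ℕ} (h0 : 1024 ≤ Q) (h1 : b ≤ Q) (h2 : 2 * n ≤ Q) :
    Q ^ (2 * e) * (n * (342 * b)) + Q ^ e * (Q ^ (3 * e) * (1 + 686 * b + 171 * b * Q ^ e)) ≤
      Q ^ (5 * e + 4) := by
  have h3 : 1 ≤ Q ^ e := Nat.one_le_pow _ _ (by omega)
  rw [mul_comm 2, mul_comm 3, mul_comm 5, pow_add, pow_mul, pow_mul, pow_mul]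
  generalize Q ^ e = R at h3 ⊢
  have h4 : n * (342 * b) ≤ Q * (Q * Q) :=
    Nat.mul_le_mul (by omega) (Nat.mul_le_mul (by omega) h1)
  have h5 : 1 + 686 * b + 171 * b * R ≤ Q * Q * R := by
    have : Q ≤ Q * R := Nat.le_mul_of_pos_right _ h3
    have : b * R ≤ Q * R := Nat.mul_le_mul_right _ h1
    have : 1024 * (Q * R) ≤ Q * (Q * R) := Nat.mul_le_mul_right _ h0
    rw [mul_assoc, mul_assoc]
    omega
  have h6 : R ^ 2 ≤ R ^ 5 := Nat.pow_le_pow_right h3 (by omega)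
  have h7 : Q * (Q * Q) + Q * Q ≤ Q ^ 4 := by
    have : Q * Q ≤ Q * (Q * Q) := Nat.le_mul_of_pos_left _ (by omega)
    have : 2 * (Q * (Q * Q)) ≤ Q * (Q * (Q * Q)) := Nat.mul_le_mul_right _ (by omega)
    rw [show Q ^ 4 = Q * (Q * (Q * Q)) by ring]
    omega
  calc _ ≤ R ^ 5 * (Q * (Q * Q)) + R * (R ^ 3 * (Q * Q * R)) := by gcongr
    _ = R ^ 5 * (Q * (Q * Q) + Q * Q) := by ring
    _ ≤ _ := Nat.mul_le_mul_left _ h7

theorem clock {n b : ℕ} (hq : 2 ^ 20 * (n + 1) ^ 2 ≤ P308.q b) :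
    KK b * (n * BI b) + SS b * (TT b * P308.B1 b) ≤ P308.q b ^ 884 ∧
    P308.K4 b ≤ P308.q b ^ 884 ∧ Wm b ≤ P308.q b ^ 884 ∧ TT b ≤ P308.q b ^ 884 ∧
    SS b ≤ P308.q b ^ 884 ∧ KK b ≤ P308.q b ^ 884 ∧ 2 * n ≤ P308.q b ^ 884 := by
  have h1 : b ≤ P308.q b := Nat.lt_two_pow_self.le
  have h2 : n + 1 ≤ (n + 1) ^ 2 := Nat.le_self_pow (by omega) _
  have h0 : 1024 ≤ P308.q b := by omega
  have h3 : 2 * n ≤ P308.q b := by omega
  have m : ∀ i j, i ≤ j → P308.q b ^ i ≤ P308.q b ^ j := fun i j h =>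
    Nat.pow_le_pow_right (by omega) h
  refine ⟨le_trans ?_ (clock' (e := 176) h0 h1 h3), ?_, m _ _ (by omega), m _ _ (by omega),
    m _ _ (by omega), m _ _ (by omega), h3.trans (Nat.le_self_pow (by omega) _)⟩
  · exact add_le_add (Nat.mul_le_mul_right _ (m _ _ (by omega)))
      (Nat.mul_le_mul (m _ _ (by omega)) (Nat.mul_le_mul_right _ (m _ _ (by omega))))
  · refine le_trans ?_ (m (176 + 1 + 1) _ (by omega))
    rw [pow_succ', pow_succ', ← mul_assoc]
    exact Nat.mul_le_mul_right _ (Nat.mul_le_mul (by omega) h1)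

theorem ZZ_eq {n : ℕ} (G : SimpleGraph (Fin n)) [DecidableRel G.Adj] :
    ZZ (fun u v => decide (G.Adj u v)) = {M : G.Subgraph | M.IsPerfectMatching}.ncard := by
  rw [ZZ, ← Set.ncard_coe_finset]
  refine Set.ncard_congr (fun π hπ => ⟨Set.univ, fun u v => π.1 u = v,
    fun {u v} e => e ▸ of_decide_eq_true ((mem_filter.1 hπ).2 u), fun _ => trivial,
    ⟨fun _ _ e => π.2.eq_iff.1 e⟩⟩) (fun π hπ => ?_) (fun π σ _ _ e => ?_) fun M hM => ?_
  · exact SimpleGraph.Subgraph.isPerfectMatching_iff.2 fun v => ⟨_, rfl, fun _ e => Eq.symm e⟩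
  · refine Subtype.ext (funext fun v => ?_)
    have e1 : (π.1 v = σ.1 v) = (σ.1 v = σ.1 v) :=
      congrFun (congrFun (congrArg SimpleGraph.Subgraph.Adj e) v) (σ.1 v)
    exact e1 ▸ rfl
  · have hM' : M.IsPerfectMatching := hM
    choose π h1 h2 using SimpleGraph.Subgraph.isPerfectMatching_iff.1 hM'
    refine ⟨⟨π, fun v => ⟨(h2 _ _ (M.adj_symm (h1 v))).symm, (M.adj_sub (h1 v)).ne'⟩⟩,
      mem_filter.2 ⟨mem_univ _, fun v => decide_eq_true (M.adj_sub (h1 v))⟩, ?_⟩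
    refine SimpleGraph.Subgraph.ext (Set.eq_univ_of_forall hM'.2).symm ?_
    funext u v
    exact propext ⟨fun e => e ▸ h1 u, fun e => (h2 _ _ e).symm⟩

end AL

open AL in
theorem final (h : ∀ (n b : ℕ) (adj : Fin n → Fin n → Bool), Even n → 0 < n →
    (∀ u v, adj u v = adj v u) → 2 ^ 20 * (n + 1) ^ 2 ≤ q b → LawStmt b adj) : FinalStmt := by
  refine ⟨alg, (Polynomial.X + 1024) ^ (5 * 884), alg_machine,
    fun n G _ ε δ e0 _ d0 _ T hT Z hZ => ?_⟩
  have hN : (adjRows G).length = n := List.length_ofFn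
  have Z0 : (0 : ℚ) ≤ Z := Nat.cast_nonneg _
  have easy : (∀ ρ, estimate alg G ε δ ρ = Z) → 1 - δ ≤ ((univ.filter fun ρ : Fin T → Bool =>
      (1 - ε) * Z ≤ estimate alg G ε δ (List.ofFn ρ) ∧
      estimate alg G ε δ (List.ofFn ρ) ≤ (1 + ε) * Z).card : ℚ) / 2 ^ T := fun e => by
    rw [filter_true_of_mem fun ρ _ => by rw [e]; constructor <;> nlinarith]
    simp [d0.le]
  rcases Nat.eq_zero_or_pos n with n0 | n0
  · refine easy fun ρ => ?_
    have : Z = 1 := by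
      subst n0
      rw [hZ, ← ZZ_eq, ZZ, filter_true_of_mem fun _ _ v => v.elim0, card_univ]
      exact Fintype.card_eq_one_iff.2 ⟨⟨id, fun v => v.elim0⟩,
        fun _ => Subtype.ext (funext fun v => v.elim0)⟩
    simp [estimate, alg, N, hN, n0, this]
  rcases Nat.even_or_odd n with he | ho
  swap
  · refine easy fun ρ => ?_
    have : Z = 0 := by
      rw [hZ, Set.ncard_eq_zero]
      exact Set.eq_empty_of_forall_notMem fun M hM => Nat.not_even_iff_odd.2 ho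
        (by simpa using SimpleGraph.Subgraph.IsPerfectMatching.even_card hM)
    simp [estimate, alg, N, hN, n0.ne', Nat.odd_iff.1 ho, this]
  clear easy
  obtain ⟨k, hk⟩ : ∃ k, k = ⌈ε⁻¹⌉₊ := ⟨_, rfl⟩
  obtain ⟨l, hl⟩ : ∃ l, l = Nat.size ⌈δ⁻¹⌉₊ := ⟨_, rfl⟩
  obtain ⟨τ, hτ⟩ : ∃ τ, τ = n + k + l + 1024 := ⟨_, rfl⟩
  obtain ⟨b, hb⟩ : ∃ b, b = 4 * τ.size := ⟨_, rfl⟩
  obtain ⟨q1, q2⟩ : τ ^ 4 ≤ q b ∧ q b ≤ τ ^ 5 := hb ▸ P328.AL.q_bounds (show 64 ≤ τ by omega)
  have q3 : τ ≤ q b := (Nat.le_self_pow (by omega) _).trans q1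
  have hq : 2 ^ 20 * (n + 1) ^ 2 ≤ q b := le_trans (by
    rw [show τ ^ 4 = τ ^ 2 * τ ^ 2 by ring]
    exact Nat.mul_le_mul (Nat.pow_le_pow_left (show 1024 ≤ τ by omega) 2)
      (Nat.pow_le_pow_left (by omega) 2)) q1
  have hP : q b ^ 884 ≤ T := by
    rw [hT, Polynomial.eval_pow, pow_mul, ← hk, ← hl]
    refine Nat.pow_le_pow_left (q2.trans_eq ?_) _
    simp [hτ]
  obtain ⟨c1, c2, c3, c4, c5, c6, c7⟩ := clock hq
  have k1 : (1 / q b : ℝ) ≤ ε := by
    have : (q b : ℚ)⁻¹ ≤ ε := inv_le_of_inv_le₀ e0 ((Nat.le_ceil _).trans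
      (Nat.cast_le.2 (by omega)))
    simpa using (Rat.cast_le (K := ℝ)).2 this
  have l1 : (1 / 2 ^ q b : ℝ) ≤ δ := by
    have : ((2 ^ q b : ℕ) : ℚ)⁻¹ ≤ δ := inv_le_of_inv_le₀ d0 ((Nat.le_ceil _).trans
      (Nat.cast_le.2 ((Nat.lt_size_self _).le.trans (Nat.pow_le_pow_right (by omega) (by omega)))))
    simpa using (Rat.cast_le (K := ℝ)).2 this
  have law := h n b (fun u v => decide (G.Adj u v)) he n0
    (fun u v => decide_eq_decide.2 (G.adj_comm u v)) hq T (c1.trans hP)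
  rw [P328.Lw.Ex_fin] at law
  rw [← Rat.cast_le (K := ℝ)]
  push_cast
  refine (sub_le_sub_left l1 1).trans (law.trans (div_le_div_of_nonneg_right ?_ (by positivity)))
  rw [card_filter]
  push_cast
  refine sum_le_sum fun ρ _ => ?_
  have hρ : q b ^ 884 ≤ (List.ofFn ρ).length := by rw [List.length_ofFn]; exact hP
  have R : Rep (adjRows G, [ε.num.toNat, ε.den, δ.num.toNat, δ.den], List.ofFn ρ) n b
      fun u v => decide (G.Adj u v) := by
    refine ⟨hN, ?_, fun u v => ?_, c2.trans hρ, c3.trans hρ, c4.trans hρ, c5.trans hρ,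
      c6.trans hρ, c7.trans hρ⟩
    · have e : t (adjRows G, [ε.num.toNat, ε.den, δ.num.toNat, δ.den], List.ofFn ρ) = τ := by
        rw [hτ, hk, hl, ceil_inv e0, ceil_inv d0, t, hN]; rfl
      simp only [AL.b, bU, e, List.length_append, Nat.size_eq_bits_len, hb]
      omega
    · simp [ad, adjRows]
  have E : estimate alg G ε δ (List.ofFn ρ) =
      ((out b (fun u v => decide (G.Adj u v)) (List.ofFn ρ)).1 : ℚ) /
        (out b (fun u v => decide (G.Adj u v)) (List.ofFn ρ)).2 := by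
    rw [estimate, alg, R.N_eq, if_neg n0.ne', if_neg (by rw [Nat.even_iff.1 he]; omega),
      R.out_eq he]
  rw [E]
  generalize out b (fun u v => decide (G.Adj u v)) (List.ofFn ρ) = o
  split_ifs with a1 a2
  · exact le_rfl
  · rw [Good, ZZ_eq, ← hZ] at a1
    have Z1 : (0 : ℝ) ≤ Z := Nat.cast_nonneg _
    refine absurd ⟨?_, ?_⟩ a2 <;> rw [← Rat.cast_le (K := ℝ)] <;> push_cast
    · exact le_trans (mul_le_mul_of_nonneg_right (by linarith) Z1) a1.1
    · exact a1.2.trans (mul_le_mul_of_nonneg_right (by linarith) Z1)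
  · exact zero_le_one
  · exact le_rfl

end Vale.Agent.P308
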