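import Vale.Agent.P308.Mix3

/-! One step of the evolution of the degree sectors. -/

namespace Vale.Agent.P308.Mx

open Finset Function

variable {Ω T : Type} [Fintype Ω] [Fintype T] {K : ℕ} {μ : Ω → ℝ} {g : T → Ω × Ω → Ω × Ω} {C : ℝ}
  {f f' : Finset (Fin K) → (Fin K → Ω) → ℝ} {θ u : ℝ} {j : ℕ}

/-- the sectors -/
def sec (K j e : ℕ) : Finset (Finset (Fin K)) := univ.filter fun S => min S.card (j + 1) = e

/-- squared norm of a sector -/
noncomputable def nn (μ : Ω → ℝ) (f : Finset (Fin K) → (Fin K → Ω) → ℝ) (j e : ℕ) : ℝ :=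
  ∑ S ∈ sec K j e, ip μ (f S) (f S)

theorem mem_sec {e : ℕ} {S : Finset (Fin K)} : S ∈ sec K j e ↔ min S.card (j + 1) = e := by
  simp [sec]

omit [Fintype Ω] in
theorem sum_sec (f : Finset (Fin K) → (Fin K → Ω) → ℝ) (j : ℕ) :
    ∑ S, f S = ∑ e ∈ range (j + 2), ∑ S ∈ sec K j e, f S :=
  (sum_fiberwise_of_maps_to (fun S _ => mem_range.2 (by omega)) f).symm

theorem Hyp.BT_comm (h : Hyp μ g C) (F G : (Fin K → Ω) → ℝ) : BT μ g θ F G = BT μ g θ G F := by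
  simp only [BT_apply, h.B1_comm _ F]

theorem Hyp.BT_nonneg (h : Hyp μ g C) (hθ : 0 ≤ θ) (F : (Fin K → Ω) → ℝ) : 0 ≤ BT μ g θ F F := by
  rw [BT_apply]
  exact mul_nonneg hθ (sum_nonneg fun p _ => h.B1_nonneg p F)

theorem Hyp.BT_le (h : Hyp μ g C) (hθ : 0 ≤ θ) (hT : θ * K ^ 2 * Fintype.card T ≤ 1 / 2)
    (F : (Fin K → Ω) → ℝ) : BT μ g θ F F ≤ ip μ F F := by
  have s := sum_le_sum fun p (_ : p ∈ (univ : Finset (Fin K × Fin K))) => h.B1_le p F
  rw [sum_const, card_univ, Fintype.card_prod, Fintype.card_fin, nsmul_eq_mul] at s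
  push_cast at s
  rw [BT_apply]
  nlinarith [mul_le_mul_of_nonneg_left s hθ, mul_le_mul_of_nonneg_right hT (ip_nonneg h.pos F)]

theorem Hyp.off0 (h : Hyp μ g C) (hf : ∀ S, Typ μ S (f S)) (hf' : ∀ S, Typ μ S (f' S))
    (hθ : 0 ≤ θ) {A' A : Finset (Finset (Fin K))} {d : ℕ} (hA' : ∀ S ∈ A', d < S.card)
    (hA : ∀ S ∈ A, S.card = d) (hd : d = 0 ∨ ∀ S ∈ A', S.card ≠ d + 1) :
    BT μ g θ (∑ S ∈ A', f' S) (∑ S ∈ A, f S) = 0 := by
  have := h.off hf hf' hθ hA' hA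
  rcases hd with rfl | hd
  · simpa using this
  · rw [filter_false_of_mem hd] at this
    simpa using this

theorem Hyp.off2 (h : Hyp μ g C) (hf : ∀ S, Typ μ S (f S)) (hf' : ∀ S, Typ μ S (f' S))
    (hθ : 0 ≤ θ) (hT : θ * K ^ 2 * Fintype.card T ≤ 1 / 2) (hu : 0 ≤ u)
    (hu2 : 16 * ((j : ℝ) + 1) ^ 3 ≤ u ^ 2 * K ^ 3)
    {A' A : Finset (Finset (Fin K))} {d : ℕ} (hA' : ∀ S ∈ A', d < S.card)
    (hA : ∀ S ∈ A, S.card = d) (hd : d ≤ j) : |BT μ g θ (∑ S ∈ A', f' S) (∑ S ∈ A, f S)| ≤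
      u * (√(∑ S ∈ A', ip μ (f' S) (f' S)) * √(∑ S ∈ A, ip μ (f S) (f S))) := by
  refine (h.off hf hf' hθ hA' hA).trans ?_
  have a0 : 0 ≤ ∑ S ∈ A' with S.card = d + 1, ip μ (f' S) (f' S) :=
    sum_nonneg fun S _ => ip_nonneg h.pos _
  have a1 : ∑ S ∈ A' with S.card = d + 1, ip μ (f' S) (f' S) ≤ ∑ S ∈ A', ip μ (f' S) (f' S) :=
    sum_le_sum_of_subset_of_nonneg (filter_subset _ _) fun S _ _ => ip_nonneg h.pos _
  have b0 : 0 ≤ ∑ S ∈ A, ip μ (f S) (f S) := sum_nonneg fun S _ => ip_nonneg h.pos _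
  generalize ∑ S ∈ A' with S.card = d + 1, ip μ (f' S) (f' S) = a at *
  generalize ∑ S ∈ A', ip μ (f' S) (f' S) = a' at *
  generalize ∑ S ∈ A, ip μ (f S) (f S) = b at *
  have c0 : 0 ≤ θ * (2 * Fintype.card T) := by positivity
  have c1 : θ * (2 * Fintype.card T) * K ^ 2 ≤ 1 := by linarith
  generalize θ * (2 * Fintype.card T) = c at *
  refine (pow_le_pow_iff_left₀ (by positivity) (by positivity) two_ne_zero).1 ?_
  rw [mul_pow, mul_pow, mul_pow, mul_pow, Real.sq_sqrt (by positivity),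
    Real.sq_sqrt (by positivity), Real.sq_sqrt (a0.trans a1), Real.sq_sqrt b0]
  have d1 : (d : ℝ) ≤ j := by exact_mod_cast hd
  have d2 : 2 * d * ((d : ℝ) + 1) ^ 2 ≤ u ^ 2 * K ^ 3 := by
    have : d * ((d : ℝ) + 1) ^ 2 ≤ (j + 1) * (j + 1) ^ 2 := by gcongr; linarith
    nlinarith [pow_nonneg (by positivity : (0 : ℝ) ≤ j + 1) 3]
  have d3 : c ^ 2 * K * (2 * d * ((d : ℝ) + 1) ^ 2) ≤ u ^ 2 := by
    have h1 := mul_le_mul_of_nonneg_left d2 (by positivity : 0 ≤ c ^ 2 * K)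
    have h2 : (c * K ^ 2) ^ 2 ≤ 1 := pow_le_one₀ (by positivity) c1
    nlinarith [mul_le_mul_of_nonneg_left h2 (sq_nonneg u)]
  calc c ^ 2 * ((d + 1) ^ 2 * a * (2 * d * K * b))
      = c ^ 2 * K * (2 * d * ((d : ℝ) + 1) ^ 2) * (a * b) := by ring
    _ ≤ u ^ 2 * (a' * b) := by gcongr

/-- the form of the Markov operator -/
noncomputable def QQ (μ : Ω → ℝ) (g : T → Ω × Ω → Ω × Ω) (θ : ℝ) :
    LinearMap.BilinForm ℝ ((Fin K → Ω) → ℝ) := ip μ - BT μ g θ

theorem QQ_apply (F G : (Fin K → Ω) → ℝ) : QQ μ g θ F G = ip μ F G - BT μ g θ F G := rfl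

theorem Hyp.term (h : Hyp μ g C) (hf : ∀ S, Typ μ S (f S)) (hf' : ∀ S, Typ μ S (f' S))
    (hθ : 0 ≤ θ) (hT : θ * K ^ 2 * Fintype.card T ≤ 1 / 2) (hu : 0 ≤ u)
    (hu2 : 16 * ((j : ℝ) + 1) ^ 3 ≤ u ^ 2 * K ^ 3) (hj : 2 * j ≤ K) (hg : θ * K / C / 8 ≤ 1)
    {z : ℕ → ℝ} (hz0 : ∀ e, 0 ≤ z e) (hz : ∀ e, 1 ≤ e → e ≤ j + 1 → √(nn μ f j e) ≤ z e)
    {b e : ℕ} (hb : 1 ≤ b) (hb' : b ≤ j + 1) (he : e ≤ j + 1) :
    QQ μ g θ (∑ S ∈ sec K j b, f' S) (∑ S ∈ sec K j e, f S) ≤ √(nn μ f' j b) *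
      ((if e = b then (if b ≤ j then 1 - θ * K / C / 8 else 1) * z b else 0) +
        (if e = b - 1 then u * z (b - 1) else 0) + if e = b + 1 then u * z (b + 1) else 0) := by
  have s0 := Real.sqrt_nonneg (nn μ f' j b)
  by_cases k : e = b
  · subst k
    rw [if_pos rfl, if_neg (by omega : ¬e = e - 1), if_neg (by omega : ¬e = e + 1), add_zero,
      add_zero]
    have c0 : 0 ≤ if e ≤ j then 1 - θ * K / C / 8 else 1 := by split_ifs <;> linarith
    have q : ∀ f : Finset (Fin K) → (Fin K → Ω) → ℝ, (∀ S, Typ μ S (f S)) →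
        QQ μ g θ (∑ S ∈ sec K j e, f S) (∑ S ∈ sec K j e, f S) ≤
          (if e ≤ j then 1 - θ * K / C / 8 else 1) * nn μ f j e := by
      intro f hf
      rw [QQ_apply, ip_sum h.one hf hf, inter_self, nn]
      split_ifs with k
      · linarith [h.diag hf hθ (A := sec K j e) (d := e)
          (fun S hS => by have := mem_sec.1 hS; omega) hb (by omega)]
      · linarith [h.BT_nonneg hθ (∑ S ∈ sec K j e, f S)]
    refine (le_abs_self _).trans ((cs _ (fun x => sub_nonneg.2 (h.BT_le hθ hT x))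
      (fun x y => by simp only [QQ_apply, ip_comm μ x, h.BT_comm x]) c0 (q f' hf')
      (q f hf) (sum_nonneg fun S _ => ip_nonneg h.pos _)).trans ?_)
    rw [mul_left_comm]
    exact mul_le_mul_of_nonneg_left (mul_le_mul_of_nonneg_left (hz e hb he) c0) s0
  have e0 : sec K j b ∩ sec K j e = ∅ := by
    ext S; simp only [mem_inter, mem_sec, notMem_empty, iff_false]; omega
  rw [if_neg k, zero_add, QQ_apply, ip_sum h.one hf' hf, e0,
    sum_empty, zero_sub]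
  have n1 := mul_nonneg hu (hz0 (b - 1))
  have n2 := mul_nonneg hu (hz0 (b + 1))
  rcases lt_or_gt_of_ne k with k | k
  · have a1 : ∀ S ∈ sec K j b, e < S.card := fun S hS => by have := mem_sec.1 hS; omega
    have a2 : ∀ S ∈ sec K j e, S.card = e := fun S hS => by have := mem_sec.1 hS; omega
    rw [if_neg (by omega : ¬e = b + 1), add_zero]
    by_cases q : e = b - 1 ∧ 1 ≤ e
    · rw [if_pos q.1, ← q.1, mul_left_comm]
      exact (neg_le_abs _).trans ((h.off2 hf hf' hθ hT hu hu2 a1 a2 (by omega)).trans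
        (mul_le_mul_of_nonneg_left (mul_le_mul_of_nonneg_left (hz e q.2 he) s0) hu))
    · rw [h.off0 hf hf' hθ a1 a2 (by
        by_cases q' : e = 0
        · exact .inl q'
        · exact .inr fun S hS => by have := mem_sec.1 hS; omega), neg_zero]
      exact mul_nonneg s0 (by split_ifs <;> linarith)
  · have a1 : ∀ S ∈ sec K j e, b < S.card := fun S hS => by have := mem_sec.1 hS; omega
    have a2 : ∀ S ∈ sec K j b, S.card = b := fun S hS => by have := mem_sec.1 hS; omega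
    rw [if_neg (by omega : ¬e = b - 1), zero_add, h.BT_comm]
    by_cases q : e = b + 1
    · rw [if_pos q, ← q, mul_left_comm]
      refine (neg_le_abs _).trans ((h.off2 hf' hf hθ hT hu hu2 a1 a2 (by omega)).trans
        (mul_le_mul_of_nonneg_left ?_ hu))
      rw [mul_comm]
      exact mul_le_mul_of_nonneg_left (hz e (by omega) he) s0
    · rw [h.off0 hf' hf hθ a1 a2 (.inr fun S hS => by have := mem_sec.1 hS; omega), neg_zero,
        if_neg q, mul_zero]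

theorem Hyp.step (h : Hyp μ g C) (hf : ∀ S, Typ μ S (f S)) (hf' : ∀ S, Typ μ S (f' S))
    (hθ : 0 ≤ θ) (hT : θ * K ^ 2 * Fintype.card T ≤ 1 / 2) (hu : 0 ≤ u)
    (hu2 : 16 * ((j : ℝ) + 1) ^ 3 ≤ u ^ 2 * K ^ 3) (hj : 2 * j ≤ K) (hg : θ * K / C / 8 ≤ 1)
    {z : ℕ → ℝ} (hz0 : ∀ e, 0 ≤ z e) (hz : ∀ e, 1 ≤ e → e ≤ j + 1 → √(nn μ f j e) ≤ z e)
    (hP : ∀ X, ip μ X (∑ S, f' S) = QQ μ g θ X (∑ S, f S))
    {b : ℕ} (hb : 1 ≤ b) (hb' : b ≤ j + 1) : √(nn μ f' j b) ≤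
      (if b ≤ j then 1 - θ * K / C / 8 else 1) * z b + u * z (b - 1) +
        if b ≤ j then u * z (b + 1) else 0 := by
  have e := hP (∑ S ∈ sec K j b, f' S)
  rw [ip_sum h.one hf' hf', inter_univ, sum_sec f j, map_sum] at e
  have s := sum_le_sum fun e (he : e ∈ range (j + 2)) =>
    h.term hf hf' hθ hT hu hu2 hj hg hz0 hz hb hb' (e := e) (by have := mem_range.1 he; omega)
  rw [← e, ← mul_sum, sum_add_distrib, sum_add_distrib, sum_ite_eq', sum_ite_eq', sum_ite_eq',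
    if_pos (mem_range.2 (by omega)), if_pos (mem_range.2 (by omega))] at s
  have e2 : (b + 1 ∈ range (j + 2)) = (b ≤ j) := by simp
  simp only [e2] at s
  have r0 : 0 ≤ (if b ≤ j then 1 - θ * K / C / 8 else 1) * z b + u * z (b - 1) +
      if b ≤ j then u * z (b + 1) else 0 := by
    have n1 := mul_nonneg hu (hz0 (b - 1))
    have n2 := mul_nonneg hu (hz0 (b + 1))
    have n3 := mul_nonneg (sub_nonneg.2 hg) (hz0 b)
    split_ifs <;> linarith [hz0 b]
  have q := Real.mul_self_sqrt (x := nn μ f' j b) (sum_nonneg fun S _ => ip_nonneg h.pos _)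
  by_contra k
  push Not at k
  have := mul_lt_mul_of_pos_left k (r0.trans_lt k)
  change nn μ f' j b ≤ _ at s
  linarith

/-- the bound for the top sector -/
noncomputable def YY (a δ L : ℝ) (j t : ℕ) : ℝ := (1 + δ) ^ t * (2 - (1 - a / 2) ^ t) * (L / 2 ^ j)

/-- the supersolution -/
noncomputable def zz (a u κ L : ℝ) (j t e : ℕ) : ℝ :=
  if e ≤ j then L * (1 - a / 2) ^ t / 2 ^ e + κ * YY a (κ * u) L j t else YY a (κ * u) L j t

theorem zz_step {a u κ L : ℝ} (j t : ℕ) (ha : 0 < a) (ha1 : a ≤ 1) (hu : 0 ≤ u) (hua : 5 * u ≤ a)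
    (hκ : κ * a = 4 * u) (hL : 0 ≤ L) : (∀ e, 0 ≤ zz a u κ L j t e) ∧
    ∀ b, 1 ≤ b → b ≤ j + 1 → (if b ≤ j then 1 - a else 1) * zz a u κ L j t b +
      u * zz a u κ L j t (b - 1) + (if b ≤ j then u * zz a u κ L j t (b + 1) else 0) ≤
      zz a u κ L j (t + 1) b := by
  have k0 : 0 ≤ κ := by nlinarith
  have k1 : κ ≤ 1 := by nlinarith
  have r0 : 0 ≤ (1 - a / 2) ^ t := pow_nonneg (by linarith) t
  have r1 : (1 - a / 2) ^ t ≤ 1 := pow_le_one₀ (by linarith) (by linarith)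
  have d0 := mul_nonneg k0 hu
  have m1 : 1 ≤ (1 + κ * u) ^ t := one_le_pow₀ (by linarith)
  have l0 : 0 ≤ L / 2 ^ j := by positivity
  have y0 : 0 ≤ YY a (κ * u) L j t :=
    mul_nonneg (mul_nonneg (by linarith) (by linarith)) l0
  have y1 : (1 + κ * u) * YY a (κ * u) L j t + u * (L * (1 - a / 2) ^ t / 2 ^ j) ≤
      YY a (κ * u) L j (t + 1) := by
    unfold YY
    rw [pow_succ, pow_succ, mul_div_right_comm]
    generalize (1 - a / 2) ^ t = q at *
    generalize (1 + κ * u) ^ t = m at *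
    generalize L / 2 ^ j = l at *
    generalize κ * u = δ at *
    have h1 : 1 ≤ m * (1 + δ) := by nlinarith
    have h2 := mul_le_mul_of_nonneg_right h1 (mul_nonneg (mul_nonneg l0 r0) ha.le)
    nlinarith [mul_nonneg (mul_nonneg l0 r0) (by linarith : 0 ≤ a / 2 - u)]
  refine ⟨fun e => by unfold zz; split_ifs <;> positivity, fun b hb hb' => ?_⟩
  obtain ⟨c, rfl⟩ : ∃ c, b = c + 1 := ⟨b - 1, by omega⟩
  rw [Nat.add_sub_cancel]
  by_cases k : c + 1 ≤ j
  · have p0 : 0 ≤ L * (1 - a / 2) ^ t / 2 ^ (c + 1) := by positivity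
    have e1 : zz a u κ L j t c = 2 * (L * (1 - a / 2) ^ t / 2 ^ (c + 1)) +
        κ * YY a (κ * u) L j t := by
      rw [zz, if_pos (by omega), pow_succ]; field_simp
    have e2 : zz a u κ L j t (c + 1 + 1) ≤ L * (1 - a / 2) ^ t / 2 ^ (c + 1) / 2 +
        YY a (κ * u) L j t := by
      unfold zz
      split_ifs
      · rw [pow_succ _ (c + 1), div_div]
        nlinarith
      · linarith
    have e3 : zz a u κ L j (t + 1) (c + 1) = L * (1 - a / 2) ^ t / 2 ^ (c + 1) * (1 - a / 2) +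
        κ * YY a (κ * u) L j (t + 1) := by
      rw [zz, if_pos k, pow_succ (1 - a / 2)]; ring
    have y2 : YY a (κ * u) L j t ≤ YY a (κ * u) L j (t + 1) := by
      have : 0 ≤ u * (L * (1 - a / 2) ^ t / 2 ^ j) := by positivity
      nlinarith [mul_nonneg d0 y0]
    rw [if_pos k, if_pos k, e1, e3, zz, if_pos k]
    have e4 := mul_le_mul_of_nonneg_left e2 hu
    have y3 := mul_le_mul_of_nonneg_left y2 k0
    generalize L * (1 - a / 2) ^ t / 2 ^ (c + 1) = p at *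
    generalize YY a (κ * u) L j t = Y at *
    have h1 := mul_nonneg p0 (by linarith : 0 ≤ a - 5 * u)
    have h2 := mul_nonneg (mul_nonneg k0 y0) (by linarith : 0 ≤ a - 5 * u)
    have h3 : κ * a * Y = 4 * u * Y := by rw [hκ]
    nlinarith [mul_nonneg (mul_nonneg k0 y0) hu]
  · obtain rfl : c = j := by omega
    simp only [zz, if_neg k, le_refl, if_true]
    linarith

end Vale.Agent.P308.Mx
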