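import Vale.Agent.P308.Spec
import Vale.Agent.P308.Mix4

/-! Module X: mixing of the population chain. -/

namespace Vale.Agent.P308

namespace Mx

open Finset Function

variable {Ω T : Type} [Fintype Ω] [Fintype T] {K : ℕ} {μ : Ω → ℝ} {g : T → Ω × Ω → Ω × Ω} {C : ℝ}
  {θ : ℝ}

theorem ip_Pop (X F : (Fin K → Ω) → ℝ) : ip μ X (Pop μ g θ F) = QQ μ g θ X F := by
  have e : Pop μ g θ F = F - θ • ∑ p : Fin K × Fin K,
      if p.1 = p.2 then 0 else HH μ g p.1 p.2 F := by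
    funext x
    simp only [Pop, Pi.sub_apply, Pi.smul_apply, Finset.sum_apply, smul_eq_mul,
      Fintype.sum_prod_type, sub_eq_add_neg, ← mul_neg, ← sum_neg_distrib]
    congr 2
    refine sum_congr rfl fun i _ => sum_congr rfl fun l _ => ?_
    split_ifs with k
    · simp
    · show _ = -hp μ g _ _
      simp only [hp, sl, update_eq_self, ← sum_neg_distrib]
      exact sum_congr rfl fun t _ => by ring
  rw [e, QQ_apply, BT_apply, map_sub, map_smul, map_sum, smul_eq_mul]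
  congr 2
  refine sum_congr rfl fun p _ => ?_
  unfold B1
  split_ifs
  · simp
  · rfl

theorem Hyp.ip_iter (h : Hyp μ g C) (N : ℕ) (F G : (Fin K → Ω) → ℝ) :
    ip μ F ((Pop μ g θ)^[N] G) = ip μ ((Pop μ g θ)^[N] F) G := by
  induction N generalizing F with
  | zero => rfl
  | succ n ih =>
    rw [iterate_succ_apply', ip_Pop, iterate_succ_apply, ← ih, ip_comm μ (Pop _ _ _ _), ip_Pop,
      QQ_apply, QQ_apply, ip_comm, h.BT_comm]

theorem pw_le {x : ℝ} {N : ℕ} (h0 : 0 ≤ x) (h : x * N ≤ 1 / 2) : (1 + x) ^ N ≤ 2 := by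
  have h1 : (1 + x) ^ N ≤ Real.exp x ^ N :=
    pow_le_pow_left₀ (by linarith) (by linarith [Real.add_one_le_exp x]) N
  rw [← Real.exp_nat_mul] at h1
  have h2 : Real.exp (N * x) ≤ Real.exp (1 / 2) := Real.exp_le_exp.2 (by linarith)
  have h3 := Real.add_one_le_exp (-(1 / 2))
  have h4 : Real.exp (-(1 / 2)) * Real.exp (1 / 2) = 1 := by rw [← Real.exp_add]; simp
  nlinarith [Real.exp_pos (1 / 2)]

theorem pw_le' {x : ℝ} {N j : ℕ} (h0 : x ≤ 1) (h : j ≤ x * N) : (1 - x) ^ N ≤ 1 / 2 ^ j := by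
  have h1 : (1 - x) ^ N ≤ Real.exp (-x) ^ N :=
    pow_le_pow_left₀ (by linarith) (by linarith [Real.add_one_le_exp (-x)]) N
  rw [← Real.exp_nat_mul] at h1
  have h2 : Real.exp (N * -x) ≤ Real.exp (-(j * 1)) := Real.exp_le_exp.2 (by linarith)
  have h3 : (2 : ℝ) ^ j ≤ Real.exp 1 ^ j :=
    pow_le_pow_left₀ (by norm_num) (by linarith [Real.add_one_le_exp 1]) j
  rw [Real.exp_neg (j * 1), Real.exp_nat_mul 1 j] at h2
  rw [one_div]
  exact h1.trans (h2.trans (inv_anti₀ (by positivity) h3))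

theorem start (h0 : ∀ a, 0 < μ a) (h1 : ∑ a, μ a = 1) {ρ : Ω → ℝ} {χ : ℝ} {k : ℕ}
    {A : (Fin K → Ω) → ℝ} (hρ : ∑ a, μ a * ρ a = 1) (hχ : ∀ a, |ρ a - 1| ≤ χ)
    (hK : 16 * K * χ ^ 2 ≤ 1) (hA : ∀ x, |A x| ≤ 1)
    (hA' : ∀ x y, (∀ i : Fin K, i.val < k → x i = y i) → A x = A y) (j : ℕ) :
    ∃ f : Finset (Fin K) → (Fin K → Ω) → ℝ, ∑ S, f S = (fun x => (∏ i, ρ (x i)) * A x) ∧
      (∀ S, Typ μ S (f S)) ∧ ∀ e, √(nn μ f j e) ≤ 2 * 2 ^ k / 2 ^ e := by
  classical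
  obtain ⟨f, e, hf, hb⟩ := dec_univ h0 h1 hρ hχ (fun x : Fin K → Ω => (∏ i, ρ (x i)) * A x)
    (c := fun m => (if m.val < k then 4 else 1) * (1 + 4 * χ ^ 2)) fun m => by
      split_ifs with q
      · exact .inl (by nlinarith [sq_nonneg χ])
      · refine .inr ⟨⟨fun x => (∏ i ∈ univ.erase m, ρ (x i)) * A x, fun x a => ?_, fun x => ?_⟩,
          by simp⟩
        · beta_reduce
          rw [hA' (update x m a) x fun i hi => update_of_ne (fun e => q (by rwa [e] at hi)) _ _,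
            prod_congr rfl fun i hi => by rw [update_of_ne (ne_of_mem_erase hi)]]
        · beta_reduce
          rw [← mul_prod_erase univ (fun i => ρ (x i)) (mem_univ m), mul_assoc]
  refine ⟨f, e, hf, fun d => ?_⟩
  have c1 : ∏ m : Fin K, (if m.val < k then 4 else 1) * (1 + 4 * χ ^ 2) ≤ 4 ^ k * 2 := by
    rw [prod_mul_distrib, prod_const, card_univ, Fintype.card_fin, ← prod_filter, prod_const]
    refine mul_le_mul (pow_le_pow_right₀ (by norm_num) ?_) (pw_le (by positivity) (by linarith))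
      (by positivity) (by positivity)
    rw [Fin.card_filter_val_lt]; omega
  have c2 : ip μ (fun x : Fin K → Ω => (∏ i, ρ (x i)) * A x)
      (fun x => (∏ i, ρ (x i)) * A x) ≤ 2 := by
    have p := prod_univ_sum (fun _ : Fin K => (univ : Finset Ω)) (fun _ a => μ a * ρ a ^ 2)
    rw [Fintype.piFinset_univ, prod_const, card_univ, Fintype.card_fin] at p
    have q : ∑ a, μ a * ρ a ^ 2 ≤ 1 + χ ^ 2 := by
      have : ∑ a, μ a * ρ a ^ 2 ≤ ∑ a, (μ a * χ ^ 2 + 2 * (μ a * ρ a) - μ a) :=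
        sum_le_sum fun a _ => by
          have := sq_le_sq' (abs_le.1 (hχ a)).1 (abs_le.1 (hχ a)).2
          nlinarith [h0 a]
      rw [sum_sub_distrib, sum_add_distrib, ← sum_mul, ← mul_sum, h1, hρ] at this
      linarith
    refine le_trans ?_ ((pow_le_pow_left₀ (sum_nonneg fun a _ =>
      mul_nonneg (h0 a).le (sq_nonneg _)) q K).trans (pw_le (sq_nonneg _) (by nlinarith)))
    rw [p, ip_apply]
    refine sum_le_sum fun x _ => ?_
    rw [prod_mul_distrib, prod_pow]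
    have h2 : A x ^ 2 ≤ 1 := (sq_le_one_iff_abs_le_one _).2 (hA x)
    have h3 := mul_le_mul_of_nonneg_left h2
      (mul_nonneg (w_nonneg h0 x) (sq_nonneg (∏ i, ρ (x i))))
    unfold w at h3 ⊢
    linarith
  have c3 : 4 ^ d * nn μ f j d ≤ ∑ S, 4 ^ S.card * ip μ (f S) (f S) := by
    rw [nn, mul_sum]
    refine le_trans (sum_le_sum fun S hS => mul_le_mul_of_nonneg_right
      (pow_le_pow_right₀ (by norm_num) (by have := mem_sec.1 hS; omega)) (ip_nonneg h0 _))
      (sum_le_sum_of_subset_of_nonneg (subset_univ _) fun S _ _ =>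
        mul_nonneg (by positivity) (ip_nonneg h0 _))
  have c4 := mul_le_mul c1 c2 (ip_nonneg h0 _) (by positivity)
  refine Real.sqrt_le_iff.2 ⟨by positivity, ?_⟩
  have e4 : ∀ n : ℕ, ((2 : ℝ) ^ n) ^ 2 = 4 ^ n := fun n => by
    rw [← pow_mul, mul_comm, pow_mul]; norm_num
  rw [div_pow, mul_pow, e4, e4, le_div_iff₀ (by positivity)]
  linarith

theorem Hyp.fin_le (h : Hyp μ g C) {f : Finset (Fin K) → (Fin K → Ω) → ℝ} (hf : ∀ S, Typ μ S (f S))
    (j : ℕ) {M : ℝ} (hz : ∀ e, 1 ≤ e → e ≤ j + 1 → √(nn μ f j e) ≤ M) {G : (Fin K → Ω) → ℝ}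
    (hG : ∀ x, |G x| ≤ 1) :
    |ip μ (∑ S, f S) G - ip μ (∑ S, f S) 1 * ip μ 1 G| ≤ (j + 1) * M := by
  have o : ip μ (1 : (Fin K → Ω) → ℝ) 1 = 1 := by simp [ip_apply, sum_w h.one]
  have hne : Nonempty (Fin K → Ω) := by
    by_contra k
    rw [not_nonempty_iff] at k
    simp [ip_apply] at o
  obtain ⟨x0⟩ := hne
  have e0 : ∑ S ∈ sec K j 0, f S = (∑ S ∈ sec K j 0, f S) x0 • (1 : (Fin K → Ω) → ℝ) := by
    funext x
    rw [Pi.smul_apply, Pi.one_apply, smul_eq_mul, mul_one]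
    refine const_of_ind (fun m => ind_sum _ fun S hS => (hf S).1 m fun k => ?_) _ _
    have := mem_sec.1 hS
    have := card_pos.2 ⟨m, k⟩
    omega
  have e1 : ∀ e, ip μ (∑ S ∈ sec K j (e + 1), f S) 1 = 0 := fun e => by
    rw [map_sum, LinearMap.sum_apply]
    refine sum_eq_zero fun S hS => ?_
    obtain ⟨m, hm⟩ := card_pos.1 (show 0 < S.card by have := mem_sec.1 hS; omega)
    exact ip_zero h.one ((hf S).2 m hm) fun _ _ => rfl
  have g1 : ip μ G G ≤ 1 * 1 := by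
    rw [mul_one, ← sum_w (K := K) h.one, ip_apply]
    refine sum_le_sum fun x _ => ?_
    have h2 : G x ^ 2 ≤ 1 := (sq_le_one_iff_abs_le_one _).2 (hG x)
    nlinarith [w_nonneg h.pos x]
  rw [sum_sec f j, sum_range_succ', e0]
  simp only [map_add, LinearMap.add_apply, map_smul, LinearMap.smul_apply, smul_eq_mul, o]
  rw [map_sum, LinearMap.sum_apply, LinearMap.sum_apply, sum_eq_zero fun e _ => e1 e, zero_add,
    mul_one, add_sub_cancel_right]
  refine (abs_sum_le_sum_abs _ _).trans ((sum_le_card_nsmul _ _ M fun e he => ?_).trans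
    (by simp))
  have := cs (ip μ) (ip_nonneg h.pos) (ip_comm μ) (x := ∑ S ∈ sec K j (e + 1), f S)
    (a := nn μ f j (e + 1)) zero_le_one (by rw [ip_sum h.one hf hf, inter_self, one_mul]; rfl) g1
    (sum_nonneg fun S _ => ip_nonneg h.pos _)
  rw [Real.sqrt_one, one_mul, mul_one] at this
  exact this.trans (hz _ (by omega) (by have := mem_range.1 he; omega))

end Mx

open Finset Function Mx in
theorem mix : MixStmt := by
  intro Ω T _ _ _ μ g ι t0 C θ u χ K k j N h0 h1 hι ht hgap hC hθ hT hj hu hu2 hu3 hu4 hN hχ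
    ρ A G hρ hρχ hA hA' hG
  have h : Hyp μ g C := ⟨h0, h1, ⟨ι, hι⟩, ⟨t0, ht⟩, hgap, hC⟩
  have K4 : (4 : ℝ) ≤ K := by exact_mod_cast (by omega : 4 ≤ K)
  have a0 : 0 < θ * K / C / 8 := by positivity
  have a1 : θ * K / C / 8 ≤ 1 := by
    have t1 : (1 : ℝ) ≤ Fintype.card T := by
      exact_mod_cast Fintype.card_pos_iff.2 ⟨t0⟩
    have h2 : θ * K ^ 2 ≤ 1 / 2 := by nlinarith [mul_nonneg hθ.le (sq_nonneg (K : ℝ))]
    have h3 : θ * K ≤ 1 := by nlinarith [mul_pos hθ (by linarith : (0 : ℝ) < K)]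
    have h4 : θ * K / C ≤ 1 := (div_le_one (by linarith)).2 (by linarith)
    linarith
  have st := fun t => zz_step (κ := 4 * u / (θ * K / C / 8)) (L := 2 * 2 ^ k) j t a0 a1 hu
    (by linarith) (div_mul_cancel₀ _ a0.ne') (by positivity)
  have κ0 : 0 ≤ 4 * u / (θ * K / C / 8) := by positivity
  have κ1 : 4 * u / (θ * K / C / 8) ≤ 1 := (div_le_one a0).2 (by linarith)
  have κ2 : 4 * u / (θ * K / C / 8) * u * N ≤ 1 / 2 := by
    rw [div_mul_eq_mul_div, div_mul_eq_mul_div, div_le_iff₀ a0]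
    nlinarith
  have a2 : (j : ℝ) ≤ θ * K / C / 8 / 2 * N := by linarith [(Nat.cast_nonneg j : (0 : ℝ) ≤ j)]
  generalize 4 * u / (θ * K / C / 8) = κ at *
  have inv : ∀ t, ∃ f : Finset (Fin K) → (Fin K → Ω) → ℝ,
      ∑ S, f S = (Pop μ g θ)^[t] (fun x => (∏ i, ρ (x i)) * A x) ∧ (∀ S, Typ μ S (f S)) ∧
      ∀ e, 1 ≤ e → e ≤ j + 1 → √(nn μ f j e) ≤ zz (θ * K / C / 8) u κ (2 * 2 ^ k) j t e := by
    intro t
    induction t with
    | zero =>
      obtain ⟨f, e, hf, hb⟩ := start h0 h1 hρ hρχ hχ hA hA' j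
      refine ⟨f, e, hf, fun d _ _ => (hb d).trans ?_⟩
      simp only [zz, YY, pow_zero, mul_one, one_mul]
      split_ifs with q
      · exact le_add_of_nonneg_right (by positivity)
      · rw [show (2 : ℝ) - 1 = 1 by norm_num, one_mul]
        exact div_le_div_of_nonneg_left (by positivity) (by positivity)
          (pow_le_pow_right₀ (by norm_num) (by omega))
    | succ t ih =>
      obtain ⟨f, e, hf, hb⟩ := ih
      obtain ⟨f', e', hf', -⟩ := dec_univ h0 h1 (ρ := fun _ => 1) (χ := 0) (c := fun _ => 4)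
        (by simpa using h1) (by simp) (Pop μ g θ (∑ S, f S)) fun _ => .inl le_rfl
      refine ⟨f', by rw [e', e, iterate_succ_apply'], hf', fun d hd hd' => ?_⟩
      exact (h.step hf hf' hθ.le hT hu hu2 (by omega) a1 (st t).1 hb
        (fun X => by rw [e', ip_Pop]) hd hd').trans ((st t).2 d hd hd')
  obtain ⟨f, e, hf, hb⟩ := inv N
  have r0 : 0 ≤ (1 - θ * K / C / 8 / 2) ^ N := pow_nonneg (by linarith) N
  have r1 := pw_le' (by linarith) a2
  have y : YY (θ * K / C / 8) (κ * u) (2 * 2 ^ k) j N ≤ 2 * 2 * (2 * 2 ^ k / 2 ^ j) :=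
    mul_le_mul_of_nonneg_right (mul_le_mul (pw_le (mul_nonneg κ0 hu) κ2) (by linarith)
      (by linarith [show (1 : ℝ) / 2 ^ j ≤ 1 from
        (div_le_one (by positivity)).2 (one_le_pow₀ (by norm_num))]) (by norm_num))
      (by positivity)
  have fin := h.fin_le hf j (M := 5 * (2 * 2 ^ k / 2 ^ j)) (fun d hd hd' => (hb d hd hd').trans (by
    have l0 : (0 : ℝ) ≤ 2 * 2 ^ k / 2 ^ j := by positivity
    unfold zz
    split_ifs
    · have h2 : 2 * 2 ^ k * (1 - θ * K / C / 8 / 2) ^ N / 2 ^ d ≤ 2 * 2 ^ k * (1 / 2 ^ j) :=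
        (div_le_self (by positivity) (one_le_pow₀ (by norm_num))).trans
          (mul_le_mul_of_nonneg_left r1 (by positivity))
      rw [mul_one_div] at h2
      nlinarith [mul_le_mul κ1 y (by simpa [zz] using (st N).1 (j + 1)) zero_le_one]
    · linarith)) hG
  have p1 : (Pop μ g θ)^[N] (1 : (Fin K → Ω) → ℝ) = 1 :=
    iterate_fixed (by funext x; simp [Pop]) N
  rw [e, ← h.ip_iter, ← h.ip_iter, p1] at fin
  simp only [ip_apply, w, Pi.one_apply, mul_one, ← mul_assoc, ← prod_mul_distrib] at fin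
  refine fin.trans ?_
  have j0 : (0 : ℝ) ≤ j := Nat.cast_nonneg j
  have k1 : (2 : ℝ) ^ k ≤ 4 ^ k := pow_le_pow_left₀ (by norm_num) (by norm_num) k
  rw [← mul_div_assoc]
  refine div_le_div_of_nonneg_right ?_ (by positivity)
  have k0 : (0 : ℝ) < 2 ^ k := by positivity
  nlinarith [mul_le_mul_of_nonneg_left k1 (sq_nonneg ((j : ℝ) + 1)), mul_nonneg j0 k0.le,
    mul_nonneg (mul_nonneg j0 j0) k0.le]

end Vale.Agent.P308
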