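import Mathlib

/-! Orthogonal decomposition of functions on a product space. -/

namespace Vale.Agent.P308.Mx

open Finset Function

variable {Ω : Type} [Fintype Ω] {K : ℕ} (μ : Ω → ℝ)

/-- product weight -/
def w (x : Fin K → Ω) : ℝ := ∏ i, μ (x i)

/-- inner product -/
noncomputable def ip : LinearMap.BilinForm ℝ ((Fin K → Ω) → ℝ) :=
  LinearMap.mk₂ ℝ (fun F G => ∑ x, w μ x * F x * G x)
    (fun F F' G => by simp [mul_add, add_mul, sum_add_distrib])
    (fun c F G => by simp [mul_sum, mul_assoc, mul_left_comm])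
    (fun F G G' => by simp [mul_add, sum_add_distrib])
    (fun c F G => by simp [mul_sum, mul_assoc, mul_left_comm])

theorem ip_apply (F G : (Fin K → Ω) → ℝ) : ip μ F G = ∑ x, w μ x * F x * G x := rfl

theorem ip_comm (F G : (Fin K → Ω) → ℝ) : ip μ F G = ip μ G F := by
  simp only [ip_apply]; exact sum_congr rfl fun x _ => by ring

/-- conditional expectation -/
def E (m : Fin K) (F : (Fin K → Ω) → ℝ) (x : Fin K → Ω) : ℝ := ∑ a, μ a * F (update x m a)

/-- independent of a coordinate -/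
def Ind (m : Fin K) (F : (Fin K → Ω) → ℝ) : Prop := ∀ x a, F (update x m a) = F x

/-- centred in a coordinate -/
def Zm (m : Fin K) (F : (Fin K → Ω) → ℝ) : Prop := ∀ x, E μ m F x = 0

/-- product form in a coordinate -/
def Pr (ρ : Ω → ℝ) (m : Fin K) (F : (Fin K → Ω) → ℝ) : Prop :=
  ∃ h, Ind m h ∧ ∀ x, F x = ρ (x m) * h x

/-- type of a component -/
def Typ (S : Finset (Fin K)) (F : (Fin K → Ω) → ℝ) : Prop :=
  (∀ m, m ∉ S → Ind m F) ∧ ∀ m ∈ S, Zm μ m F

variable {μ}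

omit [Fintype Ω] in
theorem w_nonneg (h : ∀ a, 0 < μ a) (x : Fin K → Ω) : 0 ≤ w μ x :=
  prod_nonneg fun _ _ => (h _).le

theorem ip_nonneg (h : ∀ a, 0 < μ a) (F : (Fin K → Ω) → ℝ) : 0 ≤ ip μ F F :=
  sum_nonneg fun x _ => by rw [mul_assoc]; exact mul_nonneg (w_nonneg h x) (mul_self_nonneg _)

theorem sum_w (h1 : ∑ a, μ a = 1) : ∑ x : Fin K → Ω, w μ x = 1 := by
  classical
  have := prod_univ_sum (fun _ : Fin K => (univ : Finset Ω)) (fun _ a => μ a)
  rw [Fintype.piFinset_univ] at this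
  simp only [w, ← this, h1, prod_const_one]

omit [Fintype Ω] in
theorem w_update (x : Fin K → Ω) (m : Fin K) (a : Ω) :
    w μ (update x m a) * μ (x m) = w μ x * μ a := by
  unfold w
  rw [← mul_prod_erase univ _ (mem_univ m), ← mul_prod_erase univ (fun i => μ (x i)) (mem_univ m),
    update_self, prod_congr rfl fun i hi => by rw [update_of_ne (ne_of_mem_erase hi)]]
  ring

theorem slice (h1 : ∑ a, μ a = 1) (m : Fin K) (Φ : (Fin K → Ω) → ℝ) :
    ∑ x, w μ x * Φ x = ∑ x, w μ x * E μ m Φ x := by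
  let e : Equiv.Perm ((Fin K → Ω) × Ω) :=
    Function.Involutive.toPerm (fun p => (update p.1 m p.2, p.1 m)) fun p => by simp
  have h2 := Equiv.sum_comp e fun p : (Fin K → Ω) × Ω => w μ p.1 * μ p.2 * Φ p.1
  have he : ∀ p, e p = (update p.1 m p.2, p.1 m) := fun _ => rfl
  simp only [he, w_update, Fintype.sum_prod_type] at h2
  simp only [E, mul_sum, ← mul_assoc, h2]
  refine sum_congr rfl fun x _ => ?_
  rw [← sum_mul, ← mul_sum, h1, mul_one]

theorem ip_zero (h1 : ∑ a, μ a = 1) {m : Fin K} {F G : (Fin K → Ω) → ℝ} (hF : Zm μ m F)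
    (hG : Ind m G) : ip μ F G = 0 := by
  have := slice h1 m fun x => F x * G x
  simp only [← mul_assoc] at this
  rw [ip_apply, this]
  refine sum_eq_zero fun x _ => mul_eq_zero_of_right _ ?_
  have h2 := hF x
  simp only [E, hG x, ← mul_assoc, ← sum_mul] at h2 ⊢
  rw [h2, zero_mul]

theorem ind_E (m : Fin K) (F : (Fin K → Ω) → ℝ) : Ind m (E μ m F) := fun x a => by
  simp [E]

theorem Ind.E_eq (h1 : ∑ a, μ a = 1) {m : Fin K} {F : (Fin K → Ω) → ℝ} (h : Ind m F) :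
    E μ m F = F := by
  funext x
  simp only [E, h x, ← sum_mul, h1, one_mul]

theorem E_sub (m : Fin K) (F G : (Fin K → Ω) → ℝ) : E μ m (F - G) = E μ m F - E μ m G := by
  funext x; simp [E, mul_sub]

theorem zm_sub (h1 : ∑ a, μ a = 1) (m : Fin K) (F : (Fin K → Ω) → ℝ) :
    Zm μ m (F - E μ m F) := fun x => by
  rw [E_sub, (ind_E m F).E_eq h1, sub_self]; rfl

theorem Ind.E {m m' : Fin K} (h : m' ≠ m) {F : (Fin K → Ω) → ℝ} (hF : Ind m' F) :
    Ind m' (E μ m F) := fun x a => by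
  simp only [Mx.E, update_comm h, hF _ a]

theorem Zm.E {m m' : Fin K} (h : m' ≠ m) {F : (Fin K → Ω) → ℝ} (hF : Zm μ m' F) :
    Zm μ m' (E μ m F) := fun x => by
  simp only [Mx.E, mul_sum, update_comm h]
  rw [sum_comm]
  refine sum_eq_zero fun b _ => ?_
  have := hF (update x m b)
  simp only [Mx.E] at this
  simp only [mul_left_comm _ (μ b), ← mul_sum, this, mul_zero]

omit [Fintype Ω] in
theorem Ind.sub {m : Fin K} {F G : (Fin K → Ω) → ℝ} (hF : Ind m F) (hG : Ind m G) :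
    Ind m (F - G) := fun x a => by simp [hF x a, hG x a]

theorem Zm.sub {m : Fin K} {F G : (Fin K → Ω) → ℝ} (hF : Zm μ m F) (hG : Zm μ m G) :
    Zm μ m (F - G) := fun x => by rw [E_sub, Pi.sub_apply, hF x, hG x, sub_self]

omit [Fintype Ω] in
theorem ind_sum {ι : Type} {m : Fin K} (s : Finset ι) {g : ι → (Fin K → Ω) → ℝ}
    (h : ∀ i ∈ s, Ind m (g i)) : Ind m (∑ i ∈ s, g i) := fun x a => by
  simp only [Finset.sum_apply]; exact sum_congr rfl fun i hi => h i hi x a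

theorem zm_sum {ι : Type} {m : Fin K} (s : Finset ι) {g : ι → (Fin K → Ω) → ℝ}
    (h : ∀ i ∈ s, Zm μ m (g i)) : Zm μ m (∑ i ∈ s, g i) := fun x => by
  simp only [E, Finset.sum_apply, mul_sum]
  rw [sum_comm]
  exact sum_eq_zero fun i hi => h i hi x

theorem Pr.E {ρ : Ω → ℝ} {m m' : Fin K} (h : m' ≠ m) {F : (Fin K → Ω) → ℝ} (hF : Pr ρ m' F) :
    Pr ρ m' (E μ m F) := by
  obtain ⟨g, hg, e⟩ := hF
  refine ⟨Mx.E μ m g, hg.E h, fun x => ?_⟩
  simp only [Mx.E, e, update_of_ne h, mul_sum]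
  exact sum_congr rfl fun a _ => by ring

omit [Fintype Ω] in
theorem Pr.sub {ρ : Ω → ℝ} {m : Fin K} {F G : (Fin K → Ω) → ℝ} (hF : Pr ρ m F) (hG : Pr ρ m G) :
    Pr ρ m (F - G) := by
  obtain ⟨g, hg, e⟩ := hF
  obtain ⟨g', hg', e'⟩ := hG
  exact ⟨g - g', hg.sub hg', fun x => by simp [e, e', mul_sub]⟩

theorem pyth (h1 : ∑ a, μ a = 1) (m : Fin K) (F : (Fin K → Ω) → ℝ) :
    ip μ F F = ip μ (E μ m F) (E μ m F) + ip μ (F - E μ m F) (F - E μ m F) := by
  have h := ip_zero h1 (zm_sub h1 m F) (ind_E (μ := μ) m F)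
  have h' := h
  rw [ip_comm] at h'
  generalize E μ m F = G at *
  obtain ⟨H, rfl⟩ : ∃ H, F = G + H := ⟨F - G, by simp⟩
  simp only [add_sub_cancel_left, map_add, LinearMap.add_apply] at *
  linarith

theorem step_le (h0 : ∀ a, 0 < μ a) (h1 : ∑ a, μ a = 1) {ρ : Ω → ℝ} {χ c : ℝ}
    (hρ : ∑ a, μ a * ρ a = 1) (hχ : ∀ a, |ρ a - 1| ≤ χ) (m : Fin K) (F : (Fin K → Ω) → ℝ)
    (h : 4 ≤ c ∨ (Pr ρ m F ∧ 1 + 4 * χ ^ 2 ≤ c)) :
    ip μ (E μ m F) (E μ m F) + 4 * ip μ (F - E μ m F) (F - E μ m F) ≤ c * ip μ F F := by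
  have p := pyth h1 m F
  have n1 := ip_nonneg h0 (E μ m F)
  have n2 := ip_nonneg h0 (F - E μ m F)
  rcases h with h | ⟨⟨g, hg, e⟩, h⟩
  · nlinarith
  · have e2 : E μ m F = g := by
      funext x
      simp only [E, e, update_self, hg x, ← mul_assoc, ← sum_mul, hρ, one_mul]
    rw [e2] at p n1 n2 ⊢
    have : ip μ (F - g) (F - g) ≤ χ ^ 2 * ip μ g g := by
      simp only [ip_apply, mul_sum]
      refine sum_le_sum fun x _ => ?_
      have h3 : (ρ (x m) - 1) ^ 2 ≤ χ ^ 2 := sq_le_sq' (abs_le.1 (hχ _)).1 (abs_le.1 (hχ _)).2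
      have h4 := mul_le_mul_of_nonneg_right h3
        (mul_nonneg (w_nonneg h0 x) (mul_self_nonneg (g x)))
      simp only [Pi.sub_apply, e]
      nlinarith
    have h5 := mul_le_mul_of_nonneg_right h (add_nonneg n1 n2)
    have h6 := mul_nonneg (sq_nonneg χ) n2
    rw [p]
    nlinarith

theorem dec_ex (h0 : ∀ a, 0 < μ a) (h1 : ∑ a, μ a = 1) {ρ : Ω → ℝ} {χ : ℝ} {c : Fin K → ℝ}
    (hρ : ∑ a, μ a * ρ a = 1) (hχ : ∀ a, |ρ a - 1| ≤ χ) (F : (Fin K → Ω) → ℝ)
    (h : ∀ m, 4 ≤ c m ∨ (Pr ρ m F ∧ 1 + 4 * χ ^ 2 ≤ c m)) (U : Finset (Fin K)) :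
    ∃ g : Finset (Fin K) → (Fin K → Ω) → ℝ, ∑ S ∈ U.powerset, g S = F ∧
      (∀ S ⊆ U, (∀ m ∈ U, m ∉ S → Ind m (g S)) ∧ (∀ m ∈ S, Zm μ m (g S)) ∧
        ∀ m, m ∉ U → Pr ρ m F → Pr ρ m (g S)) ∧
      ∑ S ∈ U.powerset, 4 ^ S.card * ip μ (g S) (g S) ≤ (∏ m ∈ U, c m) * ip μ F F := by
  induction U using Finset.induction_on with
  | empty => exact ⟨fun _ => F, by simp, fun S hS => by simp_all, by simp⟩
  | insert m U hm ih =>
    obtain ⟨g, e, hg, hb⟩ := ih
    let g' : Finset (Fin K) → (Fin K → Ω) → ℝ := fun S =>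
      if m ∈ S then g (S.erase m) - E μ m (g (S.erase m)) else E μ m (g S)
    have a1 : ∀ S ∈ U.powerset, g' S = E μ m (g S) := fun S hS =>
      if_neg fun k => hm (mem_powerset.1 hS k)
    have a2 : ∀ S ∈ U.powerset, g' (insert m S) = g S - E μ m (g S) := fun S hS => by
      simp only [g', mem_insert_self, if_true, erase_insert fun k => hm (mem_powerset.1 hS k)]
    refine ⟨g', ?_, fun S hS => ?_, ?_⟩
    · rw [sum_powerset_insert hm, sum_congr rfl a1, sum_congr rfl a2, ← sum_add_distrib, ← e]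
      exact sum_congr rfl fun S _ => by simp
    · have hS' : S.erase m ⊆ U := fun a ha => by
        have := mem_insert.1 (hS (mem_of_mem_erase ha))
        exact this.resolve_left (ne_of_mem_erase ha)
      obtain ⟨b1, b2, b3⟩ := hg _ hS'
      by_cases k : m ∈ S
      · simp only [g', k, if_true]
        refine ⟨fun a ha ha' => ?_, fun a ha => ?_, fun a ha hp => ?_⟩
        · have ne : a ≠ m := fun e => ha' (e ▸ k)
          have := b1 a ((mem_insert.1 ha).resolve_left ne) fun q => ha' (mem_of_mem_erase q)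
          exact this.sub (this.E ne)
        · by_cases ne : a = m
          · exact ne ▸ zm_sub h1 _ _
          · have := b2 a (mem_erase.2 ⟨ne, ha⟩)
            exact this.sub (this.E ne)
        · have := b3 a (fun q => ha (mem_insert_of_mem q)) hp
          exact this.sub (this.E fun q => ha (by rw [q]; exact mem_insert_self _ _))
      · simp only [g', k, if_false]
        rw [erase_eq_of_notMem k] at b1 b2 b3
        refine ⟨fun a ha ha' => ?_, fun a ha => (b2 a ha).E fun e => k (by rwa [e] at ha),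
          fun a ha hp => (b3 a (fun q => ha (mem_insert_of_mem q)) hp).E
            fun q => ha (by rw [q]; exact mem_insert_self _ _)⟩
        by_cases ne : a = m
        · exact ne ▸ ind_E _ _
        · exact (b1 a ((mem_insert.1 ha).resolve_left ne) ha').E ne
    · have hc : 0 ≤ c m := by
        rcases h m with q | q
        · linarith
        · nlinarith [q.2, sq_nonneg χ]
      rw [sum_powerset_insert hm, prod_insert hm, mul_assoc, ← sum_add_distrib]
      refine le_trans ?_ (mul_le_mul_of_nonneg_left hb hc)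
      rw [mul_sum]
      refine sum_le_sum fun S hS => ?_
      rw [a1 S hS, a2 S hS, card_insert_of_notMem fun k => hm (mem_powerset.1 hS k)]
      have := step_le h0 h1 hρ hχ m (g S) (c := c m)
        ((h m).imp_right fun q => ⟨(hg S (mem_powerset.1 hS)).2.2 m hm q.1, q.2⟩)
      have := mul_le_mul_of_nonneg_left this (by positivity : (0 : ℝ) ≤ 4 ^ S.card)
      rw [pow_succ]
      linarith

theorem dec_univ (h0 : ∀ a, 0 < μ a) (h1 : ∑ a, μ a = 1) {ρ : Ω → ℝ} {χ : ℝ} {c : Fin K → ℝ}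
    (hρ : ∑ a, μ a * ρ a = 1) (hχ : ∀ a, |ρ a - 1| ≤ χ) (F : (Fin K → Ω) → ℝ)
    (h : ∀ m, 4 ≤ c m ∨ (Pr ρ m F ∧ 1 + 4 * χ ^ 2 ≤ c m)) :
    ∃ g : Finset (Fin K) → (Fin K → Ω) → ℝ, ∑ S, g S = F ∧ (∀ S, Typ μ S (g S)) ∧
      ∑ S, 4 ^ S.card * ip μ (g S) (g S) ≤ (∏ m, c m) * ip μ F F := by
  obtain ⟨g, e, hg, hb⟩ := dec_ex h0 h1 hρ hχ F h univ
  rw [powerset_univ] at e hb
  exact ⟨g, e, fun S => ⟨fun m hm => (hg S (subset_univ _)).1 m (mem_univ _) hm,
    (hg S (subset_univ _)).2.1⟩, hb⟩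

theorem Typ.orth (h1 : ∑ a, μ a = 1) {S S' : Finset (Fin K)} {F G : (Fin K → Ω) → ℝ}
    (hF : Typ μ S F) (hG : Typ μ S' G) (h : S ≠ S') : ip μ F G = 0 := by
  obtain ⟨m, hm⟩ : ∃ m, ¬(m ∈ S ↔ m ∈ S') := by
    by_contra k
    push Not at k
    exact h (Finset.ext k)
  by_cases k : m ∈ S
  · exact ip_zero h1 (hF.2 m k) (hG.1 m (by tauto))
  · rw [ip_comm]
    exact ip_zero h1 (hG.2 m (by tauto)) (hF.1 m k)

theorem ip_sum (h1 : ∑ a, μ a = 1) {g g' : Finset (Fin K) → (Fin K → Ω) → ℝ}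
    (hg : ∀ S, Typ μ S (g S)) (hg' : ∀ S, Typ μ S (g' S)) (A B : Finset (Finset (Fin K))) :
    ip μ (∑ S ∈ A, g S) (∑ S ∈ B, g' S) = ∑ S ∈ A ∩ B, ip μ (g S) (g' S) := by
  simp only [map_sum, LinearMap.sum_apply]
  rw [sum_comm, ← sum_ite_mem]
  refine sum_congr rfl fun S _ => ?_
  rw [← sum_ite_eq B S fun S' => ip μ (g S) (g' S')]
  refine sum_congr rfl fun S' _ => ?_
  split_ifs with k
  · rfl
  · exact (hg S).orth h1 (hg' S') k

omit [Fintype Ω] in
theorem const_of_ind {F : (Fin K → Ω) → ℝ} (h : ∀ m, Ind m F) (x y : Fin K → Ω) : F y = F x := by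
  have : ∀ s : Finset (Fin K), F (s.piecewise y x) = F x := fun s => by
    induction s using Finset.induction_on with
    | empty => simp
    | insert a s _ ih => rw [piecewise_insert, h a, ih]
  simpa using this univ

end Vale.Agent.P308.Mx
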