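import Vale.Agent.P308.Mix1

/-! The pair operator and its form. -/

namespace Vale.Agent.P308.Mx

open Finset Function

variable {Ω T : Type} [Fintype Ω] [Fintype T] {K : ℕ} (μ : Ω → ℝ) (g : T → Ω × Ω → Ω × Ω)

/-- the pair generator -/
noncomputable def hp (Φ : Ω × Ω → ℝ) (s : Ω × Ω) : ℝ :=
  ∑ t, min 1 (μ (g t s).1 * μ (g t s).2 / (μ s.1 * μ s.2)) * (Φ s - Φ (g t s))

/-- the pair form -/
noncomputable def bp (Φ Ψ : Ω × Ω → ℝ) : ℝ := ∑ s, μ s.1 * μ s.2 * (Φ s * hp μ g Ψ s)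

/-- the symmetric weight of a move -/
def mn (t : T) (s : Ω × Ω) : ℝ := min (μ s.1 * μ s.2) (μ (g t s).1 * μ (g t s).2)

/-- the slice of a function -/
def sl (F : (Fin K → Ω) → ℝ) (x : Fin K → Ω) (i l : Fin K) (s : Ω × Ω) : ℝ :=
  F (update (update x i s.1) l s.2)

/-- the generator acting on two coordinates -/
noncomputable def HH (i l : Fin K) : ((Fin K → Ω) → ℝ) →ₗ[ℝ] (Fin K → Ω) → ℝ where
  toFun F x := hp μ g (sl F x i l) (x i, x l)
  map_add' F G := by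
    funext x
    simp only [hp, sl, Pi.add_apply, ← sum_add_distrib]
    exact sum_congr rfl fun t _ => by ring
  map_smul' c F := by
    funext x
    simp only [hp, sl, Pi.smul_apply, smul_eq_mul, RingHom.id_apply, mul_sum]
    exact sum_congr rfl fun t _ => by ring

/-- the form of the generator -/
noncomputable def BB (i l : Fin K) : LinearMap.BilinForm ℝ ((Fin K → Ω) → ℝ) :=
  (ip μ).compl₂ (HH μ g i l)

/-- the standing assumptions -/
structure Hyp (C : ℝ) : Prop where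
  pos : ∀ a, 0 < μ a
  one : ∑ a, μ a = 1
  inv : ∃ ι : T ≃ T, ∀ t s, g (ι t) (g t s) = s
  sw : ∃ t, ∀ s, g t s = s.swap
  gap : ∀ f : Ω → ℝ, ∑ s : Ω × Ω, μ s.1 * μ s.2 * (f s.1 - f s.2) ^ 2 ≤
    C * ∑ t, ∑ s : Ω × Ω, mn μ g t s * (f (g t s).1 + f (g t s).2 - f s.1 - f s.2) ^ 2
  hC : 1 ≤ C

variable {μ g} {C : ℝ}

theorem Hyp.mn_nonneg (h : Hyp μ g C) (t : T) (s : Ω × Ω) : 0 ≤ mn μ g t s :=
  le_min (mul_pos (h.pos _) (h.pos _)).le (mul_pos (h.pos _) (h.pos _)).le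

theorem Hyp.reidx (h : Hyp μ g C) (φ : Ω × Ω → Ω × Ω → ℝ) :
    ∑ t, ∑ s, mn μ g t s * φ s (g t s) = ∑ t, ∑ s, mn μ g t s * φ (g t s) s := by
  obtain ⟨ι, hι⟩ := h.inv
  have inj : Injective fun p : T × Ω × Ω => (ι p.1, g p.1 p.2) := by
    rintro ⟨t, s⟩ ⟨t', s'⟩ e
    simp only [Prod.mk.injEq, EmbeddingLike.apply_eq_iff_eq] at e
    obtain ⟨rfl, e⟩ := e
    rw [← hι t s, e, hι]
  have := (Finite.injective_iff_bijective.1 inj).sum_comp
    fun p : T × Ω × Ω => mn μ g p.1 p.2 * φ p.2 (g p.1 p.2)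
  rw [Fintype.sum_prod_type, Fintype.sum_prod_type] at this
  rw [← this]
  simp only [mn, hι, min_comm]

theorem Hyp.bp_eq (h : Hyp μ g C) (Φ Ψ : Ω × Ω → ℝ) :
    2 * bp μ g Φ Ψ = ∑ t, ∑ s, mn μ g t s * ((Φ (g t s) - Φ s) * (Ψ (g t s) - Ψ s)) := by
  have e : bp μ g Φ Ψ = ∑ t, ∑ s, mn μ g t s * (Φ s * (Ψ s - Ψ (g t s))) := by
    simp only [bp, hp, mul_sum]
    rw [sum_comm]
    refine sum_congr rfl fun t _ => sum_congr rfl fun s _ => ?_
    have p := mul_pos (h.pos s.1) (h.pos s.2)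
    have : mn μ g t s = μ s.1 * μ s.2 * min 1 (μ (g t s).1 * μ (g t s).2 / (μ s.1 * μ s.2)) := by
      rw [mul_min_of_nonneg _ _ p.le, mul_one, mul_div_cancel₀ _ p.ne', mn]
    rw [this]; ring
  have e2 := h.reidx fun s s' => Φ s * (Ψ s - Ψ s')
  rw [two_mul, e]
  nth_rewrite 2 [e2]
  simp only [← sum_add_distrib]
  exact sum_congr rfl fun t _ => sum_congr rfl fun s _ => by ring

theorem Hyp.bp_comm (h : Hyp μ g C) (Φ Ψ : Ω × Ω → ℝ) : bp μ g Φ Ψ = bp μ g Ψ Φ := by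
  have h1 := h.bp_eq Φ Ψ
  have h2 := h.bp_eq Ψ Φ
  simp only [mul_comm (Ψ _ - Ψ _)] at h2
  linarith

theorem Hyp.bp_nonneg (h : Hyp μ g C) (Φ : Ω × Ω → ℝ) : 0 ≤ bp μ g Φ Φ := by
  have h1 := h.bp_eq Φ Φ
  have : 0 ≤ ∑ t, ∑ s, mn μ g t s * ((Φ (g t s) - Φ s) * (Φ (g t s) - Φ s)) :=
    sum_nonneg fun t _ => sum_nonneg fun s _ => mul_nonneg (h.mn_nonneg t s) (mul_self_nonneg _)
  linarith

theorem Hyp.bp_le (h : Hyp μ g C) (Φ : Ω × Ω → ℝ) :
    bp μ g Φ Φ ≤ 2 * Fintype.card T * ∑ s : Ω × Ω, μ s.1 * μ s.2 * (Φ s * Φ s) := by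
  have h1 := h.bp_eq Φ Φ
  have h2 := h.reidx fun s _ => Φ s * Φ s
  have h3 : ∑ t, ∑ s, mn μ g t s * ((Φ (g t s) - Φ s) * (Φ (g t s) - Φ s)) ≤
      2 * ∑ t, ∑ s, mn μ g t s * (Φ s * Φ s) +
        2 * ∑ t, ∑ s, mn μ g t s * (Φ (g t s) * Φ (g t s)) := by
    simp only [mul_sum, ← sum_add_distrib]
    refine sum_le_sum fun t _ => sum_le_sum fun s _ => ?_
    nlinarith [mul_nonneg (h.mn_nonneg t s) (mul_self_nonneg (Φ (g t s) + Φ s))]
  have h4 : ∑ t, ∑ s, mn μ g t s * (Φ s * Φ s) ≤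
      ∑ _t : T, ∑ s : Ω × Ω, μ s.1 * μ s.2 * (Φ s * Φ s) :=
    sum_le_sum fun t _ => sum_le_sum fun s _ =>
      mul_le_mul_of_nonneg_right (min_le_left _ _) (mul_self_nonneg _)
  rw [sum_const, card_univ, nsmul_eq_mul] at h4
  linarith

theorem var_eq (h1 : ∑ a, μ a = 1) {f : Ω → ℝ} (hf : ∑ a, μ a * f a = 0) :
    ∑ s : Ω × Ω, μ s.1 * μ s.2 * (f s.1 - f s.2) ^ 2 = 2 * ∑ a, μ a * f a ^ 2 := by
  have e : ∀ a b, μ a * μ b * (f a - f b) ^ 2 =
      μ a * f a ^ 2 * μ b + μ a * (μ b * f b ^ 2) - 2 * (μ a * f a) * (μ b * f b) := by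
    intro a b; ring
  simp only [Fintype.sum_prod_type, e, sum_sub_distrib, sum_add_distrib, ← mul_sum, ← sum_mul,
    h1, hf]
  ring

theorem Hyp.bp_gap (h : Hyp μ g C) {f f' : Ω → ℝ} (hf : ∑ a, μ a * f a = 0)
    (hf' : ∑ a, μ a * f' a = 0) :
    ∑ a, μ a * f a ^ 2 ≤ 2 * C * (bp μ g (fun s => f s.1 + f' s.2) (fun s => f s.1 + f' s.2) +
      bp μ g (fun s => f' s.1 + f s.2) (fun s => f' s.1 + f s.2)) := by
  have n1 := h.bp_nonneg fun s => f s.1 + f' s.2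
  have n2 := h.bp_nonneg fun s => f' s.1 + f s.2
  have e1 := h.bp_eq (fun s => f s.1 + f' s.2) (fun s => f s.1 + f' s.2)
  have e2 := h.bp_eq (fun s => f' s.1 + f s.2) (fun s => f' s.1 + f s.2)
  have v1 := var_eq h.one (f := fun a => f a + f' a) (by simp [mul_add, sum_add_distrib, hf, hf'])
  have v2 := var_eq h.one (f := fun a => f a - f' a) (by simp [mul_sub, hf, hf'])
  have g1 := h.gap fun a => f a + f' a
  have g2 : ∑ t, ∑ s : Ω × Ω, mn μ g t s * (f (g t s).1 + f' (g t s).1 +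
      (f (g t s).2 + f' (g t s).2) - (f s.1 + f' s.1) - (f s.2 + f' s.2)) ^ 2 ≤
      2 * (2 * bp μ g (fun s => f s.1 + f' s.2) (fun s => f s.1 + f' s.2)) +
      2 * (2 * bp μ g (fun s => f' s.1 + f s.2) (fun s => f' s.1 + f s.2)) := by
    rw [e1, e2]
    simp only [mul_sum, ← sum_add_distrib]
    refine sum_le_sum fun t _ => sum_le_sum fun s _ => ?_
    nlinarith [mul_nonneg (h.mn_nonneg t s) (mul_self_nonneg
      (f (g t s).1 + f' (g t s).2 - (f s.1 + f' s.2) -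
        (f' (g t s).1 + f (g t s).2 - (f' s.1 + f s.2))))]
  obtain ⟨t0, ht⟩ := h.sw
  have g3 : ∑ s : Ω × Ω, μ s.1 * μ s.2 * (f s.1 - f' s.1 - (f s.2 - f' s.2)) ^ 2 ≤
      2 * bp μ g (fun s => f s.1 + f' s.2) (fun s => f s.1 + f' s.2) := by
    rw [e1]
    refine le_trans (le_of_eq ?_) (single_le_sum (fun t _ => sum_nonneg fun s _ =>
      mul_nonneg (h.mn_nonneg t s) (mul_self_nonneg _)) (mem_univ t0))
    refine sum_congr rfl fun s _ => ?_
    simp only [mn, ht, Prod.fst_swap, Prod.snd_swap, mul_comm (μ s.2), min_self]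
    ring
  have g4 : 2 * ∑ a, μ a * f a ^ 2 ≤ ∑ a, μ a * (f a + f' a) ^ 2 + ∑ a, μ a * (f a - f' a) ^ 2 := by
    simp only [mul_sum, ← sum_add_distrib]
    exact sum_le_sum fun a _ => by nlinarith [mul_nonneg (h.pos a).le (sq_nonneg (f' a))]
  have c0 : 0 ≤ C := by linarith [h.hC]
  have g5 := mul_le_mul_of_nonneg_left g2 c0
  nlinarith [mul_le_mul_of_nonneg_right h.hC n1, mul_nonneg c0 n2]

theorem slice2 (h1 : ∑ a, μ a = 1) (i l : Fin K) (Φ : (Fin K → Ω) → ℝ) :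
    ∑ x, w μ x * Φ x = ∑ x, w μ x * ∑ s : Ω × Ω, μ s.1 * μ s.2 * sl Φ x i l s := by
  rw [slice h1 l, slice h1 i]
  simp only [E, sl, Fintype.sum_prod_type, mul_sum, mul_assoc]

theorem BB_apply (i l : Fin K) (F G : (Fin K → Ω) → ℝ) :
    BB μ g i l F G = ip μ F (HH μ g i l G) := rfl

theorem BB_eq (h1 : ∑ a, μ a = 1) {i l : Fin K} (hil : i ≠ l) (F G : (Fin K → Ω) → ℝ) :
    BB μ g i l F G = ∑ x, w μ x * bp μ g (sl F x i l) (sl G x i l) := by
  have := slice2 h1 i l fun x => F x * HH μ g i l G x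
  simp only [← mul_assoc] at this
  rw [BB_apply, ip_apply, this]
  refine sum_congr rfl fun x _ => congrArg _ (sum_congr rfl fun s _ => congrArg _ ?_)
  have e : sl G (update (update x i s.1) l s.2) i l = sl G x i l := by
    funext s'
    simp only [sl, update_comm hil.symm, update_idem]
  show F _ * hp μ g (sl G _ i l) _ = _
  rw [e, update_of_ne hil, update_self, update_self]
  rfl

theorem Hyp.BB_comm (h : Hyp μ g C) {i l : Fin K} (hil : i ≠ l) (F G : (Fin K → Ω) → ℝ) :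
    BB μ g i l F G = BB μ g i l G F := by
  simp only [BB_eq h.one hil, h.bp_comm (sl F _ i l)]

theorem Hyp.BB_nonneg (h : Hyp μ g C) {i l : Fin K} (hil : i ≠ l) (F : (Fin K → Ω) → ℝ) :
    0 ≤ BB μ g i l F F := by
  rw [BB_eq h.one hil]
  exact sum_nonneg fun x _ => mul_nonneg (w_nonneg h.pos x) (h.bp_nonneg _)

theorem Hyp.BB_le (h : Hyp μ g C) {i l : Fin K} (hil : i ≠ l) (F : (Fin K → Ω) → ℝ) :
    BB μ g i l F F ≤ 2 * Fintype.card T * ip μ F F := by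
  have := slice2 h.one i l fun x => F x * F x
  simp only [← mul_assoc] at this
  rw [BB_eq h.one hil, ip_apply, this, mul_sum]
  refine sum_le_sum fun x _ => ?_
  rw [mul_left_comm]
  exact mul_le_mul_of_nonneg_left (h.bp_le _) (w_nonneg h.pos x)

theorem Hyp.BB_gap (h : Hyp μ g C) {i l : Fin K} (hil : i ≠ l) {F G : (Fin K → Ω) → ℝ}
    (hF : Zm μ i F) (hF' : Ind l F) (hG : Zm μ l G) (hG' : Ind i G) :
    ip μ F F ≤ 2 * C * (BB μ g i l (F + G) (F + G) + BB μ g l i (F + G) (F + G)) := by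
  have := slice h.one i fun x => F x * F x
  simp only [← mul_assoc] at this
  rw [BB_eq h.one hil, BB_eq h.one hil.symm, ip_apply, this, ← sum_add_distrib, mul_sum]
  refine sum_le_sum fun x _ => ?_
  rw [← mul_add, mul_left_comm]
  refine mul_le_mul_of_nonneg_left ?_ (w_nonneg h.pos x)
  have e1 : sl (F + G) x i l = fun s => F (update x i s.1) + G (update x l s.2) := by
    funext s
    simp only [sl, Pi.add_apply, hF' _ s.2]
    rw [update_comm hil, hG' _ s.1]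
  have e2 : sl (F + G) x l i = fun s => G (update x l s.1) + F (update x i s.2) := by
    funext s
    simp only [sl, Pi.add_apply, hG' _ s.2]
    rw [update_comm hil.symm, hF' _ s.1, add_comm]
  rw [e1, e2]
  simpa only [E, sq] using h.bp_gap (hF x) (hG x)

omit [Fintype Ω] in
theorem HH_ind {i l m : Fin K} (hi : m ≠ i) (hl : m ≠ l) {G : (Fin K → Ω) → ℝ} (hG : Ind m G) :
    Ind m (HH μ g i l G) := fun x a => by
  have e : sl G (update x m a) i l = sl G x i l := by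
    funext s
    simp only [sl, update_comm hi, update_comm hl, hG _ a]
  show hp μ g _ _ = hp μ g _ _
  rw [e, update_of_ne hi.symm, update_of_ne hl.symm]

omit [Fintype Ω] in
theorem HH_zero {i l : Fin K} {G : (Fin K → Ω) → ℝ} (hi : Ind i G) (hl : Ind l G) :
    HH μ g i l G = 0 := by
  funext x
  show hp μ g _ _ = 0
  simp [hp, sl, hi x, hl _]

/-- vanishing of the form between components -/
theorem Hyp.BB_van (h : Hyp μ g C) {i l : Fin K} (hil : i ≠ l) {S S' : Finset (Fin K)}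
    {F G : (Fin K → Ω) → ℝ} (hF : Typ μ S F) (hG : Typ μ S' G) (hne : BB μ g i l F G ≠ 0) :
    (S.erase i).erase l = (S'.erase i).erase l ∧ (i ∈ S ∨ l ∈ S) ∧ (i ∈ S' ∨ l ∈ S') := by
  refine ⟨?_, ?_, ?_⟩
  · ext m
    simp only [mem_erase]
    refine and_congr_right fun hl => and_congr_right fun hi => ?_
    by_contra k
    apply hne
    by_cases q : m ∈ S
    · exact ip_zero h.one (hF.2 m q) (HH_ind hi hl (hG.1 m (by tauto)))
    · rw [h.BB_comm hil]
      exact ip_zero h.one (hG.2 m (by tauto)) (HH_ind hi hl (hF.1 m q))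
  · by_contra k
    push Not at k
    apply hne
    rw [h.BB_comm hil, BB_apply, HH_zero (hF.1 i k.1) (hF.1 l k.2), map_zero]
  · by_contra k
    push Not at k
    apply hne
    rw [BB_apply, HH_zero (hG.1 i k.1) (hG.1 l k.2), map_zero]

end Vale.Agent.P308.Mx
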