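import Vale.Agent.P308.Mix2

/-! Diagonal and off-diagonal bounds for the generator. -/

namespace Vale.Agent.P308.Mx

open Finset Function

variable {Ω T : Type} [Fintype Ω] [Fintype T] {K : ℕ} {μ : Ω → ℝ} {g : T → Ω × Ω → Ω × Ω} {C : ℝ}

/-- the form of one ordered pair -/
noncomputable def B1 (μ : Ω → ℝ) (g : T → Ω × Ω → Ω × Ω) (p : Fin K × Fin K) :
    LinearMap.BilinForm ℝ ((Fin K → Ω) → ℝ) := if p.1 = p.2 then 0 else BB μ g p.1 p.2

/-- the form of the whole generator -/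
noncomputable def BT (μ : Ω → ℝ) (g : T → Ω × Ω → Ω × Ω) (θ : ℝ) :
    LinearMap.BilinForm ℝ ((Fin K → Ω) → ℝ) := θ • ∑ p, B1 μ g p

theorem BT_apply (θ : ℝ) (F G : (Fin K → Ω) → ℝ) : BT μ g θ F G = θ * ∑ p, B1 μ g p F G := by
  simp [BT, LinearMap.sum_apply]

theorem Hyp.B1_comm (h : Hyp μ g C) (p : Fin K × Fin K) (F G : (Fin K → Ω) → ℝ) :
    B1 μ g p F G = B1 μ g p G F := by
  unfold B1; split_ifs with k
  · rfl
  · exact h.BB_comm k F G

theorem Hyp.B1_nonneg (h : Hyp μ g C) (p : Fin K × Fin K) (F : (Fin K → Ω) → ℝ) :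
    0 ≤ B1 μ g p F F := by
  unfold B1; split_ifs with k
  · rfl
  · exact h.BB_nonneg k F

theorem Hyp.B1_le (h : Hyp μ g C) (p : Fin K × Fin K) (F : (Fin K → Ω) → ℝ) :
    B1 μ g p F F ≤ 2 * Fintype.card T * ip μ F F := by
  unfold B1; split_ifs with k
  · exact mul_nonneg (by positivity) (ip_nonneg h.pos F)
  · exact h.BB_le k F

theorem cs {V : Type} [AddCommGroup V] [Module ℝ V] (B : LinearMap.BilinForm ℝ V)
    (h0 : ∀ x, 0 ≤ B x x) (h1 : ∀ x y, B x y = B y x) {x y : V} {a b c : ℝ} (hc : 0 ≤ c)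
    (hx : B x x ≤ c * a) (hy : B y y ≤ c * b) (ha : 0 ≤ a) : |B x y| ≤ c * (√a * √b) := by
  have h2 := B.apply_mul_apply_le_of_forall_zero_le h0 x y
  rw [h1 y x] at h2
  rw [← Real.sqrt_mul ha, ← Real.sqrt_sq hc, ← Real.sqrt_mul (sq_nonneg _)]
  refine Real.abs_le_sqrt ?_
  have := mul_le_mul hx hy (h0 y) (mul_nonneg hc ha)
  linarith

theorem card_ee {i l : Fin K} (h : i ≠ l) (S : Finset (Fin K)) :
    S.card = ((S.erase i).erase l).card + (if i ∈ S then 1 else 0) + if l ∈ S then 1 else 0 := by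
  have h1 : S.card = (S.erase i).card + if i ∈ S then 1 else 0 := by
    split_ifs with k
    · rw [card_erase_add_one k]
    · rw [erase_eq_of_notMem k, add_zero]
  have h2 : (S.erase i).card = ((S.erase i).erase l).card + if l ∈ S then 1 else 0 := by
    split_ifs with k
    · rw [card_erase_add_one (mem_erase.2 ⟨h.symm, k⟩)]
    · rw [erase_eq_of_notMem fun q => k (mem_of_mem_erase q), add_zero]
  omega

variable {f f' : Finset (Fin K) → (Fin K → Ω) → ℝ}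

theorem Hyp.B1_restr (h : Hyp μ g C) (hf : ∀ S, Typ μ S (f S)) (hf' : ∀ S, Typ μ S (f' S))
    (p : Fin K × Fin K) (A' A : Finset (Finset (Fin K))) (P' P : Finset (Fin K) → Prop)
    [DecidablePred P'] [DecidablePred P]
    (H : ∀ S' ∈ A', ∀ S ∈ A, (p.1 ∈ S' ∨ p.2 ∈ S') → (p.1 ∈ S ∨ p.2 ∈ S) →
      S'.card + (if p.1 ∈ S then 1 else 0) + (if p.2 ∈ S then 1 else 0) =
        S.card + (if p.1 ∈ S' then 1 else 0) + (if p.2 ∈ S' then 1 else 0) → P' S' ∧ P S) :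
    B1 μ g p (∑ S ∈ A', f' S) (∑ S ∈ A, f S) =
      B1 μ g p (∑ S ∈ A' with P' S, f' S) (∑ S ∈ A with P S, f S) := by
  unfold B1; split_ifs with k
  · rfl
  simp only [map_sum, LinearMap.sum_apply]
  simp only [sum_filter]
  refine sum_congr rfl fun S hS => ?_
  by_cases q : P S
  · rw [if_pos q]
    refine sum_congr rfl fun S' hS' => ?_
    split_ifs with q'
    · rfl
    · by_contra hne
      obtain ⟨e, a, b⟩ := h.BB_van k (hf' S') (hf S) hne
      have c1 := card_ee k S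
      have c2 := card_ee k S'
      rw [e] at c2
      exact q' (H S' hS' S hS a b (by omega)).1
  · rw [if_neg q]
    refine sum_eq_zero fun S' hS' => ?_
    by_contra hne
    obtain ⟨e, a, b⟩ := h.BB_van k (hf' S') (hf S) hne
    have c1 := card_ee k S
    have c2 := card_ee k S'
    rw [e] at c2
    exact q (H S' hS' S hS a b (by omega)).2

theorem Hyp.B1_low (h : Hyp μ g C) (hf : ∀ S, Typ μ S (f S)) (p : Fin K × Fin K)
    {A : Finset (Finset (Fin K))} {d : ℕ} (hA : ∀ S ∈ A, S.card = d) :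
    B1 μ g p (∑ S ∈ A with ¬(p.1 ∈ S ↔ p.2 ∈ S), f S) (∑ S ∈ A with ¬(p.1 ∈ S ↔ p.2 ∈ S), f S) ≤
      B1 μ g p (∑ S ∈ A, f S) (∑ S ∈ A, f S) := by
  have z := h.B1_restr hf hf p (A.filter fun S => (p.1 ∈ S ↔ p.2 ∈ S))
    (A.filter fun S => ¬(p.1 ∈ S ↔ p.2 ∈ S)) (fun _ => False) (fun _ => False)
    fun S' hS' S hS a b c => by
      rw [mem_filter] at hS hS'
      rw [hA _ hS.1, hA _ hS'.1] at c
      have := hS.2
      have := hS'.2
      split_ifs at c <;> first | omega | tauto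
  rw [filter_false, sum_empty, map_zero, LinearMap.zero_apply] at z
  have z' := z
  rw [h.B1_comm] at z'
  rw [← sum_filter_add_sum_filter_not A fun S => (p.1 ∈ S ↔ p.2 ∈ S)]
  simp only [map_add, LinearMap.add_apply, z, z']
  linarith [h.B1_nonneg p (∑ S ∈ A with (p.1 ∈ S ↔ p.2 ∈ S), f S)]

theorem Hyp.B1_gap (h : Hyp μ g C) (hf : ∀ S, Typ μ S (f S)) (p : Fin K × Fin K)
    {A : Finset (Finset (Fin K))} {d : ℕ} (hA : ∀ S ∈ A, S.card = d) :
    ∑ S ∈ A with p.1 ∈ S ∧ p.2 ∉ S, ip μ (f S) (f S) ≤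
      2 * C * (B1 μ g p (∑ S ∈ A, f S) (∑ S ∈ A, f S) +
        B1 μ g p.swap (∑ S ∈ A, f S) (∑ S ∈ A, f S)) := by
  have c0 : 0 ≤ 2 * C := by linarith [h.hC]
  by_cases k : p.1 = p.2
  · rw [filter_false_of_mem fun S _ => by simp [k], sum_empty]
    exact mul_nonneg c0 (add_nonneg (h.B1_nonneg _ _) (h.B1_nonneg _ _))
  refine le_trans ?_ (mul_le_mul_of_nonneg_left (add_le_add (h.B1_low hf p hA)
    (h.B1_low hf p.swap hA)) c0)
  have e : ∀ i l : Fin K, ∑ S ∈ A with ¬(i ∈ S ↔ l ∈ S), f S =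
      ∑ S ∈ A with i ∈ S ∧ l ∉ S, f S + ∑ S ∈ A with l ∈ S ∧ i ∉ S, f S := by
    intro i l
    simp only [sum_filter, ← sum_add_distrib]
    refine sum_congr rfl fun S _ => ?_
    by_cases a : i ∈ S <;> by_cases b : l ∈ S <;> simp [a, b]
  have := h.BB_gap k (F := ∑ S ∈ A with p.1 ∈ S ∧ p.2 ∉ S, f S)
    (G := ∑ S ∈ A with p.2 ∈ S ∧ p.1 ∉ S, f S)
    (zm_sum _ fun S hS => (hf S).2 _ (mem_filter.1 hS).2.1)
    (ind_sum _ fun S hS => (hf S).1 _ (mem_filter.1 hS).2.2)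
    (zm_sum _ fun S hS => (hf S).2 _ (mem_filter.1 hS).2.1)
    (ind_sum _ fun S hS => (hf S).1 _ (mem_filter.1 hS).2.2)
  rw [ip_sum h.one hf hf, inter_self] at this
  simp only [B1, Prod.fst_swap, Prod.snd_swap, k, Ne.symm k, if_false, e]
  rwa [add_comm (∑ S ∈ A with p.2 ∈ S ∧ p.1 ∉ S, f S)]

theorem sum_pairs (A : Finset (Finset (Fin K))) (n : Finset (Fin K) → ℝ)
    (P : Fin K × Fin K → Finset (Fin K) → Prop) [∀ p, DecidablePred (P p)] :
    ∑ p, ∑ S ∈ A with P p S, n S =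
      ∑ S ∈ A, ((univ.filter fun p => P p S).card : ℝ) * n S := by
  simp only [sum_filter]
  rw [sum_comm]
  refine sum_congr rfl fun S _ => ?_
  rw [← sum_filter, sum_const, nsmul_eq_mul]

theorem Hyp.diag (h : Hyp μ g C) (hf : ∀ S, Typ μ S (f S)) {θ : ℝ} (hθ : 0 ≤ θ)
    {A : Finset (Finset (Fin K))} {d : ℕ} (hA : ∀ S ∈ A, S.card = d) (h1 : 1 ≤ d)
    (h2 : 2 * d ≤ K) : θ * K / C / 8 * ∑ S ∈ A, ip μ (f S) (f S) ≤
      BT μ g θ (∑ S ∈ A, f S) (∑ S ∈ A, f S) := by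
  have s := sum_le_sum fun p (_ : p ∈ (univ : Finset (Fin K × Fin K))) => h.B1_gap hf p hA
  have sw := (Equiv.prodComm _ _).sum_comp fun p => B1 μ g p (∑ S ∈ A, f S) (∑ S ∈ A, f S)
  simp only [Equiv.prodComm_apply] at sw
  rw [sum_pairs, ← mul_sum, sum_add_distrib, sw] at s
  have c : (K : ℝ) / 2 * ∑ S ∈ A, ip μ (f S) (f S) ≤ ∑ S ∈ A,
      ((univ.filter fun p : Fin K × Fin K => p.1 ∈ S ∧ p.2 ∉ S).card : ℝ) * ip μ (f S) (f S) := by
    rw [mul_sum]
    refine sum_le_sum fun S hS => mul_le_mul_of_nonneg_right ?_ (ip_nonneg h.pos _)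
    have : (univ.filter fun p : Fin K × Fin K => p.1 ∈ S ∧ p.2 ∉ S) = S ×ˢ Sᶜ := by
      ext p; simp
    rw [this, card_product, card_compl, hA S hS, Fintype.card_fin]
    have : K ≤ d * (K - d) * 2 := by
      have := Nat.mul_le_mul_right (K - d) h1
      omega
    rw [div_le_iff₀ two_pos]
    exact_mod_cast this
  have c0 : 0 < C := by linarith [h.hC]
  rw [BT_apply, mul_div_assoc, mul_div_assoc, mul_assoc]
  refine mul_le_mul_of_nonneg_left ?_ hθ
  rw [div_div, div_mul_eq_mul_div, div_le_iff₀ (by positivity)]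
  linarith

theorem Hyp.off (h : Hyp μ g C) (hf : ∀ S, Typ μ S (f S)) (hf' : ∀ S, Typ μ S (f' S)) {θ : ℝ}
    (hθ : 0 ≤ θ) {A' A : Finset (Finset (Fin K))} {d : ℕ} (hA' : ∀ S ∈ A', d < S.card)
    (hA : ∀ S ∈ A, S.card = d) : |BT μ g θ (∑ S ∈ A', f' S) (∑ S ∈ A, f S)| ≤
      θ * (2 * Fintype.card T) * (√((d + 1) ^ 2 * ∑ S ∈ A' with S.card = d + 1,
        ip μ (f' S) (f' S)) * √(2 * d * K * ∑ S ∈ A, ip μ (f S) (f S))) := by
  have b : ∀ p : Fin K × Fin K, |B1 μ g p (∑ S ∈ A', f' S) (∑ S ∈ A, f S)| ≤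
      2 * Fintype.card T * (√(∑ S ∈ A' with (p.1 ∈ S ∧ p.2 ∈ S) ∧ S.card = d + 1,
        ip μ (f' S) (f' S)) * √(∑ S ∈ A with p.1 ∈ S ∨ p.2 ∈ S, ip μ (f S) (f S))) := by
    intro p
    rw [h.B1_restr hf hf' p A' A (fun S => (p.1 ∈ S ∧ p.2 ∈ S) ∧ S.card = d + 1)
      (fun S => p.1 ∈ S ∨ p.2 ∈ S) fun S' hS' S hS a b c => by
        have := hA' _ hS'
        rw [hA _ hS] at c
        refine ⟨?_, b⟩
        split_ifs at c <;> first | omega | tauto | exact ⟨by tauto, by omega⟩]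
    refine cs _ (h.B1_nonneg p) (h.B1_comm p) (by positivity) ?_ ?_
      (sum_nonneg fun S _ => ip_nonneg h.pos _)
    · simpa only [ip_sum h.one hf' hf', inter_self] using h.B1_le p (∑ S ∈ _, f' S)
    · simpa only [ip_sum h.one hf hf, inter_self] using h.B1_le p (∑ S ∈ _, f S)
  rw [BT_apply, abs_mul, abs_of_nonneg hθ, mul_assoc]
  refine mul_le_mul_of_nonneg_left ((abs_sum_le_sum_abs _ _).trans
    ((sum_le_sum fun p _ => b p).trans ?_)) hθ
  rw [← mul_sum]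
  refine mul_le_mul_of_nonneg_left ((Real.sum_sqrt_mul_sqrt_le _
    (fun p => sum_nonneg fun S _ => ip_nonneg h.pos _)
    (fun p => sum_nonneg fun S _ => ip_nonneg h.pos _)).trans ?_) (by positivity)
  refine mul_le_mul (Real.sqrt_le_sqrt ?_) (Real.sqrt_le_sqrt ?_) (Real.sqrt_nonneg _)
    (Real.sqrt_nonneg _)
  · rw [sum_pairs, mul_sum, sum_filter]
    refine sum_le_sum fun S hS => ?_
    split_ifs with k
    · have : (univ.filter fun p : Fin K × Fin K => (p.1 ∈ S ∧ p.2 ∈ S) ∧ S.card = d + 1) =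
          S ×ˢ S := by
        ext p; simp [k]
      rw [this, card_product, k]
      push_cast
      exact le_of_eq (by ring)
    · simp [k]
  · rw [sum_pairs, mul_sum]
    refine sum_le_sum fun S hS => mul_le_mul_of_nonneg_right ?_ (ip_nonneg h.pos _)
    have : (univ.filter fun p : Fin K × Fin K => p.1 ∈ S ∨ p.2 ∈ S) = S ×ˢ univ ∪ univ ×ˢ S := by
      ext p; simp
    rw [this]
    have := card_union_le (S ×ˢ (univ : Finset (Fin K))) (univ ×ˢ S)
    rw [card_product, card_product, hA S hS, card_univ, Fintype.card_fin] at this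
    have h2 : ((S ×ˢ univ ∪ univ ×ˢ S).card : ℝ) ≤ (d * K + K * d : ℕ) := by exact_mod_cast this
    push_cast at h2
    linarith

end Vale.Agent.P308.Mx
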