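import Vale.Agent.P308.Spec

/-!
The Ptolemy inequality for the normalised edge weights and the tree potential.
-/

namespace Vale.Agent.P308.Pot

open Finset

section ptol

variable {V : Type} [Fintype V] [DecidableEq V] {r : V → V → ℝ}

theorem flip_sum (hr : Sym r) (x : V) (A B : Finset (PM V × PM V)) (τ : PM V × PM V → V)
    {c1 c2 : ℝ} (hc : 0 ≤ c1)
    (h : ∀ s ∈ A, ∃ j, Ok s.1.1 s.2.1 x (2 * j + 1) ∧ wk s.1.1 s.2.1 x (2 * j) = τ (flP x j s) ∧
      flP x j s ∈ B ∧ ww r (flP x j s) * c1 = ww r s * c2) :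
    (∑ s ∈ A, ww r s) * c2 ≤ (∑ s ∈ B, ww r s) * c1 := by
  classical
  choose! j h1 h2 h3 h4 using h
  have key : ∀ s ∈ A, Ok (flP x (j s) s).1.1 (flP x (j s) s).2.1 x (2 * j s + 1) ∧
      wk (flP x (j s) s).1.1 (flP x (j s) s).2.1 x (2 * j s) = τ (flP x (j s) s) := by
    intro s hs
    obtain ⟨e1, e2⟩ := flP_ok (h1 s hs)
    obtain ⟨k1, -, k3⟩ := (h1 s hs).flip s.1.2 s.2.2
    rw [e1, e2, k3]
    exact ⟨k1, h2 s hs⟩
  have inj : Set.InjOn (fun s => flP x (j s) s) A := by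
    intro s hs s' hs' e
    have e' : flP x (j s) s = flP x (j s') s' := e
    obtain ⟨a1, a2⟩ := key s hs
    obtain ⟨b1, b2⟩ := key s' hs'
    rw [← e'] at b1 b2
    have : j s = j s' := by
      rcases le_total (j s) (j s') with c | c
      · have := ok_iff.1 b1 _ (by omega) _ (by omega) (a2.trans b2.symm)
        omega
      · have := ok_iff.1 a1 _ (by omega) _ (by omega) (a2.trans b2.symm)
        omega
    rw [← flP_flP x (j s) s, e', this, flP_flP]
  rw [sum_mul, ← sum_congr rfl h4, ← sum_mul]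
  refine mul_le_mul_of_nonneg_right ?_ hc
  rw [← sum_image (f := ww r) inj]
  refine sum_le_sum_of_subset_of_nonneg (fun u hu => ?_) fun u _ _ =>
    (mul_pos (wt_pos hr.1 _) (wt_pos hr.1 _)).le
  obtain ⟨s, hs, rfl⟩ := mem_image.1 hu
  exact h3 s hs

/-- Weight of the matchings through an edge. -/
noncomputable def NN (r : V → V → ℝ) (u v : V) : ℝ := ∑ π : PM V with π.1 u = v, wt r π.1

theorem NN_symm (u v : V) : NN r u v = NN r v u :=
  sum_congr (filter_congr fun π _ => π.2.eq_iff) fun _ _ => rfl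

theorem sum_pair (P Q : PM V → Prop) [DecidablePred P] [DecidablePred Q] :
    ∑ s : PM V × PM V with (P s.1 ∧ Q s.2), ww r s =
      (∑ π : PM V with P π, wt r π.1) * ∑ π : PM V with Q π, wt r π.1 := by
  rw [sum_mul_sum, ← sum_product', ← filter_product, univ_product_univ]
  rfl

theorem four (hr : Sym r) {x y w o : V} (hw : x ≠ o) :
    (∑ π : PM V with (π.1 x = w ∧ π.1 y = o), wt r π.1) * (r x o ^ 2 * r y w ^ 2) ≤
      (∑ π : PM V, wt r π.1) * (r x w ^ 2 * r y o ^ 2) := by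
  have e : ∀ π ∈ univ.filter (fun π : PM V => π.1 x = w ∧ π.1 y = o),
      wt r π.1 * (r x o ^ 2 * r y w ^ 2) = wt r (cjP w o π).1 * (r x w ^ 2 * r y o ^ 2) := by
    intro π hπ
    obtain ⟨h1, h2⟩ := (mem_filter.1 hπ).2
    have h3 := π.2.eq_iff.1 h1
    have h4 := π.2.eq_iff.1 h2
    have := wt_cj hr.2 (u := w) (v := o) π.2 (by rwa [h3])
    rw [h3, h4, hr.2 w x, hr.2 o y, hr.2 o x, hr.2 w y] at this
    exact this.symm
  rw [sum_mul, sum_congr rfl e, ← sum_mul]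
  refine mul_le_mul_of_nonneg_right ?_ (by positivity)
  have inj : Set.InjOn (cjP w o) (univ.filter (fun π : PM V => π.1 x = w ∧ π.1 y = o)) :=
    fun a _ b _ h => by rw [← cjP_cjP w o a, h, cjP_cjP]
  rw [← sum_image (f := fun π : PM V => wt r π.1) inj]
  exact sum_le_sum_of_subset_of_nonneg (subset_univ _) fun u _ _ => (wt_pos hr.1 _).le

theorem ptol (hr : Sym r) {x y w o : V} (hxo : x ≠ o) (hyw : y ≠ w) :
    NN r y o * NN r x w / (r y o ^ 2 * r x w ^ 2) ≤
      NN r y w * NN r x o / (r x o ^ 2 * r y w ^ 2) +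
      NN r o w * NN r x y / (r x y ^ 2 * r o w ^ 2) +
      (∑ π : PM V, wt r π.1) ^ 2 / (r x o ^ 2 * r y w ^ 2) := by
  classical
  have pos : ∀ u v, 0 < r u v ^ 2 := fun u v => pow_pos (hr.1 u v) 2
  let R : V → PM V × PM V → Prop := fun t s =>
    ∃ j, Ok s.1.1 s.2.1 x (2 * j + 1) ∧ wk s.1.1 s.2.1 x (2 * j) = t
  let Ω : Finset (PM V × PM V) := univ.filter fun s => s.1.1 y = o ∧ s.2.1 x = w
  have wf : ∀ (s : PM V × PM V) j, Ok s.1.1 s.2.1 x (2 * j + 1) →
      (flP x j s).1.1 (wk s.1.1 s.2.1 x (2 * j)) = s.2.1 x ∧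
      (flP x j s).2.1 x = s.1.1 (wk s.1.1 s.2.1 x (2 * j)) ∧
      ww r (flP x j s) * (r (wk s.1.1 s.2.1 x (2 * j)) (s.1.1 (wk s.1.1 s.2.1 x (2 * j))) ^ 2 *
        r x (s.2.1 x) ^ 2) = ww r s * (r x (s.1.1 (wk s.1.1 s.2.1 x (2 * j))) ^ 2 *
        r (wk s.1.1 s.2.1 x (2 * j)) (s.2.1 x) ^ 2) := by
    intro s j h
    obtain ⟨e1, e2⟩ := flP_ok h
    unfold ww
    rw [e1, e2, mul_comm (wt r (fb _ _ _ _))]
    exact ⟨sp_head, sp_head, (h.arc s.1.2 s.2.2).wt hr.1 hr.2 s.1.2 s.2.2⟩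
  have i1 := flip_sum hr x (Ω.filter (R y)) (univ.filter fun s => s.1.1 y = w ∧ s.2.1 x = o)
    (fun _ => y) (c1 := r y o ^ 2 * r x w ^ 2) (c2 := r x o ^ 2 * r y w ^ 2) (by positivity) (by
      intro s hs
      obtain ⟨hs, j, h1, h2⟩ := mem_filter.1 hs
      obtain ⟨h3, h4⟩ := (mem_filter.1 hs).2
      obtain ⟨k1, k2, k3⟩ := wf s j h1
      rw [h2, h4] at k1
      rw [h2, h3] at k2
      rw [h2, h3, h4] at k3
      exact ⟨j, h1, h2, mem_filter.2 ⟨mem_univ _, k1, k2⟩, k3⟩)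
  have i2 := flip_sum hr x (Ω.filter (R o)) (univ.filter fun s => s.1.1 o = w ∧ s.2.1 x = y)
    (fun _ => o) (c1 := r y o ^ 2 * r x w ^ 2) (c2 := r x y ^ 2 * r o w ^ 2) (by positivity) (by
      intro s hs
      obtain ⟨hs, j, h1, h2⟩ := mem_filter.1 hs
      obtain ⟨h3, h4⟩ := (mem_filter.1 hs).2
      have h5 := s.1.2.eq_iff.1 h3
      obtain ⟨k1, k2, k3⟩ := wf s j h1
      rw [h2, h4] at k1
      rw [h2, h5] at k2
      rw [h2, h5, h4, hr.2 o y] at k3
      exact ⟨j, h1, h2, mem_filter.2 ⟨mem_univ _, k1, k2⟩, k3⟩)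
  have i3 := flip_sum hr x (Ω.filter fun s => ¬ R y s ∧ ¬ R o s)
    (univ.filter fun s => True ∧ (s.2.1 x = w ∧ s.2.1 y = o))
    (fun u => u.1.1 w) (c1 := 1) (c2 := 1) zero_le_one (by
      intro s hs
      obtain ⟨hs, n1, n2⟩ := mem_filter.1 hs
      obtain ⟨h3, h4⟩ := (mem_filter.1 hs).2
      obtain ⟨j, h1, h2⟩ := exists_cyc s.1.2 s.2.2 x
      obtain ⟨k1, k2, k3⟩ := wf s j h1
      rw [← h2, h4] at k2 k3
      rw [h4] at k1 h2
      refine ⟨j, h1, ((flP x j s).1.2.eq_iff.1 k1).symm, mem_filter.2 ⟨mem_univ _, trivial, k2, ?_⟩,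
        ?_⟩
      · rw [(flP_ok h1).2, fa, (h1.arc s.1.2 s.2.2).sp_out ?_ (by rwa [← h2]), h3]
        intro hy
        obtain ⟨i, hi, e⟩ := mem_ws.1 hy
        rcases Nat.mod_two_eq_zero_or_one i with c | c
        · refine n1 ⟨i / 2, h1.mono (by omega), ?_⟩
          rw [show 2 * (i / 2) = i by omega, e]
        · refine n2 ⟨i / 2, h1.mono (by omega), ?_⟩
          rw [show i = 2 * (i / 2) + 1 by omega, wk_last] at e
          rw [← h3, ← e, (s.1.2 _).1]
      · rw [mul_comm (r x w ^ 2)] at k3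
        rw [mul_right_cancel₀ (mul_pos (pos _ _) (pos _ _)).ne' k3])
  have i4 := four hr (y := y) (w := w) hxo
  rw [sum_pair (fun π => π.1 y = w) (fun π => π.1 x = o)] at i1
  rw [sum_pair (fun π => π.1 o = w) (fun π => π.1 x = y)] at i2
  rw [sum_pair (fun _ => True) (fun π => π.1 x = w ∧ π.1 y = o), filter_true, mul_one,
    mul_one] at i3
  have i0 : NN r y o * NN r x w ≤ ∑ s ∈ Ω.filter (R y), ww r s + ∑ s ∈ Ω.filter (R o), ww r s +
      ∑ s ∈ Ω.filter (fun s => ¬ R y s ∧ ¬ R o s), ww r s := by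
    have e : NN r y o * NN r x w = ∑ s ∈ Ω, ww r s :=
      (sum_pair (fun π => π.1 y = o) (fun π => π.1 x = w)).symm
    rw [e, sum_filter (s := Ω), sum_filter (s := Ω), sum_filter (s := Ω), ← sum_add_distrib,
      ← sum_add_distrib]
    refine sum_le_sum fun s _ => ?_
    have : 0 < ww r s := mul_pos (wt_pos hr.1 _) (wt_pos hr.1 _)
    split_ifs with c1 c2 c3 c3 c2 c3 c3 <;> first | linarith | exact absurd ⟨c1, c2⟩ c3
  have P0 : 0 ≤ ∑ π : PM V, wt r π.1 := sum_nonneg fun _ _ => (wt_pos hr.1 _).le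
  have d0 := mul_pos (pos y o) (pos x w)
  have d1 := mul_pos (pos x o) (pos y w)
  have d2 := mul_pos (pos x y) (pos o w)
  refine (div_le_div_of_nonneg_right i0 d0.le).trans ?_
  rw [add_div, add_div]
  refine add_le_add (add_le_add ((div_le_div_iff₀ d0 d1).2 i1) ((div_le_div_iff₀ d0 d2).2 i2)) ?_
  rw [div_le_div_iff₀ d0 d1]
  calc _ ≤ ((∑ π : PM V, wt r π.1) * ∑ π : PM V with (π.1 x = w ∧ π.1 y = o), wt r π.1) *
        (r x o ^ 2 * r y w ^ 2) := mul_le_mul_of_nonneg_right i3 d1.le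
    _ ≤ (∑ π : PM V, wt r π.1) * ((∑ π : PM V, wt r π.1) * (r x w ^ 2 * r y o ^ 2)) := by
      rw [mul_assoc]
      exact mul_le_mul_of_nonneg_left i4 P0
    _ = _ := by ring

theorem exists_g (hr : Sym r) {η : ℝ} (h0 : 0 < η) (hl : Low r η) (hne : Nonempty (PM V)) :
    ∃ g : V → V → ℝ, (∀ u v, g u v = g v u) ∧
      (∀ u v, u ≠ v → η ≤ r u v ^ 2 * g u v ∧ r u v ^ 2 * g u v ≤ 1) ∧
      ∀ x y w o, x ≠ o → y ≠ w →
        g x w * g y o ≤ g x y * g w o + (1 + 1 / η ^ 2) * (g y w * g x o) := by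
  have pos : ∀ u v, 0 < r u v ^ 2 := fun u v => pow_pos (hr.1 u v) 2
  set P := ∑ π : PM V, wt r π.1 with hP
  have P0 : 0 < P := sum_pos (fun _ _ => wt_pos hr.1 _) univ_nonempty
  have lo : ∀ u v, u ≠ v → η * P ≤ NN r u v := hl
  refine ⟨fun u v => NN r u v / (P * r u v ^ 2), fun u v => by simp only [NN_symm u v, hr.2 u v],
    fun u v huv => ?_, fun x y w o h1 h2 => ?_⟩
  · have e : r u v ^ 2 * (NN r u v / (P * r u v ^ 2)) = NN r u v / P := by
      have := (hr.1 u v).ne'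
      field_simp
    rw [e, le_div_iff₀ P0, div_le_one P0]
    exact ⟨lo u v huv,
      sum_le_sum_of_subset_of_nonneg (subset_univ _) fun u _ _ => (wt_pos hr.1 _).le⟩
  · have i := ptol hr h1 h2
    rw [← hP, NN_symm o w, hr.2 o w] at i
    have j : P ^ 2 ≤ NN r y w * NN r x o / η ^ 2 := by
      rw [le_div_iff₀ (by positivity)]
      have := mul_le_mul (lo y w h2) (lo x o h1) (by positivity)
        ((by positivity : (0 : ℝ) ≤ η * P).trans (lo y w h2))
      linarith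
    have j' := div_le_div_of_nonneg_right j (mul_pos (pos x o) (pos y w)).le
    have := div_le_div_of_nonneg_right (i.trans (add_le_add le_rfl j')) (pow_pos P0 2).le
    refine le_of_eq_of_le ?_ (this.trans_eq ?_)
    · field_simp
    · field_simp
      ring

end ptol

section tree

variable {V : Type} [Fintype V] [DecidableEq V]

theorem exists_kap (o : V) {g : V → V → ℝ} {K1 : ℝ} (hK : 1 ≤ K1) (hs : ∀ u v, g u v = g v u)
    (hp : ∀ u v, u ≠ v → 0 < g u v)
    (hq : ∀ x y w o, x ≠ o → y ≠ w → g x w * g y o ≤ g x y * g w o + K1 * (g y w * g x o)) :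
    ∃ (κ : V → V → ℝ) (t : V → ℝ), (∀ u v, κ u v = κ v u) ∧ (∀ u, 0 < t u) ∧ (∀ u, κ u u = 0) ∧
      (∀ u v, u ≠ v → κ u v = g u v * (t u * t v)) ∧
      ∀ x y w, κ x w ≤ κ x y + K1 * κ y w := by
  let M : ℝ := 1 + ∑ u, ∑ v, |g u v * (1 / g u o * (1 / g v o))|
  have M1 : ∀ u v, g u v * (1 / g u o * (1 / g v o)) ≤ M := by
    intro u v
    have i1 := single_le_sum (f := fun v => |g u v * (1 / g u o * (1 / g v o))|)
      (fun _ _ => abs_nonneg _) (mem_univ v)
    have i2 := single_le_sum (f := fun u => ∑ v, |g u v * (1 / g u o * (1 / g v o))|)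
      (fun _ _ => sum_nonneg fun _ _ => abs_nonneg _) (mem_univ u)
    have i3 := le_abs_self (g u v * (1 / g u o * (1 / g v o)))
    simp only [M]
    linarith
  have M0 : 0 < M := by positivity
  let t : V → ℝ := fun u => if u = o then M else 1 / g u o
  have t0 : ∀ u, 0 < t u := by
    intro u
    simp only [t]
    split_ifs with c
    exacts [M0, one_div_pos.2 (hp u o c)]
  let κ : V → V → ℝ := fun u v => if u = v then 0 else g u v * (t u * t v)
  have k1 : ∀ u v, u ≠ v → κ u v = g u v * (t u * t v) := fun u v h => if_neg h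
  have k0 : ∀ u, κ u u = 0 := fun u => if_pos rfl
  have ks : ∀ u v, κ u v = κ v u := by
    intro u v
    by_cases c : u = v
    · rw [c]
    · rw [k1 u v c, k1 v u (Ne.symm c), hs u v, mul_comm (t u)]
  have kn : ∀ u v, 0 ≤ κ u v := by
    intro u v
    by_cases c : u = v
    · rw [c, k0]
    · rw [k1 u v c]
      exact (mul_pos (hp u v c) (mul_pos (t0 u) (t0 v))).le
  have tn : ∀ u, u ≠ o → t u = 1 / g u o := fun u h => if_neg h
  have tg : ∀ u, u ≠ o → g u o * t u = 1 := fun u h => by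
    rw [tn u h, mul_one_div_cancel (hp u o h).ne']
  have ko : ∀ u, u ≠ o → κ u o = M := fun u h => by
    rw [k1 u o h, ← mul_assoc, tg u h, one_mul]
    exact if_pos rfl
  refine ⟨κ, t, ks, t0, k0, k1, fun x y w => ?_⟩
  have n1 := kn x y
  have n2 := kn y w
  have n3 : κ y w ≤ K1 * κ y w := le_mul_of_one_le_left n2 hK
  by_cases c1 : x = w
  · rw [c1, k0]
    rw [c1] at n1
    linarith
  by_cases c2 : x = y
  · rw [c2, k0]
    linarith
  by_cases c3 : y = w
  · rw [c3, k0]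
    linarith
  by_cases c4 : y = o
  · subst c4
    have := M1 x w
    rw [← tn x c2, ← tn w (Ne.symm c3), ← k1 x w c1, ← ko x c2] at this
    linarith
  by_cases c5 : x = o
  · subst c5
    rw [ks x w, ks x y, ko w (Ne.symm c1), ko y c4]
    linarith
  by_cases c6 : w = o
  · subst c6
    rw [ko y c4] at n3 ⊢
    rw [ko x c5]
    linarith
  have := mul_le_mul_of_nonneg_right (hq x y w o c5 c3)
    (mul_pos (t0 x) (mul_pos (t0 y) (t0 w))).le
  rw [k1 x w c1, k1 x y c2, k1 y w c3]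
  have e1 := tg x c5
  have e2 := tg y c4
  have e3 := tg w c6
  calc g x w * (t x * t w) = g x w * (t x * t w) * (g y o * t y) := by rw [e2, mul_one]
    _ = g x w * g y o * (t x * (t y * t w)) := by ring
    _ ≤ _ := this
    _ = g x y * (t x * t y) * (g w o * t w) + K1 * (g y w * (t y * t w)) * (g x o * t x) := by ring
    _ = _ := by rw [e1, e3, mul_one, mul_one]

end tree

end Vale.Agent.P308.Pot

namespace Vale.Agent.P308

open Finset Pot

theorem pot (V : Type) [Fintype V] [DecidableEq V] : PotStmt V := by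
  intro r η hr h0 h1 hl hne
  rcases isEmpty_or_nonempty V with hV | ⟨⟨o⟩⟩
  · exact ⟨fun _ _ => 0, fun _ _ => rfl, fun c => (hV.false (c 0)).elim⟩
  obtain ⟨g, gs, gb, gq⟩ := exists_g hr h0 hl hne
  have pos : ∀ u v, 0 < r u v ^ 2 := fun u v => pow_pos (hr.1 u v) 2
  have gp : ∀ u v, u ≠ v → 0 < g u v := fun u v h =>
    pos_of_mul_pos_left (a := g u v) (b := r u v ^ 2) (by rw [mul_comm]; exact h0.trans_le (gb u v h).1)
      (pos u v).le
  set K1 : ℝ := 1 + 1 / η ^ 2 with hK1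
  have η2 : 1 ≤ 1 / η ^ 2 := by
    rw [le_div_iff₀ (by positivity), one_mul]
    exact pow_le_one₀ h0.le h1
  have K11 : 1 ≤ K1 := by linarith
  have K12 : K1 ≤ 2 * (1 / η ^ 2) := by linarith
  obtain ⟨κ, t, ks, t0, k0, k1, kq⟩ := exists_kap o K11 gs gp gq
  refine ⟨κ, ks, fun c m l x y hml hl hc hy hx hi h2 h3 => ?_⟩
  have kp : ∀ u v, u ≠ v → 0 < κ u v := fun u v h => by
    rw [k1 u v h]
    exact mul_pos (gp u v h) (mul_pos (t0 u) (t0 v))
  set h := κ (c m) (c (m + 1)) with hh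
  have hp : 0 < h := kp _ _ hc
  set n : ℝ := (Fintype.card V : ℝ) with hn
  have ln : (l : ℝ) ≤ n := by rw [hn]; exact_mod_cast hl
  have n1 : 1 ≤ n := le_trans (by exact_mod_cast (by omega : 1 ≤ l)) ln
  have walk : ∀ i ≤ l, κ (c 0) (c i) ≤ K1 * i * h := by
    intro i
    induction i with
    | zero => intro _; simp [k0]
    | succ i ih =>
      intro hi'
      have a1 := ih (by omega)
      have a2 := kq (c 0) (c i) (c (i + 1))
      have a3 := mul_le_mul_of_nonneg_left (hi i (by omega)) (zero_le_one.trans K11)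
      push_cast
      linarith
  have walk' : ∀ i ≤ l, κ (c 0) (c i) ≤ K1 * n * h := by
    intro i hi'
    refine (walk i hi').trans ?_
    have : (i : ℝ) ≤ n := le_trans (by exact_mod_cast hi') ln
    gcongr
  let H : V → ℝ := fun a => max (κ (c 0) a) h
  have H1 : ∀ a, h ≤ H a := fun a => le_max_right _ _
  have H2 : ∀ a, κ (c 0) a ≤ H a := fun a => le_max_left _ _
  have H0 : ∀ a, 0 < H a := fun a => hp.trans_le (H1 a)
  let s : V → ℝ := fun a => t a * √h / H a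
  have ss : ∀ u v, s u * s v = t u * t v * h / (H u * H v) := by
    intro u v
    simp only [s]
    rw [div_mul_div_comm, mul_mul_mul_comm, Real.mul_self_sqrt hp.le]
  have Kn : 1 ≤ K1 * n := one_le_mul_of_one_le_of_one_le K11 n1
  have e6 : 16 * n ^ 2 / η ^ 6 = 16 * n ^ 2 * (1 / η ^ 2) ^ 3 := by field_simp
  have tight : ∀ i ≤ l, ∀ b, c i ≠ b → h ≤ κ (c i) b →
      r (c i) b ^ 2 ≤ 16 * n ^ 2 / η ^ 6 * (s (c i) * s b) := by
    intro i hi' b hb hk
    have a0 := kp _ _ hb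
    have a1 : H (c i) ≤ K1 * n * h := max_le (walk' i hi') (le_mul_of_one_le_left hp.le Kn)
    have a2 : H b ≤ 2 * K1 ^ 2 * n * κ (c i) b := by
      have b1 := kq b (c i) (c 0)
      rw [ks b (c 0), ks b (c i), ks (c i) (c 0)] at b1
      have b2 : K1 * κ (c 0) (c i) ≤ K1 * (K1 * n * κ (c i) b) := by
        refine mul_le_mul_of_nonneg_left ((walk' i hi').trans ?_) (by linarith)
        gcongr
      have b3 : κ (c i) b ≤ K1 * (K1 * n) * κ (c i) b :=
        le_mul_of_one_le_left a0.le (one_le_mul_of_one_le_of_one_le K11 Kn)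
      have b4 : 0 ≤ K1 * (K1 * n) * κ (c i) b := by positivity
      exact max_le (by linarith) (by linarith)
    have a3 : r (c i) b ^ 2 * κ (c i) b ≤ t (c i) * t b := by
      rw [k1 _ _ hb, ← mul_assoc]
      exact mul_le_of_le_one_left (mul_pos (t0 _) (t0 _)).le (gb _ _ hb).2
    have a4 : H (c i) * H b ≤ 16 * n ^ 2 / η ^ 6 * (h * κ (c i) b) := by
      calc _ ≤ (K1 * n * h) * (2 * K1 ^ 2 * n * κ (c i) b) :=
            mul_le_mul a1 a2 (H0 b).le (by positivity)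
        _ = 2 * K1 ^ 3 * n ^ 2 * (h * κ (c i) b) := by ring
        _ ≤ 2 * (2 * (1 / η ^ 2)) ^ 3 * n ^ 2 * (h * κ (c i) b) := by gcongr
        _ = _ := by rw [e6]; ring
    rw [ss, ← mul_div_assoc, le_div_iff₀ (mul_pos (H0 _) (H0 _))]
    calc _ ≤ r (c i) b ^ 2 * (16 * n ^ 2 / η ^ 6 * (h * κ (c i) b)) :=
          mul_le_mul_of_nonneg_left a4 (pos _ _).le
      _ = 16 * n ^ 2 / η ^ 6 * (r (c i) b ^ 2 * κ (c i) b * h) := by ring
      _ ≤ _ := by gcongr
  refine ⟨s, fun v => by have := t0 v; have := H0 v; positivity, fun u v huv => ?_,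
    tight 0 (by omega) y hy.symm h2, tight m hml.le _ hc le_rfl, tight l le_rfl x hx.symm h3⟩
  have a1 : κ u v * h ≤ (1 + K1) * (H u * H v) := by
    have b1 := kq u (c 0) v
    rw [ks u (c 0)] at b1
    have b2 : κ (c 0) u * h ≤ H u * H v := mul_le_mul (H2 u) (H1 v) hp.le (H0 u).le
    have b3 : κ (c 0) v * h ≤ H v * H u := mul_le_mul (H2 v) (H1 u) hp.le (H0 v).le
    have b4 := mul_le_mul_of_nonneg_left b3 (zero_le_one.trans K11)
    have b5 := mul_le_mul_of_nonneg_right b1 hp.le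
    linarith
  have a2 : η * (t u * t v) ≤ r u v ^ 2 * κ u v := by
    rw [k1 _ _ huv, ← mul_assoc (r u v ^ 2)]
    exact mul_le_mul_of_nonneg_right (gb _ _ huv).1 (mul_pos (t0 _) (t0 _)).le
  have a3 : 1 + K1 ≤ 16 * n ^ 2 / η ^ 6 * η := by
    have b1 : 1 / η ^ 2 ≤ 1 / η ^ 6 * η := by
      rw [div_mul_eq_mul_div, div_le_div_iff₀ (by positivity) (by positivity)]
      have : η ^ 6 ≤ η ^ 3 := pow_le_pow_of_le_one h0.le h1 (by norm_num)
      linarith
    have b2 : 1 ≤ n ^ 2 := one_le_pow₀ n1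
    have b3 : 1 / η ^ 6 * η ≤ n ^ 2 * (1 / η ^ 6 * η) := le_mul_of_one_le_left (by positivity) b2
    have e : 16 * n ^ 2 / η ^ 6 * η = 16 * (n ^ 2 * (1 / η ^ 6 * η)) := by ring
    linarith
  rw [ss, div_le_iff₀ (mul_pos (H0 _) (H0 _))]
  refine le_of_mul_le_mul_left ?_ h0
  calc η * (t u * t v * h) = η * (t u * t v) * h := by ring
    _ ≤ r u v ^ 2 * κ u v * h := mul_le_mul_of_nonneg_right a2 hp.le
    _ = r u v ^ 2 * (κ u v * h) := by ring
    _ ≤ r u v ^ 2 * ((1 + K1) * (H u * H v)) := mul_le_mul_of_nonneg_left a1 (pos _ _).le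
    _ ≤ r u v ^ 2 * ((16 * n ^ 2 / η ^ 6 * η) * (H u * H v)) := by
      have := mul_pos (H0 u) (H0 v)
      gcongr
    _ = _ := by ring

end Vale.Agent.P308
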