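import Vale.Agent.P308.Algo

/-!
The list algorithm agrees with the algorithm on functions.
-/

namespace Vale.Agent.P308.AL

open Finset Function
open Vale.Agent.Lib.H24.T (lcase)
open Vale.Agent.P328 (val)
open Vale.Agent.P328.AL (map_range)
open Vale.Agent.P317 (run run_add)

variable {n K : ℕ}

/-- The list of a map. -/
def rp (π : Fin n → Fin n) : Mt := List.ofFn fun v => (π v).val

/-- The list of a population. -/
def rX (x : Fin K → Fin n → Fin n) : List Mt := List.ofFn fun i => rp (x i)

/-- The exponents given by a history. -/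
def kv (n : ℕ) (H : Hs) : Fin n → Fin n → ℤ := fun u v => ke H u v

/-- The state given by a history. -/
def vw (n : ℕ) (g : In) (s : Hs × Bool) : As n := ⟨kv n s.1, nu g s.1, de g s.1, s.2⟩

theorem ap_rp (π : Fin n → Fin n) (v : Fin n) : ap (rp π) v = π v := by simp [ap, rp]

theorem getD_rX (x : Fin K → Fin n → Fin n) (i : Fin K) : (rX x).getD i [] = rp (x i) := by
  simp [rX]

theorem sw_eq (u v x : Fin n) : sw u v x = (Equiv.swap u v x).val := by
  rw [sw, Equiv.swap_apply_def]
  simp only [Fin.ext_iff]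
  split_ifs <;> rfl

theorem run_fold {σ τ : Type} {F : List Bool → σ → σ} {G : List Bool → τ → τ} (R : σ → τ → Prop)
    (h : ∀ l y x, R y x → R (F l y) (G l x)) (L : ℕ) (l : List Bool) {y : σ} {x : τ} (h0 : R y x)
    (T : ℕ) : R ((List.range T).foldl (fun y s => F ((l.drop (s * L)).take L) y) y)
      (run G L T l x) := by
  induction T with
  | zero => exact h0
  | succ T ih =>
    rw [List.range_succ, List.foldl_append, run_add]
    exact h _ _ _ ih

theorem df_eq (m : ℕ) : ((List.range (2 * m)).map fun i => if i % 2 = 1 then i else 1).prod =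
    (2 * m - 1).doubleFactorial := by
  induction m with
  | zero => rfl
  | succ m ih =>
    rw [show 2 * (m + 1) = 2 * m + 1 + 1 by ring, List.range_succ, List.range_succ,
      List.map_append, List.map_append, List.prod_append, List.prod_append, ih,
      Nat.add_sub_cancel, Nat.doubleFactorial_add_one]
    simp [mul_comm]

theorem len_filter {α : Type} (x : Fin K → α) (P : α → Bool) (k : ℕ) :
    (((List.ofFn x).take k).filter P).length =
      (univ.filter fun i : Fin K => i.val < k ∧ P (x i) = true).card := by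
  induction K generalizing k with
  | zero => simp
  | succ K ih =>
    cases k with
    | zero => simp
    | succ k =>
      rw [List.ofFn_succ, List.take_succ_cons, List.filter_cons, card_filter, Fin.sum_univ_succ,
        ← card_filter]
      have := ih (fun i => x i.succ) k
      simp only [Fin.val_succ, Nat.add_lt_add_iff_right, Fin.val_zero, Nat.zero_lt_succ, true_and]
      split_ifs
      · rw [List.length_cons, this, add_comm]
      · rw [this, zero_add]

/-- The input represents the parameters. -/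
structure Rep (g : In) (n b : ℕ) (adj : Fin n → Fin n → Bool) : Prop where
  hN : g.1.length = n
  hb : AL.b g = b
  ha : ∀ u v : Fin n, ad g u v = adj u v
  h1 : P308.K4 b ≤ g.2.2.length
  h2 : Wm b ≤ g.2.2.length
  h3 : TT b ≤ g.2.2.length
  h4 : SS b ≤ g.2.2.length
  h5 : KK b ≤ g.2.2.length
  h6 : 2 * n ≤ g.2.2.length

theorem pw_eq {g : In} {x e : ℕ} (he : e ≤ g.2.2.length) : pw g x e = x ^ e := by
  rw [pw, List.length_take, min_eq_left he]

theorem rg_eq {g : In} {e : ℕ} (he : e ≤ g.2.2.length) : rg g e = List.range e := by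
  rw [rg, List.length_take, min_eq_left he]

theorem wk_eq {g : In} (a c : Fin n → Fin n) (p : Fin n) {i : ℕ} (hi : i ≤ g.2.2.length) :
    wk g (rp a) (rp c) p i = (P308.wk a c p i).val := by
  rw [wk, rg_eq hi]
  clear hi
  induction i with
  | zero => rfl
  | succ i ih =>
    rw [List.range_succ, List.foldl_append, ih, P308.wk]
    simp only [List.foldl_cons, List.foldl_nil, w1, ap_rp]
    split_ifs <;> rfl

theorem ok_eq {g : In} (a c : Fin n → Fin n) (p : Fin n) {l : ℕ} (hl : l ≤ g.2.2.length) :
    ok g (rp a) (rp c) p l = true ↔ Ok a c p l := by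
  rw [ok, rg_eq hl, ok_iff]
  simp only [List.all_eq_true, List.mem_range, decide_eq_true_eq]
  refine forall₂_congr fun i hi => forall₂_congr fun j hj => ?_
  rw [wk_eq a c p (by omega), wk_eq a c p (by omega), Fin.val_inj, imp_iff_not_or]

theorem ws_eq {g : In} (a c : Fin n → Fin n) (p : Fin n) {l : ℕ} (hl : l ≤ g.2.2.length)
    (v : Fin n) : ((ws g (rp a) (rp c) p l).any fun x => decide (x = v)) = true ↔
      v ∈ P308.ws a c p l := by
  rw [ws, rg_eq hl, mem_ws]
  simp only [List.any_map, List.any_eq_true, List.mem_range, comp, decide_eq_true_eq]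
  refine exists_congr fun i => and_congr_right fun hi => ?_
  rw [wk_eq a c p (by omega), Fin.val_inj]

namespace Rep

variable {g : In} {b : ℕ} {adj : Fin n → Fin n → Bool} (h : Rep g n b adj)
include h

theorem N_eq : N g = n := h.hN
theorem vs_eq : vs g = List.range n := by rw [vs, h.hN]
theorem q_eq : q g = P308.q b := by rw [P308.q, ← h.hb]; rfl
theorem K4_eq : K4 g = P308.K4 b := by rw [K4, P308.K4, h.hb, h.q_eq, Wm]
theorem B1_eq : B1 g = P308.B1 b := by rw [B1, P308.B1, h.hb, h.K4_eq]

theorem mk_eq {f : ℕ → ℕ} {π : Fin n → Fin n} (e : ∀ v : Fin n, f v = π v) :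
    AL.mk g f = rp π := by
  rw [AL.mk, h.vs_eq, h.N_eq, map_range, rp]
  exact congrArg List.ofFn (funext fun v => by rw [e, min_eq_left (π v).2.le])

theorem sp_eq {D : List ℕ} {D' : Finset (Fin n)}
    (hD : ∀ v : Fin n, (D.any fun x => decide (x = v)) = true ↔ v ∈ D') (a c : Fin n → Fin n)
    (p e : Fin n) : sp g D (rp a) (rp c) p e = rp (P308.sp D' a c p e) := by
  refine h.mk_eq fun v => ?_
  simp only [ap_rp, P308.sp, Fin.val_inj, ← hD]
  split_ifs with h1 h2 h3
  · rfl
  · rfl
  · rw [h3, cond_true]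
  · rw [Bool.eq_false_iff.2 h3, cond_false]

theorem fl_eq (p : Fin n) {j : ℕ} (hj : j < n) (s : (Fin n → Fin n) × (Fin n → Fin n)) :
    fl g p j (rp s.1, rp s.2) = (rp (P308.fl p j s).1, rp (P308.fl p j s).2) := by
  have h6 := h.h6
  have e := ok_eq (g := g) s.1 s.2 p (l := 2 * j + 1) (by omega)
  have e1 := ws_eq (g := g) s.1 s.2 p (l := 2 * j + 1) (by omega)
  unfold fl P308.fl
  dsimp only
  split_ifs with c
  · rw [e.2 c, cond_true, wk_eq _ _ _ (by omega), h.sp_eq e1, h.sp_eq e1]
    rfl
  · rw [Bool.eq_false_iff.2 (mt e.1 c), cond_false]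

theorem cj_eq (u v : Fin n) (π : Fin n → Fin n) : cj g u v (rp π) = rp (P308.cj u v π) :=
  h.mk_eq fun x => by rw [sw_eq, ap_rp, sw_eq]; rfl

theorem mv_eq (p : Fin n) {j : ℕ} (hj : j < n) (u v u' v' : Fin n)
    (s : (Fin n → Fin n) × (Fin n → Fin n)) : mv g p j u v u' v' (rp s.1, rp s.2) =
      (rp (P308.mv p j u v u' v' s).1, rp (P308.mv p j u v u' v' s).2) := by
  have e := h.fl_eq p hj (s.1, P308.cj u v s.2)
  unfold mv P308.mv
  dsimp only at e ⊢
  rw [h.cj_eq, e, h.cj_eq]

theorem W_eq (H : Hs) (π : Fin n → Fin n) : W g H (rp π) = P308.W (kv n H) π := by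
  rw [W, P308.W, h.vs_eq, map_range, List.sum_ofFn]
  simp only [ap_rp, kv]

theorem inc_eq (H : Hs) (s s' : (Fin n → Fin n) × (Fin n → Fin n)) :
    inc g H (rp s.1, rp s.2) (rp s'.1, rp s'.2) = P308.inc b (kv n H) s s' := by
  simp only [inc, P308.inc, h.W_eq, h.q_eq, Wm]

theorem st_eq (x : Fin K → Fin n → Fin n) (i : Fin K) (π : Fin n → Fin n) :
    st g (rX x) i (rp π) = rX (update x i π) := by
  have hi : i.val < (rX x).length := by simp [rX]
  have e := List.set_eq_take_append_cons_drop (l := rX x) (i := i) (a := rp π)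
  rw [if_pos hi] at e
  rw [st, h.mk_eq (ap_rp π), ← e]
  refine List.ext_getElem (by simp [rX]) fun j h1 h2 => ?_
  simp only [rX, List.getElem_set, List.getElem_ofFn, update_apply, Fin.ext_iff, eq_comm (a := j)]
  split_ifs <;> rfl

theorem fmove_eq (H : Hs) (x : Fin (KK b) → Fin n → Fin n) (i l : Fin (KK b))
    (s : (Fin n → Fin n) × (Fin n → Fin n)) (U : ℕ) :
    fmove g H (rX x) i l (rp s.1, rp s.2) U = rX (P308.fmove b (kv n H) x i l s U) := by
  have e := h.inc_eq H (x i, x l) s
  have e1 : P308.inc b (kv n H) (x i, x l) s ≤ g.2.2.length := (min_le_right _ _).trans h.h2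
  unfold fmove P308.fmove
  rw [getD_rX, getD_rX, e, pw_eq e1, pw_eq e1, h.K4_eq, pw_eq h.h1, h.q_eq]
  rw [apply_ite rX, h.st_eq, h.st_eq]
  exact if_congr (and_congr Fin.val_inj.not Iff.rfl) rfl rfl

theorem fstep_eq (H : Hs) (l : List Bool) (x : Fin (KK b) → Fin n → Fin n) :
    fstep g H l (rX x) = rX (P308.fstep b (kv n H) l x) := by
  unfold fstep P308.fstep lg
  rw [h.hb, h.q_eq, h.N_eq, h.K4_eq]
  split_ifs with c
  · rw [decide_eq_true (by exact c), cond_true, ← h.fmove_eq,
      ← h.mv_eq _ c.2.2.2.1, ← getD_rX, ← getD_rX]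
  · rw [decide_eq_false (by exact c), cond_false]

theorem cnt_eq (x : Fin (KK b) → Fin n → Fin n) (u v : Fin n) :
    cnt g (rX x) u v = P308.cnt b x u v := by
  rw [cnt, rX, len_filter, h.q_eq]
  simp only [ap_rp, decide_eq_true_eq, Fin.val_inj]
  rfl

theorem prs_eq : prs g = (P308.prs n).map fun e => (e.1.val, e.2.val) := by
  rw [prs, h.vs_eq, P308.prs, ← List.map_coe_finRange_eq_range, List.flatMap_map, List.map_flatMap]
  simp only [List.map_map]
  rfl

theorem aup_eq (x : Fin (KK b) → Fin n → Fin n) (s : Hs × Bool) :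
    vw n g (aup g (rX x) s) = P308.aup b adj (P308.cnt b x) (vw n g s) := by
  obtain ⟨H, d⟩ := s
  cases d
  swap
  · rfl
  obtain ⟨L, e1, e2⟩ : ∃ L : List (Fin n × Fin n × Bool),
      dec g H (rX x) = L.map (fun d => (d.1.val, d.2.1.val, d.2.2)) ∧
      P308.dec b adj (kv n H) (P308.cnt b x) = L.head? := by
    refine ⟨_, ?_, rfl⟩
    rw [dec, h.prs_eq, List.filter_map, List.filter_map]
    simp only [List.map_append, List.map_map, comp_def, h.cnt_eq, h.ha, h.q_eq, Fin.val_inj, kv,
      ne_eq]
    rfl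
  unfold aup P308.aup
  simp only [vw, cond_false, e1, e2, Bool.false_eq_true, if_false]
  rcases L with _ | ⟨⟨u, v, β⟩, L⟩
  · rfl
  · have e3 : ∀ c, kv n ((u.val, v.val, β, c) :: H) = bump (kv n H) u v (cond β (-1) 1) := by
      intro c
      funext x y
      simp only [kv, ke, bump, List.map_cons, List.sum_cons, Fin.val_inj]
      split_ifs
      · rw [add_comm]
      · rw [zero_add]
    simp only [List.map_cons, lcase, h.N_eq, min_eq_left u.2.le, min_eq_left v.2.le, h.cnt_eq, e3,
      List.head?_cons, Option.elim_some, nu, de, List.prod_cons, h.q_eq]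
    cases β <;> simp [kk, qq, mul_comm]

theorem stg_eq (l : List Bool) (y : LS) (s : As n × (Fin (KK b) → Fin n → Fin n))
    (e : vw n g y.1 = s.1 ∧ y.2 = rX s.2) :
    vw n g (stg g l y).1 = (P308.stg b adj l s).1 ∧
      (stg g l y).2 = rX (P308.stg b adj l s).2 := by
  have e1 : vw n g (aup g y.2 y.1) = P308.aup b adj (P308.cnt b s.2) s.1 := by
    rw [e.2, h.aup_eq, e.1]
  refine ⟨e1, ?_⟩
  have e2 := run_fold (F := fstep g (aup g y.2 y.1).1)
    (G := P308.fstep b (kv n (aup g y.2 y.1).1)) (fun Y x => Y = rX x)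
    (fun l Y x e => by rw [e, h.fstep_eq]) (P308.B1 b) l e.2 (TT b)
  rw [stg, P308.stg, ← e1, rn, h.q_eq, rg_eq (e := P308.q b ^ 490) h.h3, h.B1_eq]
  exact e2

theorem g1_eq {β : Type} (C : List β) : ∀ (l : List Bool) (R : List (Fin n)) (π : Fin n → Fin n),
    R.Nodup → (C.foldl (fun y _ => g1 g y) (l, R.map Fin.val, rp π)).2.2 =
      rp (P308.gen (BI b) C.length l R π) := by
  induction C with
  | nil => intro l R π _; rfl
  | cons z C ih =>
    intro l R π hR
    rw [List.foldl_cons, List.length_cons]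
    rcases R with _ | ⟨a, R⟩
    · have := ih l [] π hR
      rw [P308.gen]
      refine this.trans ?_
      cases C.length <;> rfl
    · have hR' := hR.of_cons
      rw [P308.gen, ← ih _ _ _ (hR'.erase _)]
      have e : (R.map Fin.val).getD (val (l.take (BI b)) % R.length) a.val =
          (R.getD (val (l.take (BI b)) % R.length) a).val := List.getD_map _ _ _
      congr 3
      simp only [g1, List.map_cons, lcase, h.hb, List.length_map]
      rw [show 342 * b = BI b from rfl, e]
      generalize R.getD (val (l.take (BI b)) % R.length) a = c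
      rw [hR'.erase_eq_filter, List.filter_map, h.mk_eq]
      · congr 4
        funext x
        by_cases e1 : x = c <;> simp [Fin.val_inj, e1]
      · intro v
        simp only [Fin.val_inj, ap_rp]
        split_ifs <;> rfl

theorem gen_eq (l : List Bool) : gen g l = rp (P308.gen (BI b) n l (List.finRange n) id) := by
  have e := h.g1_eq (List.range n) l (List.finRange n) id (List.nodup_finRange n)
  have e1 : rp (id : Fin n → Fin n) = List.range n := by
    rw [← List.map_id (List.range n), map_range]; rfl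
  rw [List.map_coe_finRange_eq_range, e1, List.length_range] at e
  rw [gen, h.vs_eq, e]

theorem ini_eq : ini g = rX (P308.ini n (KK b) (BI b) g.2.2) := by
  rw [ini, h.q_eq, rg_eq (e := P308.q b ^ 340) h.h5, map_range, h.N_eq, h.hb]
  simp only [h.gen_eq]
  rfl

theorem fin_eq : vw n g (fin g) = P308.fin b adj g.2.2 := by
  have e := run_fold (F := stg g) (G := P308.stg b adj)
    (fun y s => vw n g y.1 = s.1 ∧ y.2 = rX s.2) h.stg_eq (TT b * P308.B1 b)
    (g.2.2.drop (KK b * (n * BI b))) (y := (([], false), ini g))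
    (x := (⟨fun _ _ => 0, 1, 1, false⟩, P308.ini n (KK b) (BI b) g.2.2)) ⟨rfl, h.ini_eq⟩ (SS b)
  rw [fin, h.q_eq, rg_eq (e := P308.q b ^ 174) h.h4, h.N_eq, h.hb, h.B1_eq]
  exact e.1

theorem out_eq (hn : Even n) : out g = P308.out b adj g.2.2 := by
  obtain ⟨m, hm⟩ := hn
  have e : df g = (n - 1).doubleFactorial := by
    rw [df, h.vs_eq, hm, ← two_mul, df_eq]
  rw [out, P308.out, ← h.fin_eq, e]
  generalize fin g = s
  obtain ⟨H, d⟩ := s
  cases d <;> simp only [vw, cond_true, cond_false, if_true, Bool.false_eq_true, if_false]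

end Rep

end Vale.Agent.P308.AL
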