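import Vale.Agent.P308.Defs
import Vale.Agent.P308.Base
import Vale.Agent.P317.Base

/-!
Shared definitions and the statements of the modules.
-/

namespace Vale.Agent.P308

open Finset Function
open Vale.Agent.P328 (Ex val)
open Vale.Agent.P317 (run)

section gap

variable {V : Type} [Fintype V] [DecidableEq V] (r : V → V → ℝ) (f : PM V → ℝ)

/-- Weight of a pair of matchings. -/
def ww (s : PM V × PM V) : ℝ := wt r s.1.1 * wt r s.2.1

/-- Energy of one move. -/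
noncomputable def Dr (g : PM V × PM V → PM V × PM V) : ℝ :=
  ∑ s, min (ww r s) (ww r (g s)) * (f (g s).1 + f (g s).2 - f s.1 - f s.2) ^ 2

/-- Energy of all moves. -/
noncomputable def Dt : ℝ :=
  ∑ p, ∑ j ∈ range (Fintype.card V), ∑ u, ∑ v, ∑ u', ∑ v', Dr r f (mvP p j u v u' v')

/-- Mean of `f` over the matchings that agree with `α` on `S`. -/
noncomputable def mm (S : Finset V) (α : V → V) : ℝ :=
  (∑ π : PM V with ∀ v ∈ S, π.1 v = α v, wt r π.1 * f π) /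
    ∑ π : PM V with ∀ v ∈ S, π.1 v = α v, wt r π.1

/-- Value of the arc closed through the vertex after its end. -/
noncomputable def Pp (a b : V → V) (p : V) (j : ℕ) : ℝ :=
  mm r f (ws a b p (2 * j + 2)) (fa a b p j) - mm r f (ws a b p (2 * j + 2)) a

/-- Value of the arc closed through the vertex before its head. -/
noncomputable def Pm (a b : V → V) (p : V) (j : ℕ) : ℝ :=
  mm r f (insert (b p) (ws a b p (2 * j + 1))) b -
    mm r f (insert (b p) (ws a b p (2 * j + 1))) (fb a b p j)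

/-- Three edges are tight for a potential. -/
def Tt (K : ℝ) (p y q1 p2 q x : V) : Prop :=
  ∃ s : V → ℝ, (∀ v, 0 ≤ s v) ∧ (∀ u v, u ≠ v → s u * s v ≤ K * r u v ^ 2) ∧
    r p y ^ 2 ≤ K * (s p * s y) ∧ r q1 p2 ^ 2 ≤ K * (s q1 * s p2) ∧ r q x ^ 2 ≤ K * (s q * s x)

/-- A simple walk with `m + 1 + (l + 1)` vertices whose three cut edges are tight. -/
def Cut (K : ℝ) (p : V) (m l : ℕ) (s : PM V × PM V) : Prop :=
  Ok s.1.1 s.2.1 p (m + 1 + (l + 1)) ∧ Tt r K p (s.2.1 p) (wk s.1.1 s.2.1 p m)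
    (wk s.1.1 s.2.1 p (m + 1)) (wk s.1.1 s.2.1 p (m + 1 + l)) (wk s.1.1 s.2.1 p (m + 1 + (l + 1)))

/-- Positive symmetric weights. -/
def Sym : Prop := (∀ u v, 0 < r u v) ∧ ∀ u v, r u v = r v u

/-- All edges have probability at least `η`. -/
def Low (η : ℝ) : Prop :=
  ∀ u v, u ≠ v → η * ∑ π : PM V, wt r π.1 ≤ ∑ π : PM V with π.1 u = v, wt r π.1

end gap

open Classical in
/-- Averaging over the two classes of a move. -/
def AvgStmt (V : Type) [Fintype V] [DecidableEq V] : Prop :=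
  ∀ (r : V → V → ℝ) (f : PM V → ℝ), Sym r → ∀ (p : V) (j : ℕ) (u v : V)
    (S : (V → V) → (V → V) → Finset V),
    (∀ a b π, (∀ x ∈ S a b, π x = a x) → S π b = S a b) →
    ∑ s : PM V × PM V with (Ok s.1.1 s.2.1 p (2 * j + 1) ∧
        ws s.1.1 s.2.1 p (2 * j + 1) ⊆ S s.1.1 s.2.1 ∧ u ∈ S s.1.1 s.2.1 ∧ v ∈ S s.1.1 s.2.1 ∧
        ∀ x ∈ S s.1.1 s.2.1, s.1.1 x ∈ S s.1.1 s.2.1),
      min (ww r s) (ww r (mvP p j p p u v s)) *
        (mm r f (S s.1.1 s.2.1) (cj u v (fa s.1.1 s.2.1 p j)) - mm r f (S s.1.1 s.2.1) s.1.1 -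
          Pm r f s.1.1 s.2.1 p j) ^ 2 ≤ Dr r f (mvP p j p p u v)

/-- The tree structure of the weights. -/
def PotStmt (V : Type) [Fintype V] [DecidableEq V] : Prop :=
  ∀ (r : V → V → ℝ) (η : ℝ), Sym r → 0 < η → η ≤ 1 → Low r η → Nonempty (PM V) →
    ∃ κ : V → V → ℝ, (∀ u v, κ u v = κ v u) ∧ ∀ (c : ℕ → V) (m l : ℕ) (x y : V), m < l →
      l ≤ Fintype.card V → c m ≠ c (m + 1) → y ≠ c 0 → x ≠ c l →
      (∀ i < l, κ (c i) (c (i + 1)) ≤ κ (c m) (c (m + 1))) →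
      κ (c m) (c (m + 1)) ≤ κ (c 0) y → κ (c m) (c (m + 1)) ≤ κ (c l) x →
      Tt r (16 * (Fintype.card V : ℝ) ^ 2 / η ^ 6) (c 0) y (c m) (c (m + 1)) (c l) x

open Classical in
/-- Splitting into two odd arcs. -/
def OOStmt (V : Type) [Fintype V] [DecidableEq V] : Prop :=
  ∀ (r : V → V → ℝ) (f : PM V → ℝ) (K : ℝ), Sym r → 1 ≤ K → ∀ (p : V) (i k : ℕ),
    ∑ s : PM V × PM V with Cut r K p (2 * i) (2 * k) s, ww r s *
      (Pp r f s.1.1 s.2.1 p (i + k) - Pm r f s.1.1 s.2.1 p i +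
        Pm r f s.2.1 s.1.1 (wk s.1.1 s.2.1 p (2 * i + 1)) k) ^ 2 ≤
      4 * (Fintype.card V : ℝ) ^ 5 * K ^ 6 * Dt r f

open Classical in
/-- Splitting into two even arcs. -/
def EEStmt (V : Type) [Fintype V] [DecidableEq V] : Prop :=
  ∀ (r : V → V → ℝ) (f : PM V → ℝ) (K : ℝ), Sym r → 1 ≤ K → ∀ (p : V) (i k : ℕ),
    ∑ s : PM V × PM V with Cut r K p (2 * i + 1) (2 * k + 1) s, ww r s *
      (Pp r f s.1.1 s.2.1 p (i + k + 1) - Pp r f s.1.1 s.2.1 p i -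
        Pp r f s.1.1 s.2.1 (wk s.1.1 s.2.1 p (2 * i + 2)) k) ^ 2 ≤
      4 * (Fintype.card V : ℝ) ^ 5 * K ^ 6 * Dt r f

open Classical in
/-- Splitting into an odd and an even arc. -/
def OEStmt (V : Type) [Fintype V] [DecidableEq V] : Prop :=
  ∀ (r : V → V → ℝ) (f : PM V → ℝ) (K : ℝ), Sym r → 1 ≤ K → ∀ (p : V) (i k : ℕ),
    ∑ s : PM V × PM V with Cut r K p (2 * i) (2 * k + 1) s, ww r s *
      (Pp r f s.1.1 s.2.1 p (i + k + 1) - Pm r f s.1.1 s.2.1 p i +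
        Pp r f s.2.1 s.1.1 (wk s.1.1 s.2.1 p (2 * i + 1)) k) ^ 2 ≤
      4 * (Fintype.card V : ℝ) ^ 5 * K ^ 6 * Dt r f

open Classical in
/-- Splitting into an even and an odd arc. -/
def EOStmt (V : Type) [Fintype V] [DecidableEq V] : Prop :=
  ∀ (r : V → V → ℝ) (f : PM V → ℝ) (K : ℝ), Sym r → 1 ≤ K → ∀ (p : V) (i k : ℕ),
    ∑ s : PM V × PM V with Cut r K p (2 * i + 1) (2 * k) s, ww r s *
      (Pp r f s.1.1 s.2.1 p (i + k + 1) - Pp r f s.1.1 s.2.1 p i -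
        Pm r f s.1.1 s.2.1 (wk s.1.1 s.2.1 p (2 * i + 2)) k) ^ 2 ≤
      4 * (Fintype.card V : ℝ) ^ 5 * K ^ 6 * Dt r f

/-- The gap of the pair chain on additive functions. -/
def GapStmt (V : Type) [Fintype V] [DecidableEq V] : Prop :=
  ∀ (r : V → V → ℝ) (f : PM V → ℝ) (η : ℝ), Sym r → 0 < η → η ≤ 1 → Low r η →
    ∑ s : PM V × PM V, ww r s * (f s.1 - f s.2) ^ 2 ≤
      2 ^ 40 * (Fintype.card V : ℝ) ^ 30 / η ^ 36 * Dt r f

/-- The Markov operator of the population chain. -/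
noncomputable def Pop {Ω T : Type} [Fintype T] {K : ℕ} (μ : Ω → ℝ) (g : T → Ω × Ω → Ω × Ω)
    (θ : ℝ) (F : (Fin K → Ω) → ℝ) (x : Fin K → Ω) : ℝ :=
  F x + θ * ∑ i, ∑ l, ∑ t, if i = l then 0 else
    min 1 (μ (g t (x i, x l)).1 * μ (g t (x i, x l)).2 / (μ (x i) * μ (x l))) *
      (F (update (update x i (g t (x i, x l)).1) l (g t (x i, x l)).2) - F x)

/-- Mixing of the population chain from a start of low degree. -/
def MixStmt : Prop :=
  ∀ (Ω T : Type) [Fintype Ω] [DecidableEq Ω] [Fintype T] (μ : Ω → ℝ) (g : T → Ω × Ω → Ω × Ω)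
    (ι : T ≃ T) (t0 : T) (C θ u χ : ℝ) (K k j N : ℕ), (∀ a, 0 < μ a) → ∑ a, μ a = 1 →
    (∀ t s, g (ι t) (g t s) = s) → (∀ s, g t0 s = s.swap) →
    (∀ f : Ω → ℝ, ∑ s : Ω × Ω, μ s.1 * μ s.2 * (f s.1 - f s.2) ^ 2 ≤
      C * ∑ t, ∑ s : Ω × Ω, min (μ s.1 * μ s.2) (μ (g t s).1 * μ (g t s).2) *
        (f (g t s).1 + f (g t s).2 - f s.1 - f s.2) ^ 2) →
    1 ≤ C → 0 < θ → θ * K ^ 2 * Fintype.card T ≤ 1 / 2 → 4 * (j + 1) ≤ K → 0 ≤ u →
    16 * ((j : ℝ) + 1) ^ 3 ≤ u ^ 2 * K ^ 3 → 100 * u ≤ θ * K / C →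
    100 * u ^ 2 * N ≤ θ * K / C → 100 * j ≤ θ * K / C * N → 16 * K * χ ^ 2 ≤ 1 →
    ∀ (ρ : Ω → ℝ) (A G : (Fin K → Ω) → ℝ), ∑ a, μ a * ρ a = 1 → (∀ a, |ρ a - 1| ≤ χ) →
    (∀ x, |A x| ≤ 1) → (∀ x y, (∀ i : Fin K, i.val < k → x i = y i) → A x = A y) →
    (∀ x, |G x| ≤ 1) →
    |∑ x, (∏ i, μ (x i) * ρ (x i)) * A x * (Pop μ g θ)^[N] G x -
      (∑ x, (∏ i, μ (x i) * ρ (x i)) * A x) * ∑ y, (∏ i, μ (y i)) * G y| ≤
      100 * ((j : ℝ) + 1) ^ 2 * 4 ^ k / 2 ^ j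

/-- Large deviations of a count. -/
def HoefStmt : Prop :=
  ∀ (Ω : Type) [Fintype Ω] [DecidableEq Ω] (μ : Ω → ℝ) (E : Finset Ω) (K k : ℕ) (a : ℝ),
    (∀ x, 0 ≤ μ x) → ∑ x, μ x = 1 → k ≤ K → 0 ≤ a → a ≤ 1 →
    ∑ x : Fin K → Ω with
      a * k < |((univ.filter fun i : Fin K => i.val < k ∧ x i ∈ E).card : ℝ) - k * ∑ y ∈ E, μ y|,
      ∏ i, μ (x i) ≤ 2 * Real.exp (-(k * a ^ 2 / 4))

/-- Sequential choice of a matching. -/
def gen {V : Type} [DecidableEq V] (B : ℕ) : ℕ → List Bool → List V → (V → V) → V → V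
  | 0, _, _, π => π
  | _ + 1, _, [], π => π
  | m + 1, l, a :: R, π => gen B m (l.drop B) (R.erase (R.getD (val (l.take B) % R.length) a))
      fun v => if v = a then R.getD (val (l.take B) % R.length) a else
        if v = R.getD (val (l.take B) % R.length) a then a else π v

/-- The initial population. -/
def ini (n K B : ℕ) (l : List Bool) : Fin K → Fin n → Fin n := fun i =>
  gen B n ((l.drop (i * (n * B))).take (n * B)) (List.finRange n) id

/-- The law of the initial population. -/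
def InitStmt : Prop :=
  ∀ n : ℕ, Even n → Fintype.card (PM (Fin n)) = (n - 1).doubleFactorial ∧
    ∀ (K B : ℕ) (G : (Fin K → Fin n → Fin n) → ℝ), (∀ x, 0 ≤ G x) →
      Ex (K * (n * B)) (fun l => G (ini n K B l)) ≤ (1 + (n : ℝ) / 2 ^ B) ^ (n * K) *
        ∑ x : Fin K → PM (Fin n), (∏ _i : Fin K, (1 / Fintype.card (PM (Fin n)) : ℝ)) *
          G fun i => (x i).1

/-- The state of the annealing without the population. -/
structure As (n : ℕ) where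
  /-- Exponents of the weights. -/
  k : Fin n → Fin n → ℤ
  /-- Numerator. -/
  nu : ℕ
  /-- Denominator. -/
  de : ℕ
  /-- Whether the annealing is over. -/
  dn : Bool

/-- Proposals. -/
abbrev Prp (n : ℕ) : Type := Fin n × Fin n × Fin n × Fin n × Fin n × Fin n

/-- The move given by a proposal. -/
def gP {n : ℕ} (t : Prp n) : PM (Fin n) × PM (Fin n) → PM (Fin n) × PM (Fin n) :=
  mvP t.1 t.2.1 t.2.2.1 t.2.2.2.1 t.2.2.2.2.1 t.2.2.2.2.2

/-- The energy of a matching. -/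
def W {n : ℕ} (k : Fin n → Fin n → ℤ) (π : Fin n → Fin n) : ℤ := ∑ v, k v (π v)

/-- Change of the exponent of one edge. -/
def bump {n : ℕ} (k : Fin n → Fin n → ℤ) (u v : Fin n) (d : ℤ) : Fin n → Fin n → ℤ := fun x y =>
  if (x = u ∧ y = v) ∨ (x = v ∧ y = u) then k x y + d else k x y

/-- All ordered pairs. -/
def prs (n : ℕ) : List (Fin n × Fin n) :=
  (List.finRange n).flatMap fun u => (List.finRange n).map fun v => (u, v)

/-- A number read from the tape. -/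
def rd (l : List Bool) (s m : ℕ) : ℕ := val ((l.drop s).take m)

section alg

variable {n : ℕ} (b : ℕ) (adj : Fin n → Fin n → Bool)

/-- The base of all parameters. -/
def q : ℕ := 2 ^ b
/-- The inverse step of the annealing. -/
def qq : ℕ := q b ^ 171
/-- The base of the weights. -/
noncomputable def gam : ℝ := 1 - 1 / qq b
/-- Size of the population. -/
def KK : ℕ := q b ^ 340
/-- Size of the sample. -/
def kk : ℕ := q b ^ 13
/-- Steps in one stage. -/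
def TT : ℕ := q b ^ 490
/-- Stages. -/
def SS : ℕ := q b ^ 174
/-- Bound on the increase of the energy. -/
def Wm : ℕ := q b ^ 176
/-- Bits for the filter. -/
def K4 : ℕ := 171 * b * Wm b
/-- Bits for one step. -/
def B1 : ℕ := 1 + 686 * b + K4 b
/-- Bits for one choice at the start. -/
def BI : ℕ := 342 * b

/-- The weights. -/
noncomputable def rr (k : Fin n → Fin n → ℤ) (u v : Fin n) : ℝ := gam b ^ k u v

/-- The partition function. -/
noncomputable def PP (k : Fin n → Fin n → ℤ) : ℝ := ∑ π : PM (Fin n), wt (rr b k) π.1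

/-- The law of a matching. -/
noncomputable def mu (k : Fin n → Fin n → ℤ) (π : PM (Fin n)) : ℝ := wt (rr b k) π.1 / PP b k

/-- The probability of an edge. -/
noncomputable def xm (k : Fin n → Fin n → ℤ) (u v : Fin n) : ℝ :=
  ∑ π : PM (Fin n) with π.1 u = v, mu b k π

/-- Increase of the energy. -/
def inc (k : Fin n → Fin n → ℤ) (s s' : (Fin n → Fin n) × (Fin n → Fin n)) : ℕ :=
  min (W k s'.1 + W k s'.2 - W k s.1 - W k s.2).toNat (Wm b)

/-- One move with the filter. -/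
def fmove (k : Fin n → Fin n → ℤ) (x : Fin (KK b) → Fin n → Fin n) (i l : Fin (KK b))
    (s' : (Fin n → Fin n) × (Fin n → Fin n)) (U : ℕ) : Fin (KK b) → Fin n → Fin n :=
  if i ≠ l ∧ U * qq b ^ inc b k (x i, x l) s' < (qq b - 1) ^ inc b k (x i, x l) s' * 2 ^ K4 b then
    update (update x i s'.1) l s'.2 else x

/-- One step of the chain. -/
def fstep (k : Fin n → Fin n → ℤ) (l : List Bool) (x : Fin (KK b) → Fin n → Fin n) :
    Fin (KK b) → Fin n → Fin n :=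
  if h : l.headD false = true ∧ (rd l 1 (340 * b) < KK b ∧ rd l (1 + 340 * b) (340 * b) < KK b) ∧
      rd l (1 + 680 * b) b < n ∧ rd l (1 + 681 * b) b < n ∧ rd l (1 + 682 * b) b < n ∧
      rd l (1 + 683 * b) b < n ∧ rd l (1 + 684 * b) b < n ∧ rd l (1 + 685 * b) b < n then
    fmove b k x ⟨_, h.2.1.1⟩ ⟨_, h.2.1.2⟩
      (mv ⟨_, h.2.2.1⟩ (rd l (1 + 681 * b) b) ⟨_, h.2.2.2.2.1⟩ ⟨_, h.2.2.2.2.2.1⟩
        ⟨_, h.2.2.2.2.2.2.1⟩ ⟨_, h.2.2.2.2.2.2.2⟩ (x ⟨_, h.2.1.1⟩, x ⟨_, h.2.1.2⟩))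
      (rd l (1 + 686 * b) (K4 b))
  else x

/-- The counts in the sample. -/
def cnt (x : Fin (KK b) → Fin n → Fin n) (u v : Fin n) : ℕ :=
  (univ.filter fun i : Fin (KK b) => i.val < kk b ∧ x i u = v).card

/-- The decision: an edge and a direction. -/
def dec (k : Fin n → Fin n → ℤ) (c : Fin n → Fin n → ℕ) : Option (Fin n × Fin n × Bool) :=
  ((((prs n).filter fun e => decide (e.1 ≠ e.2 ∧ c e.1 e.2 < 2 * q b ^ 11)).map
      fun e => (e.1, e.2, true)) ++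
    (((prs n).filter fun e => decide (e.1 ≠ e.2 ∧ 4 * q b ^ 11 < c e.1 e.2 ∧
      (adj e.1 e.2 = false ∨ k e.1 e.2 < 0))).map fun e => (e.1, e.2, false))).head?

/-- The update of the weights and of the estimate. -/
def aup (c : Fin n → Fin n → ℕ) (s : As n) : As n :=
  if s.dn then s else (dec b adj s.k c).elim { s with dn := true } fun d =>
    if d.2.2 then
      ⟨bump s.k d.1 d.2.1 (-1), s.nu * (kk b * (qq b - 1) ^ 2 + (2 * qq b - 1) * c d.1 d.2.1),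
        s.de * (kk b * (qq b - 1) ^ 2), false⟩
    else
      ⟨bump s.k d.1 d.2.1 1, s.nu * (kk b * qq b ^ 2 - (2 * qq b - 1) * c d.1 d.2.1),
        s.de * (kk b * qq b ^ 2), false⟩

/-- One stage. -/
def stg (l : List Bool) (s : As n × (Fin (KK b) → Fin n → Fin n)) :
    As n × (Fin (KK b) → Fin n → Fin n) :=
  (aup b adj (cnt b s.2) s.1, run (fstep b (aup b adj (cnt b s.2) s.1).k) (B1 b) (TT b) l s.2)

/-- The last state. -/
def fin (l : List Bool) : As n :=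
  (run (stg b adj) (TT b * B1 b) (SS b) (l.drop (KK b * (n * BI b)))
    (⟨fun _ _ => 0, 1, 1, false⟩, ini n (KK b) (BI b) l)).1

/-- The output. -/
def out (l : List Bool) : ℕ × ℕ :=
  (if (fin b adj l).dn then (fin b adj l).nu * (n - 1).doubleFactorial else 0, (fin b adj l).de)

/-- The number of perfect matchings of the graph. -/
def ZZ : ℕ := (univ.filter fun π : PM (Fin n) => ∀ v, adj v (π.1 v) = true).card

/-- Accurate output. -/
def Good (o : ℕ × ℕ) : Prop :=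
  (1 - 1 / q b : ℝ) * ZZ adj ≤ (o.1 : ℝ) / o.2 ∧ (o.1 : ℝ) / o.2 ≤ (1 + 1 / q b : ℝ) * ZZ adj

/-- Accurate counts. -/
def Acc (k : Fin n → Fin n → ℤ) (c : Fin n → Fin n → ℕ) : Prop :=
  ∀ u v, u ≠ v → c u v ≤ kk b ∧ |(c u v : ℝ) - kk b * xm b k u v| ≤ 1 / (q b : ℝ) ^ 5 * kk b

/-- The bits drive the population chain. -/
def StepStmt (n : ℕ) : Prop :=
  ∀ k : Fin n → Fin n → ℤ, (∀ u v, |k u v| ≤ SS b) →
    ∀ (F : (Fin (KK b) → Fin n → Fin n) → ℝ) (N : ℕ) (x : Fin (KK b) → PM (Fin n)),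
    Ex (N * B1 b) (fun l => F (run (fstep b k) (B1 b) N l fun i => (x i).1)) =
      (Pop (mu b k) gP (1 / (2 * (KK b : ℝ) ^ 2 * (q b : ℝ) ^ 6)))^[N]
        (fun y => F fun i => (y i).1) x

/-- The annealing with accurate counts. -/
def AnnStmt : Prop :=
  ∃ Inv : ℕ → As n → Prop, Inv 0 ⟨fun _ _ => 0, 1, 1, false⟩ ∧
    (∀ t s, Inv t s → s.dn = false ∧ (∀ u v, s.k u v = s.k v u) ∧ (∀ u v, |s.k u v| ≤ t) ∧
      ∀ u v, u ≠ v → 1 / (q b : ℝ) ^ 3 ≤ xm b s.k u v) ∧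
    (∀ t s c, t < SS b → Inv t s → Acc b s.k c →
      (aup b adj c s = { s with dn := true } ∧
        Good b adj (s.nu * Fintype.card (PM (Fin n)), s.de)) ∨
      (Inv (t + 1) (aup b adj c s) ∧
        ∀ π, |mu b s.k π / mu b (aup b adj c s).k π - 1| ≤ 3 / qq b)) ∧
    ∀ s, Inv (SS b) s → ZZ adj = 0

open Classical in
/-- The law of the output. -/
def LawStmt : Prop :=
  ∀ P : ℕ, KK b * (n * BI b) + SS b * (TT b * B1 b) ≤ P →
    1 - 1 / 2 ^ q b ≤ Ex P fun ρ => if Good b adj (out b adj ρ) then 1 else 0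

end alg

/-- The final statement. -/
def FinalStmt : Prop :=
  ∃ (f : List (List Bool) × List ℕ × List Bool → ℕ × ℕ) (P : Polynomial ℕ),
    (∃ M : Turing.TM2ComputableInPolyTime codeIn codeOut f, ∀ k, Finite (M.tm.Γ k)) ∧
    ∀ (n : ℕ) (G : SimpleGraph (Fin n)) [DecidableRel G.Adj] (ε δ : ℚ),
      0 < ε → ε < 1 → 0 < δ → δ < 1 →
      ∀ T : ℕ, T = P.eval (n + ⌈ε⁻¹⌉₊ + Nat.size ⌈δ⁻¹⌉₊) →
      ∀ Z : ℕ, Z = {M : G.Subgraph | M.IsPerfectMatching}.ncard →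
      1 - δ ≤ ((univ.filter fun ρ : Fin T → Bool =>
        (1 - ε) * Z ≤ estimate f G ε δ (List.ofFn ρ) ∧
        estimate f G ε δ (List.ofFn ρ) ≤ (1 + ε) * Z).card : ℚ) / 2 ^ T

end Vale.Agent.P308
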