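import Vale.Agent.P308.Spec
import Vale.Agent.P328.Law1

/-!
The random bits drive the population chain.
-/

namespace Vale.Agent.P308

open Finset Function
open Vale.Agent.P328 (Ex val)
open Vale.Agent.P328.Lw (Ex_congr Ex_split Ex_val Ex_const Ex_lin sum_ite_lt)
open Vale.Agent.P317 (run)

namespace Sp

/-- Numbers read from consecutive blocks. -/
def rds : List ℕ → List Bool → List ℕ
  | [], _ => []
  | a :: w, l => val (l.take a) :: rds w (l.drop a)

/-- Iterated averages. -/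
noncomputable def nest : List ℕ → (List ℕ → ℝ) → ℝ
  | [], Φ => Φ []
  | a :: w, Φ => (∑ v ∈ range (2 ^ a), nest w fun t => Φ (v :: t)) / 2 ^ a

theorem Ex_rds (w : List ℕ) (Φ : List ℕ → ℝ) : Ex w.sum (fun l => Φ (rds w l)) = nest w Φ := by
  induction w generalizing Φ with
  | nil => simp [Ex, rds, nest]
  | cons a w ih =>
    simp only [List.sum_cons, rds, nest]
    rw [Ex_split a _ fun l l' => Φ (val l :: rds w l'),
      Ex_val a fun v => Ex w.sum fun l' => Φ (v :: rds w l')]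
    congr 1
    exact sum_congr rfl fun v _ => ih fun t => Φ (v :: t)

theorem sum_fin {m Q : ℕ} (h : m ≤ Q) (g : ℕ → ℝ) (h0 : ∀ v, m ≤ v → g v = 0) :
    ∑ v ∈ range Q, g v = ∑ i : Fin m, g i := by
  rw [Fin.sum_univ_eq_sum_range]
  exact (sum_subset (range_subset_range.2 h) fun v _ hv => h0 v (by simpa using hv)).symm

theorem six {n Q : ℕ} (h : n ≤ Q) (g : ℕ → ℕ → ℕ → ℕ → ℕ → ℕ → ℝ)
    (h0 : ∀ a c d e f j, ¬ (a < n ∧ c < n ∧ d < n ∧ e < n ∧ f < n ∧ j < n) → g a c d e f j = 0) :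
    ∑ a ∈ range Q, ∑ c ∈ range Q, ∑ d ∈ range Q, ∑ e ∈ range Q, ∑ f ∈ range Q, ∑ j ∈ range Q,
      g a c d e f j =
      ∑ t : Prp n, g t.1 t.2.1 t.2.2.1 t.2.2.2.1 t.2.2.2.2.1 t.2.2.2.2.2 := by
  simp only [Fintype.sum_prod_type]
  iterate 5
    rw [sum_fin h _ fun v hv => by
      repeat refine sum_eq_zero fun _ _ => ?_
      exact h0 _ _ _ _ _ _ (by omega)]
    refine sum_congr rfl fun _ _ => ?_
  exact sum_fin h _ fun v hv => h0 _ _ _ _ _ _ (by omega)

theorem pw {ι : Type} {γ : ℝ} (h : γ ≠ 0) (s : Finset ι) (z : ι → ℤ) :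
    ∏ i ∈ s, γ ^ z i = γ ^ ∑ i ∈ s, z i := by
  classical
  induction s using Finset.induction_on with
  | empty => simp
  | insert a s ha ih => rw [prod_insert ha, sum_insert ha, zpow_add₀ h, ih]

variable {n b : ℕ} (hq : 2 ^ 20 * (n + 1) ^ 2 ≤ q b)
include hq

theorem q_ge : 4 * n + 4 ≤ q b := le_trans (by nlinarith) hq

theorem qq_ge : 2 ≤ qq b := by
  have := q_ge hq
  exact le_trans (by omega) (Nat.le_self_pow (by norm_num) (q b))

theorem gam_pos : 0 < gam b := by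
  have : (2 : ℝ) ≤ qq b := by exact_mod_cast qq_ge hq
  rw [gam, sub_pos, div_lt_one (by linarith)]
  linarith

omit hq in
theorem gam_le : gam b ≤ 1 := by
  rw [gam]
  have : (0 : ℝ) ≤ 1 / qq b := by positivity
  linarith

omit hq in
theorem W_le {k : Fin n → Fin n → ℤ} (hk : ∀ u v, |k u v| ≤ SS b) (π : Fin n → Fin n) :
    |W k π| ≤ (n * SS b : ℕ) := by
  refine (abs_sum_le_sum_abs _ _).trans ((sum_le_sum fun v _ => hk v (π v)).trans ?_)
  simp

theorem ratio {k : Fin n → Fin n → ℤ} (hk : ∀ u v, |k u v| ≤ SS b)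
    (s s' : PM (Fin n) × PM (Fin n)) :
    min 1 (mu b k s'.1 * mu b k s'.2 / (mu b k s.1 * mu b k s.2)) =
      gam b ^ inc b k (s.1.1, s.2.1) (s'.1.1, s'.2.1) := by
  have g := gam_pos hq
  have g1 := gam_le (b := b)
  have hw : ∀ π : Fin n → Fin n, wt (rr b k) π = gam b ^ W k π := fun π => pw g.ne' _ _
  have hP : 0 < PP b k :=
    sum_pos (fun π _ => by rw [hw]; positivity) ⟨s.1, mem_univ _⟩
  have e : mu b k s'.1 * mu b k s'.2 / (mu b k s.1 * mu b k s.2) =
      gam b ^ (W k s'.1.1 + W k s'.2.1 - W k s.1.1 - W k s.2.1) := by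
    simp only [mu, hw, zpow_sub₀ g.ne', zpow_add₀ g.ne']
    field_simp
  have a1 := abs_le.1 (W_le hk s'.1.1)
  have a2 := abs_le.1 (W_le hk s'.2.1)
  have a3 := abs_le.1 (W_le hk s.1.1)
  have a4 := abs_le.1 (W_le hk s.2.1)
  have a5 : 4 * (n * SS b) ≤ Wm b := by
    have := q_ge hq
    rw [Wm, SS, show q b ^ 176 = q b * q b * q b ^ 174 by ring, ← mul_assoc]
    exact Nat.mul_le_mul_right _ (by nlinarith)
  rw [e, inc, min_eq_left (a := Int.toNat _) (by dsimp only; omega)]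
  dsimp only
  generalize W k s'.1.1 + W k s'.2.1 - W k s.1.1 - W k s.2.1 = z
  obtain ⟨m, rfl | rfl⟩ := z.eq_nat_or_neg
  · rw [zpow_natCast, Int.toNat_natCast]
    exact min_eq_right (pow_le_one₀ g.le g1)
  · rw [Int.toNat_neg_natCast, pow_zero, zpow_neg, zpow_natCast]
    exact min_eq_left ((one_le_inv₀ (by positivity)).2 (pow_le_one₀ g.le g1))

theorem fil (k : Fin n → Fin n → ℤ) (F : (Fin (KK b) → Fin n → Fin n) → ℝ)
    (x : Fin (KK b) → Fin n → Fin n) (i l : Fin (KK b))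
    (s' : (Fin n → Fin n) × (Fin n → Fin n)) :
    (∑ U ∈ range (2 ^ K4 b), (F (fmove b k x i l s' U) - F x)) / 2 ^ K4 b =
      if i = l then 0 else
        gam b ^ inc b k (x i, x l) s' * (F (update (update x i s'.1) l s'.2) - F x) := by
  split_ifs with h
  · simp [fmove, h]
  have hq' := qq_ge hq
  have hD : inc b k (x i, x l) s' ≤ Wm b := min_le_right _ _
  obtain ⟨E, hE⟩ := Nat.exists_eq_add_of_le hD
  have e1 : 2 ^ K4 b = qq b ^ E * qq b ^ inc b k (x i, x l) s' := by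
    rw [← pow_add, add_comm, ← hE, qq, q, ← pow_mul, ← pow_mul, K4, ← mul_assoc, mul_comm b]
  have e2 : ∀ u, F (fmove b k x i l s' u) - F x =
      if u < (qq b - 1) ^ inc b k (x i, x l) s' * qq b ^ E then
        F (update (update x i s'.1) l s'.2) - F x else 0 := by
    intro u
    rw [fmove, e1, ← mul_assoc]
    simp only [Nat.mul_lt_mul_right (show 0 < qq b ^ inc b k (x i, x l) s' by positivity), ne_eq,
      h, not_false_eq_true, true_and]
    split_ifs
    · rfl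
    · exact sub_self _
  simp only [e2]
  generalize inc b k (x i, x l) s' = D at *
  rw [sum_ite_lt (by
    rw [e1, mul_comm]; exact Nat.mul_le_mul_left _ (Nat.pow_le_pow_left (by omega) _))]
  have e3 : (2 : ℝ) ^ K4 b = (qq b : ℝ) ^ E * (qq b : ℝ) ^ D := by exact_mod_cast e1
  have h0 : (0 : ℝ) < qq b := by positivity
  have e4 : gam b = ((qq b : ℝ) - 1) / qq b := by rw [gam]; field_simp
  push_cast [Nat.cast_sub (show 1 ≤ qq b by omega)]
  rw [e3, e4, div_pow]
  field_simp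
  ring

omit hq in
/-- The increment as a function of the numbers read. -/
noncomputable def Ph (k : Fin n → Fin n → ℤ) (F : (Fin (KK b) → Fin n → Fin n) → ℝ)
    (x : Fin (KK b) → Fin n → Fin n) (i l a c d e f j U : ℕ) : ℝ :=
  if h : (i < KK b ∧ l < KK b) ∧ a < n ∧ c < n ∧ d < n ∧ e < n ∧ f < n ∧ j < n then
    F (fmove b k x ⟨_, h.1.1⟩ ⟨_, h.1.2⟩
      (mv ⟨_, h.2.1⟩ c ⟨_, h.2.2.2.1⟩ ⟨_, h.2.2.2.2.1⟩ ⟨_, h.2.2.2.2.2.1⟩ ⟨_, h.2.2.2.2.2.2⟩
        (x ⟨_, h.1.1⟩, x ⟨_, h.1.2⟩)) U) - F x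
  else 0

omit hq in
theorem fstep_true (k : Fin n → Fin n → ℤ) (F : (Fin (KK b) → Fin n → Fin n) → ℝ)
    (x : Fin (KK b) → Fin n → Fin n) (l : List Bool) (hl : l.headD false = true) :
    F (fstep b k l x) = F x + Ph k F x (rd l 1 (340 * b)) (rd l (1 + 340 * b) (340 * b))
      (rd l (1 + 680 * b) b) (rd l (1 + 681 * b) b) (rd l (1 + 682 * b) b) (rd l (1 + 683 * b) b)
      (rd l (1 + 684 * b) b) (rd l (1 + 685 * b) b) (rd l (1 + 686 * b) (K4 b)) := by
  unfold fstep Ph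
  split_ifs with h1 h2 h2
  · ring
  · exact absurd h1.2 h2
  · exact absurd ⟨hl, h2⟩ h1
  · ring

theorem Ex_step {k : Fin n → Fin n → ℤ} (hk : ∀ u v, |k u v| ≤ SS b)
    (F : (Fin (KK b) → Fin n → Fin n) → ℝ) (x : Fin (KK b) → PM (Fin n)) :
    Ex (B1 b) (fun l => F (fstep b k l fun i => (x i).1)) =
      Pop (mu b k) gP (1 / (2 * (KK b : ℝ) ^ 2 * (q b : ℝ) ^ 6))
        (fun y => F fun i => (y i).1) x := by
  set X : Fin (KK b) → Fin n → Fin n := fun i => (x i).1 with hX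
  let w : List ℕ := [340 * b, 340 * b, b, b, b, b, b, b, K4 b]
  let Φ : List ℕ → ℝ := fun t => Ph k F X (t.getD 0 0) (t.getD 1 0) (t.getD 2 0) (t.getD 3 0)
    (t.getD 4 0) (t.getD 5 0) (t.getD 6 0) (t.getD 7 0) (t.getD 8 0)
  have e0 : B1 b = w.sum + 1 := by simp [B1, w]; ring
  have e1 : ∀ l : List Bool, F (fstep b k (false :: l) X) = F X := fun l => by
    rw [fstep, dif_neg (by simp)]
  have e2 : ∀ l : List Bool, F (fstep b k (true :: l) X) = F X + 1 * Φ (rds w l) + 0 * 0 := by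
    intro l
    have r1 : ∀ s s' m : ℕ, s = s' → rd (true :: l) (1 + s) m = val ((l.drop s').take m) := by
      rintro s _ m rfl
      rw [rd, add_comm, List.drop_succ_cons]
    rw [fstep_true k F X _ rfl]
    simp only [Φ, w, rds, List.getD_cons_zero, List.getD_cons_succ, List.drop_drop]
    rw [r1 _ _ _ rfl, r1 (680 * b) (340 * b + 340 * b) _ (by ring),
      r1 (681 * b) (340 * b + 340 * b + b) _ (by ring),
      r1 (682 * b) (340 * b + 340 * b + b + b) _ (by ring),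
      r1 (683 * b) (340 * b + 340 * b + b + b + b) _ (by ring),
      r1 (684 * b) (340 * b + 340 * b + b + b + b + b) _ (by ring),
      r1 (685 * b) (340 * b + 340 * b + b + b + b + b + b) _ (by ring),
      r1 (686 * b) (340 * b + 340 * b + b + b + b + b + b + b) _ (by ring)]
    simp [rd]
  have eK : 2 ^ (340 * b) = KK b := by rw [KK, q, ← pow_mul, mul_comm]
  have eK' : (2 : ℝ) ^ (340 * b) = KK b := by exact_mod_cast eK
  have eq' : (2 : ℝ) ^ b = q b := by simp [q]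
  have hn : n ≤ 2 ^ b := by have := q_ge hq; rw [q] at this; omega
  have e3 : nest w Φ = (∑ i : Fin (KK b), ∑ l : Fin (KK b), ∑ t : Prp n,
      (∑ U ∈ range (2 ^ K4 b), Ph k F X i l t.1 t.2.1 t.2.2.1 t.2.2.2.1 t.2.2.2.2.1 t.2.2.2.2.2 U) /
        2 ^ K4 b) / ((KK b : ℝ) ^ 2 * (q b : ℝ) ^ 6) := by
    simp only [Φ, w, nest, List.getD_cons_zero, List.getD_cons_succ]
    generalize hg : (fun i l a c d e f j =>
      (∑ U ∈ range (2 ^ K4 b), Ph k F X i l a c d e f j U) / 2 ^ K4 b) = g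
    have hg' : ∀ i l a c d e f j,
        (∑ U ∈ range (2 ^ K4 b), Ph k F X i l a c d e f j U) / 2 ^ K4 b = g i l a c d e f j :=
      fun i l a c d e f j => by rw [← hg]
    have h0 : ∀ i l a c d e f j, ¬ (a < n ∧ c < n ∧ d < n ∧ e < n ∧ f < n ∧ j < n) →
        g i l a c d e f j = 0 := fun i l a c d e f j h => by
      rw [← hg', sum_eq_zero fun U _ => dif_neg fun h' => h h'.2, zero_div]
    simp only [hg', ← sum_div, eK, eK', eq', Finset.sum_range (n := KK b)]
    simp only [six hn _ (h0 _ _), div_div]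
    congr 1
    ring
  have e4 : ∀ (i l : Fin (KK b)) (t : Prp n),
      (∑ U ∈ range (2 ^ K4 b), Ph k F X i l t.1 t.2.1 t.2.2.1 t.2.2.2.1 t.2.2.2.2.1 t.2.2.2.2.2 U) /
        2 ^ K4 b = if i = l then 0 else
      min 1 (mu b k (gP t (x i, x l)).1 * mu b k (gP t (x i, x l)).2 /
        (mu b k (x i) * mu b k (x l))) *
      ((F fun m => (update (update x i (gP t (x i, x l)).1) l (gP t (x i, x l)).2 m).1) - F X) := by
    intro i l t
    have u1 : (fun m => (update (update x i (gP t (x i, x l)).1) l (gP t (x i, x l)).2 m).1) =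
        update (update X i (gP t (x i, x l)).1.1) l (gP t (x i, x l)).2.1 := by
      funext m
      simp only [update_apply, hX]
      split_ifs <;> rfl
    rw [ratio hq hk (x i, x l) (gP t (x i, x l)), u1]
    refine Eq.trans ?_ (fil hq k F X i l ((gP t (x i, x l)).1.1, (gP t (x i, x l)).2.1))
    congr 1
    refine sum_congr rfl fun U _ => ?_
    rw [Ph, dif_pos ⟨⟨i.2, l.2⟩, t.1.2, t.2.1.2, t.2.2.1.2, t.2.2.2.1.2, t.2.2.2.2.1.2,
      t.2.2.2.2.2.2⟩]
    rfl
  rw [e0]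
  simp only [Ex, e1, e2]
  rw [Ex_const, Ex_lin _ _ _ _ (fun l => Φ (rds w l)) fun _ => 0, Ex_rds, e3, Pop]
  simp only [e4]
  generalize (∑ i : Fin (KK b), ∑ l : Fin (KK b), ∑ t : Prp n, _ : ℝ) = S
  ring

end Sp

theorem step {n : ℕ} (b : ℕ) (hq : 2 ^ 20 * (n + 1) ^ 2 ≤ q b) : StepStmt b n := by
  intro k hk F N
  induction N with
  | zero => intro x; simp [Ex, run]
  | succ N ih =>
    intro x
    rw [Vale.Agent.P317.Ex_run _ _ N F, Function.iterate_succ_apply', ← funext ih]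
    exact Sp.Ex_step hq hk (fun z => Ex (N * B1 b) fun l' => F (run (fstep b k) (B1 b) N l' z)) x

end Vale.Agent.P308
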