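import Vale.Agent.P308.Spec

/-!
Shared tools for the gap: transfer of the averaging bound along injections.
-/

namespace Vale.Agent.P308

open Finset Function

variable {V : Type} [Fintype V] [DecidableEq V] {r : V → V → ℝ} {f : PM V → ℝ}

theorem mm_congr {S : Finset V} {α β : V → V} (h : ∀ v ∈ S, α v = β v) :
    mm r f S α = mm r f S β := by
  have : (univ.filter fun π : PM V => ∀ v ∈ S, π.1 v = α v) =
      univ.filter fun π : PM V => ∀ v ∈ S, π.1 v = β v :=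
    filter_congr fun π _ => forall₂_congr fun v hv => by rw [h v hv]
  rw [mm, mm, this]

theorem mm_univ (hr : Sym r) (a : PM V) : mm r f univ a.1 = f a := by
  have : (univ.filter fun π : PM V => ∀ v ∈ univ, π.1 v = a.1 v) = {a} := by
    ext π
    simp only [mem_filter, mem_univ, true_and, mem_singleton, forall_const]
    exact ⟨fun h => Subtype.ext (funext h), fun h _ => by rw [h]⟩
  rw [mm, this, sum_singleton, sum_singleton, mul_div_cancel_left₀ _ (wt_pos hr.1 _).ne']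

theorem ww_pos (hr : Sym r) (s : PM V × PM V) : 0 < ww r s :=
  mul_pos (wt_pos hr.1 _) (wt_pos hr.1 _)

theorem Dr_nonneg (hr : Sym r) (g : PM V × PM V → PM V × PM V) : 0 ≤ Dr r f g :=
  sum_nonneg fun _ _ => mul_nonneg (le_min (ww_pos hr _).le (ww_pos hr _).le) (sq_nonneg _)

theorem Dt_nonneg (hr : Sym r) : 0 ≤ Dt r f := by
  unfold Dt
  iterate 6 refine sum_nonneg fun _ _ => ?_
  exact Dr_nonneg hr _

theorem Dr_le_Dt (hr : Sym r) (p : V) {j : ℕ} (hj : j < Fintype.card V) (u v u' v' : V) :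
    Dr r f (mvP p j u v u' v') ≤ Dt r f := by
  have h := fun g => Dr_nonneg (f := f) hr g
  unfold Dt
  refine le_trans ?_ (single_le_sum (fun _ _ => by
    iterate 5 refine sum_nonneg fun _ _ => ?_
    exact h _) (mem_univ p))
  refine le_trans ?_ (single_le_sum (fun _ _ => by
    iterate 4 refine sum_nonneg fun _ _ => ?_
    exact h _) (mem_range.2 hj))
  refine le_trans ?_ (single_le_sum (fun _ _ => by
    iterate 3 refine sum_nonneg fun _ _ => ?_
    exact h _) (mem_univ u))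
  refine le_trans ?_ (single_le_sum (fun _ _ => by
    iterate 2 refine sum_nonneg fun _ _ => ?_
    exact h _) (mem_univ v))
  refine le_trans ?_ (single_le_sum (fun _ _ => sum_nonneg fun _ _ => h _) (mem_univ u'))
  exact single_le_sum (f := fun v' => Dr r f (mvP p j u v u' v')) (fun _ _ => h _) (mem_univ v')

omit [Fintype V] [DecidableEq V] in
theorem Tt.three {K : ℝ} {p y q1 p2 q x : V} (h : Tt r K p y q1 p2 q x) (hK : 1 ≤ K)
    {u1 v1 u2 v2 u3 v3 : V} (h1 : u1 ≠ v1) (h2 : u2 ≠ v2) (h3 : u3 ≠ v3)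
    (e : ∀ s : V → ℝ, s p * s y * (s q1 * s p2) * (s q * s x) =
      s u1 * s v1 * (s u2 * s v2) * (s u3 * s v3)) :
    r p y ^ 2 * r q1 p2 ^ 2 * r q x ^ 2 ≤ K ^ 6 * (r u1 v1 ^ 2 * r u2 v2 ^ 2 * r u3 v3 ^ 2) := by
  obtain ⟨s, s0, s1, a1, a2, a3⟩ := h
  have k0 : 0 ≤ K := by linarith
  have n := fun u v => mul_nonneg (s0 u) (s0 v)
  calc _ ≤ K * (s p * s y) * (K * (s q1 * s p2)) * (K * (s q * s x)) := by
        have := n p y
        have := n q1 p2
        gcongr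
    _ = K ^ 3 * (s u1 * s v1 * (s u2 * s v2) * (s u3 * s v3)) := by rw [← e]; ring
    _ ≤ K ^ 3 * (K * r u1 v1 ^ 2 * (K * r u2 v2 ^ 2) * (K * r u3 v3 ^ 2)) := by
        refine mul_le_mul_of_nonneg_left (mul_le_mul (mul_le_mul (s1 _ _ h1) (s1 _ _ h2) (n _ _)
          (by positivity)) (s1 _ _ h3) (n _ _) (by positivity)) (by positivity)
    _ = _ := by ring

omit [Fintype V] [DecidableEq V] in
theorem Tt.two {K : ℝ} {p y q1 p2 q x : V} (h : Tt r K p y q1 p2 q x) (hK : 1 ≤ K)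
    (h1 : p ≠ x) (h2 : q ≠ y) :
    r q x ^ 2 * r p y ^ 2 ≤ K ^ 4 * (r p x ^ 2 * r q y ^ 2) := by
  obtain ⟨s, s0, s1, a1, -, a3⟩ := h
  have k0 : 0 ≤ K := by linarith
  have n := fun u v => mul_nonneg (s0 u) (s0 v)
  calc _ ≤ K * (s q * s x) * (K * (s p * s y)) := by
        have := n q x
        gcongr
    _ = K ^ 2 * (s p * s x * (s q * s y)) := by ring
    _ ≤ K ^ 2 * (K * r p x ^ 2 * (K * r q y ^ 2)) := by
        exact mul_le_mul_of_nonneg_left (mul_le_mul (s1 _ _ h1) (s1 _ _ h2) (n _ _)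
          (by positivity)) (by positivity)
    _ = _ := by ring

/-- Comparison of weights from an identity. -/
theorem wt_le {w w' L L' C : ℝ} (e : w' * L = w * L') (h : L ≤ C * L') (hw : 0 < w) (hL : 0 < L)
    (hL' : 0 < L') : w ≤ C * w' := by
  refine le_of_mul_le_mul_right ?_ hL
  rw [mul_assoc, e]
  nlinarith

variable (r f)

/-- The error of the averaging bound. -/
noncomputable def Er (S : Finset V) (a b : V → V) (p : V) (j : ℕ) (u v : V) : ℝ :=
  mm r f S (cj u v (fa a b p j)) - mm r f S a - Pm r f a b p j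

/-- A hidden pair. -/
structure Hid (C w : ℝ) (S : Finset V) (a b : V → V) (p : V) (j : ℕ) (u v : V) : Prop where
  ok : Ok a b p (2 * j + 1)
  sub : ws a b p (2 * j + 1) ⊆ S
  hu : u ∈ S
  hv : v ∈ S
  cl : ∀ x ∈ S, a x ∈ S
  w1 : w ≤ C * (wt r a * wt r b)
  w2 : w ≤ C * (wt r (cj u v (fa a b p j)) * wt r (fb a b p j))

variable {r f}

theorem mvP_ok {p : V} {j : ℕ} {s : PM V × PM V} (h : Ok s.1.1 s.2.1 p (2 * j + 1)) (u v : V) :
    (mvP p j p p u v s).1.1 = fb s.1.1 s.2.1 p j ∧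
      (mvP p j p p u v s).2.1 = cj u v (fa s.1.1 s.2.1 p j) := by
  obtain ⟨h1, h2⟩ := flP_ok h
  simp only [mvP, cjP_self, Prod.mk.eta]
  exact ⟨h1, by rw [← h2]; rfl⟩

theorem transfer (h : AvgStmt V) (hr : Sym r) {ι : Type} [Fintype ι] [DecidableEq ι]
    (R : Finset (PM V × PM V)) (key : PM V × PM V → ι) (T : ι → PM V × PM V → PM V × PM V)
    (hT : ∀ c, Injective (T c)) (p u v : ι → V) (j : ℕ)
    (S : ι → (V → V) → (V → V) → Finset V)
    (hS : ∀ c a b π, (∀ x ∈ S c a b, π x = a x) → S c π b = S c a b) {C : ℝ} (hC : 0 ≤ C)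
    (H : ∀ s ∈ R, Hid r C (ww r s) (S (key s) (T (key s) s).1.1 (T (key s) s).2.1)
      (T (key s) s).1.1 (T (key s) s).2.1 (p (key s)) j (u (key s)) (v (key s))) :
    ∑ s ∈ R, ww r s * Er r f (S (key s) (T (key s) s).1.1 (T (key s) s).2.1)
      (T (key s) s).1.1 (T (key s) s).2.1 (p (key s)) j (u (key s)) (v (key s)) ^ 2 ≤
      Fintype.card ι * C * Dt r f := by
  classical
  rcases R.eq_empty_or_nonempty with rfl | ⟨s0, hs0⟩
  · have := Dt_nonneg (f := f) hr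
    rw [sum_empty]; positivity
  have hj : j < Fintype.card V := by have := (H s0 hs0).ok.le; omega
  rw [← sum_fiberwise R key, mul_assoc, ← nsmul_eq_mul, ← card_univ]
  refine sum_le_card_nsmul _ _ _ fun c _ => ?_
  refine le_trans ?_ (mul_le_mul_of_nonneg_left ((h r f hr (p c) j (u c) (v c) (S c) (hS c)).trans
    (Dr_le_Dt hr _ hj _ _ _ _)) hC)
  rw [mul_sum]
  refine le_trans (b := ∑ s ∈ R with key s = c,
    C * (min (ww r (T c s)) (ww r (mvP (p c) j (p c) (p c) (u c) (v c) (T c s))) *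
      Er r f (S c (T c s).1.1 (T c s).2.1) (T c s).1.1 (T c s).2.1 (p c) j (u c) (v c) ^ 2))
    (sum_le_sum fun s hs => ?_) ?_
  · obtain ⟨hs', rfl⟩ := mem_filter.1 hs
    have G := H s hs'
    obtain ⟨e1, e2⟩ := mvP_ok G.ok (u (key s)) (v (key s))
    rw [← mul_assoc]
    refine mul_le_mul_of_nonneg_right ?_ (sq_nonneg _)
    rw [mul_min_of_nonneg _ _ hC]
    refine le_min G.w1 ?_
    rw [ww.eq_1 r (mvP _ _ _ _ _ _ _), e1, e2, mul_comm (wt r (fb _ _ _ _))]
    exact G.w2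
  · rw [← sum_image (s := R.filter fun s => key s = c) (g := T c) (f := fun t =>
      C * (min (ww r t) (ww r (mvP (p c) j (p c) (p c) (u c) (v c) t)) *
      Er r f (S c t.1.1 t.2.1) t.1.1 t.2.1 (p c) j (u c) (v c) ^ 2)) (hT c).injOn]
    refine sum_le_sum_of_subset_of_nonneg (fun t ht => ?_) fun t _ _ =>
      mul_nonneg hC (mul_nonneg (le_min (ww_pos hr _).le (ww_pos hr _).le) (sq_nonneg _))
    obtain ⟨s, hs, rfl⟩ := mem_image.1 ht
    obtain ⟨hs', rfl⟩ := mem_filter.1 hs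
    have G := H s hs'
    exact mem_filter.2 ⟨mem_univ _, G.ok, G.sub, G.hu, G.hv, G.cl⟩

omit [Fintype V] in
theorem stab1 (p : V) (l : ℕ) {a b π : V → V} (h : ∀ x ∈ ws a b p l, π x = a x) :
    ws π b p l = ws a b p l := (ws_congr h fun _ _ => rfl).1

omit [Fintype V] in
theorem stab2 (p : V) (l : ℕ) {a b π : V → V} (h : ∀ x ∈ ws b a p l, π x = a x) :
    ws b π p l = ws b a p l := (ws_congr (fun _ _ => rfl) h).1

/-- The two ways to close an odd arc give close values. -/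
theorem link (h : AvgStmt V) (hr : Sym r) {C : ℝ} (hC : 1 ≤ C) (p : V) (j : ℕ)
    (R : Finset (PM V × PM V)) (H : ∀ s ∈ R, Ok s.1.1 s.2.1 p (2 * j + 1) ∧
      r (wk s.1.1 s.2.1 p (2 * j)) (wk s.1.1 s.2.1 p (2 * j + 1)) ^ 2 * r p (s.2.1 p) ^ 2 ≤
        C * (r p (wk s.1.1 s.2.1 p (2 * j + 1)) ^ 2 * r (wk s.1.1 s.2.1 p (2 * j)) (s.2.1 p) ^ 2)) :
    ∑ s ∈ R, ww r s * (Pp r f s.1.1 s.2.1 p j - Pm r f s.1.1 s.2.1 p j) ^ 2 ≤ C * Dt r f := by
  have key := transfer (f := f) h hr R (fun _ => ()) (fun _ => id) (fun _ => injective_id)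
    (fun _ => p) (fun _ => p) (fun _ => p) j (fun _ a b => ws a b p (2 * j + 2))
    (fun _ _ _ _ e => stab1 p _ e) (C := C) (by linarith) fun s hs => by
      obtain ⟨ok, le⟩ := H s hs
      have E := ok.evn s.1.2 s.2.2
      have w0 := ww_pos hr s
      refine ⟨ok, ws_mono (by omega), E.hp, E.hp, E.ha, le_mul_of_one_le_left w0.le hC, ?_⟩
      rw [wk_last] at le
      rw [cj_self]
      have := hr.1
      exact wt_le ((ok.arc s.1.2 s.2.2).wt hr.1 hr.2 s.1.2 s.2.2) le w0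
        (mul_pos (pow_pos (this _ _) _) (pow_pos (this _ _) _))
        (mul_pos (pow_pos (this _ _) _) (pow_pos (this _ _) _))
  simpa only [Er, cj_self, Pp, id, Fintype.card_unit, Nat.cast_one, one_mul] using key

theorem two_errors {ι : Type} (R : Finset ι) (w e e1 e2 : ι → ℝ) {B : ℝ} (hw : ∀ s, 0 ≤ w s)
    (h : ∀ s ∈ R, e s = e1 s - e2 s ∨ e s = e1 s + e2 s) (h1 : ∑ s ∈ R, w s * e1 s ^ 2 ≤ B)
    (h2 : ∑ s ∈ R, w s * e2 s ^ 2 ≤ B) : ∑ s ∈ R, w s * e s ^ 2 ≤ 4 * B := by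
  refine le_trans (b := ∑ s ∈ R, (2 * (w s * e1 s ^ 2) + 2 * (w s * e2 s ^ 2)))
    (sum_le_sum fun s hs => ?_) ?_
  · have := hw s
    have a1 := mul_nonneg this (sq_nonneg (e1 s - e2 s))
    have a2 := mul_nonneg this (sq_nonneg (e1 s + e2 s))
    rcases h s hs with e | e <;> rw [e] <;> nlinarith
  · rw [sum_add_distrib, ← mul_sum, ← mul_sum]; linarith

end Vale.Agent.P308
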